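import Crest.Agent.R133.Defs

/-! Row 133: balanced maps. -/

set_option autoImplicit false

namespace Crest.Agent.R133

open Finset

variable {α β γ δ : Type*} [Fintype α] [Fintype β] [Fintype γ] [Fintype δ]

theorem Balanced.sum_eq [DecidableEq β] {f : α → β} (hf : Balanced f) (F : β → ℝ) :
    (∑ x, F (f x)) * Fintype.card β = Fintype.card α * ∑ y, F y := by
  rw [← Finset.sum_fiberwise_of_maps_to (s := univ) (t := univ) (g := f) (by simp), sum_mul,
    mul_sum]
  refine sum_congr rfl fun y _ => ?_
  have h1 : ∑ x with f x = y, F (f x) = ((univ.filter fun x => f x = y).card : ℝ) * F y := by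
    rw [← nsmul_eq_mul, ← sum_const]
    exact sum_congr rfl fun x hx => by rw [(mem_filter.1 hx).2]
  have h2 : (((univ.filter fun x => f x = y).card : ℝ)) * Fintype.card β = Fintype.card α := by
    exact_mod_cast hf y
  rw [h1, ← h2]; ring

theorem balanced_of_sum [DecidableEq β] {f : α → β}
    (h : ∀ F : β → ℝ, (∑ x, F (f x)) * Fintype.card β = Fintype.card α * ∑ y, F y) :
    Balanced f := by
  intro y
  have := h fun z => if z = y then 1 else 0
  rw [sum_ite_eq', if_pos (mem_univ _), mul_one, sum_boole] at this
  exact_mod_cast this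

theorem balanced_comp [DecidableEq β]
    [DecidableEq γ] {f : α → β} {g : β → γ} (hg : Balanced g) (hf : Balanced f)
    (hβ : 0 < Fintype.card β) : Balanced fun x => g (f x) := by
  refine balanced_of_sum fun F => ?_
  have h1 := hf.sum_eq fun y => F (g y)
  have h2 := hg.sum_eq F
  have h3 : (0 : ℝ) < Fintype.card β := by exact_mod_cast hβ
  refine mul_right_cancel₀ h3.ne' ?_
  calc (∑ x, F (g (f x))) * Fintype.card γ * Fintype.card β
      = ((∑ x, F (g (f x))) * Fintype.card β) * Fintype.card γ := by ring
    _ = Fintype.card α * ((∑ y, F (g y)) * Fintype.card γ) := by rw [h1]; ring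
    _ = _ := by rw [h2]; ring

theorem balanced_equiv [DecidableEq β] (e : α ≃ β) : Balanced fun x => e x := by
  refine balanced_of_sum fun F => ?_
  rw [e.sum_comp F, Fintype.card_congr e, mul_comm]

theorem balanced_fst [DecidableEq α] : Balanced fun x : α × β => x.1 := by
  refine balanced_of_sum fun F => ?_
  simp only [Fintype.sum_prod_type, sum_const, card_univ, nsmul_eq_mul, Fintype.card_prod,
    Nat.cast_mul, ← mul_sum]
  ring

theorem balanced_snd [DecidableEq β] : Balanced fun x : α × β => x.2 := by
  refine balanced_of_sum fun F => ?_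
  simp only [Fintype.sum_prod_type, sum_const, card_univ, nsmul_eq_mul, Fintype.card_prod,
    Nat.cast_mul]
  ring

theorem balanced_prod_map [DecidableEq γ] [DecidableEq δ] {f : α → γ} {g : β → δ}
    (hf : Balanced f) (hg : Balanced g) : Balanced fun x : α × β => (f x.1, g x.2) := by
  refine balanced_of_sum fun F => ?_
  simp only [Fintype.sum_prod_type, Fintype.card_prod, Nat.cast_mul]
  have h1 : ∀ a, (∑ b, F (f a, g b)) * Fintype.card δ = Fintype.card β * ∑ z, F (f a, z) :=
    fun a => hg.sum_eq fun z => F (f a, z)
  have h2 := hf.sum_eq fun y => ∑ z, F (y, z)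
  calc (∑ a, ∑ b, F (f a, g b)) * (Fintype.card γ * Fintype.card δ)
      = (∑ a, (∑ b, F (f a, g b)) * Fintype.card δ) * Fintype.card γ := by
        rw [← sum_mul]; ring
    _ = Fintype.card β * ((∑ a, ∑ z, F (f a, z)) * Fintype.card γ) := by
        simp only [h1, ← mul_sum]; ring
    _ = _ := by rw [h2]; ring

theorem balanced_of_injective [DecidableEq β] {f : α → β} (g : α → γ)
    (hinj : Function.Injective fun x => (f x, g x))
    (hcard : Fintype.card α = Fintype.card β * Fintype.card γ) (hα : 0 < Fintype.card α) :
    Balanced f := by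
  classical
  have hb : Function.Bijective fun x => (f x, g x) :=
    (Fintype.bijective_iff_injective_and_card _).2 ⟨hinj, by rw [hcard, Fintype.card_prod]⟩
  exact balanced_comp (f := fun x => Equiv.ofBijective _ hb x) (g := fun x : β × γ => x.1)
    balanced_fst (balanced_equiv _) (by rw [Fintype.card_prod, ← hcard]; exact hα)

theorem balanced_of_fiber_le [DecidableEq β] {f : α → β}
    (h : ∀ y z, (univ.filter fun x => f x = y).card ≤ (univ.filter fun x => f x = z).card) :
    Balanced f := by
  intro y
  rw [← card_univ (α := α), card_eq_sum_card_fiberwise (s := univ) (f := f) (t := univ) (by simp),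
    ← card_univ, mul_comm, ← smul_eq_mul, ← sum_const]
  exact sum_congr rfl fun z _ => le_antisymm (h y z) (h z y)

theorem balanced_eval_pair {ι : Type*} [Fintype ι] [DecidableEq ι] [DecidableEq α] {i j : ι}
    (hij : i ≠ j) : Balanced fun x : ι → α => (x i, x j) := by
  refine balanced_of_fiber_le fun y z => ?_
  refine card_le_card_of_injOn
    (fun x => Function.update (Function.update x i z.1) j z.2) ?_ ?_
  · intro x _
    simp [Function.update_of_ne hij]
  · intro x hx x' hx' h
    simp only [coe_filter, mem_univ, true_and, Set.mem_ofPred_eq] at hx hx'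
    have hx2 := hx.trans hx'.symm
    funext k
    by_cases hki : k = i
    · rw [hki]; exact congrArg Prod.fst hx2
    by_cases hkj : k = j
    · rw [hkj]; exact congrArg Prod.snd hx2
    have := congrFun h k
    simpa [Function.update_of_ne hki, Function.update_of_ne hkj] using this

theorem Balanced.congr [DecidableEq β] {f g : α → β} (hf : Balanced f) (h : ∀ x, g x = f x) :
    Balanced g := by
  rw [show g = f from funext h]; exact hf

end Crest.Agent.R133
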