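import Crest.Prelude.Def_SmoothModel

/-!
Row 133 (S0182): shared definitions.
-/

set_option autoImplicit false

open MeasureTheory Set Metric Filter
open scoped ENNReal

namespace Crest.Agent.R133

/-- Euclidean space. -/
abbrev E (d : ℕ) : Type := EuclideanSpace ℝ (Fin d)

/-- `f` pushes the uniform law on `α` to the uniform law on `β`. -/
def Balanced {α β : Type*} [Fintype α] [Fintype β] [DecidableEq β] (f : α → β) : Prop :=
  ∀ y, (Finset.univ.filter fun x => f x = y).card * Fintype.card β = Fintype.card α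

/-- Height of the level-`l` tower: `len N l = N 0 * ⋯ * N (l-1)`. -/
def len (N : ℕ → ℕ) : ℕ → ℕ
  | 0 => 1
  | l + 1 => N l * len N l

@[simp] theorem len_zero (N : ℕ → ℕ) : len N 0 = 1 := rfl

theorem len_succ (N : ℕ → ℕ) (l : ℕ) : len N (l + 1) = N l * len N l := rfl

theorem len_anchor : type_of% @len.eq_def := @len.eq_def
theorem len_anchor1 : type_of% @len.eq_1 := @len.eq_1
theorem len_anchor2 : type_of% @len.eq_2 := @len.eq_2

theorem len_pos {N : ℕ → ℕ} (hN : ∀ l, 2 ≤ N l) (l : ℕ) : 0 < len N l := by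
  induction l with
  | zero => exact Nat.one_pos
  | succ l ih => rw [len_succ]; exact Nat.mul_pos (by have := hN l; omega) ih

theorem two_pow_le_len {N : ℕ → ℕ} (hN : ∀ l, 2 ≤ N l) (l : ℕ) : 2 ^ l ≤ len N l := by
  induction l with
  | zero => simp
  | succ l ih => rw [len_succ, pow_succ, mul_comm]; exact Nat.mul_le_mul (hN l) ih

/-- `(X, μ, T)` is a system of nested Rokhlin towers.  At level `l` there are `c l` columns
("level-`l` words") of height `len N l`; the point `x` lies in column `wd l x` at height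
`pos l x`.  A level-`(l+1)` word `w` is the concatenation of the level-`l` words
`sub l w 0, …, sub l w (N l - 1)`. -/
structure IsTowerSys {X : Type*} [MeasurableSpace X] (μ : Measure X) (T : X → X)
    (c N : ℕ → ℕ) (sub : ∀ l, Fin (c (l + 1)) → ℕ → Fin (c l))
    (wd : ∀ l, X → Fin (c l)) (pos : ℕ → X → ℕ) : Prop where
  meas_wd : ∀ l, Measurable (wd l)
  meas_pos : ∀ l, Measurable (pos l)
  pos_lt : ∀ l x, pos l x < len N l
  law : ∀ l w k, k < len N l →
    μ {x | wd l x = w ∧ pos l x = k} = ((c l * len N l : ℕ) : ℝ≥0∞)⁻¹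
  step_pos : ∀ l x, pos l (T x) = (pos l x + 1) % len N l
  step_wd : ∀ l x, pos l x + 1 < len N l → wd l (T x) = wd l x
  compat_wd : ∀ l x, wd l x = sub l (wd (l + 1) x) (pos (l + 1) x / len N l)
  compat_pos : ∀ l x, pos l x = pos (l + 1) x % len N l
  approx : ∀ A : Set X, MeasurableSet A → ∀ ε : ℝ≥0∞, 0 < ε → ∀ᶠ l in atTop,
    ∃ B : Set (Fin (c l) × ℕ), μ (symmDiff A {x | (wd l x, pos l x) ∈ B}) ≤ ε

/-- The point `x` is `ρ`-regular for the flat map `G` with linearisation `D` and labelling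
`lab`, with constant `C`. -/
def RegAt {d q : ℕ} (G : E d → E d) (D : E d → E d →L[ℝ] E d) (lab : E d → Fin q)
    (C ρ : ℝ) (x : E d) : Prop :=
  ‖x‖ ≤ C ∧ ‖G x‖ ≤ C ∧
    (∀ u ∈ ball x ρ, ∀ v ∈ ball x ρ, ‖G u - G v - D x (u - v)‖ ≤ C * ρ * ‖u - v‖) ∧
    ∀ u ∈ ball x ρ, lab u = lab x

/-- The labelled system `(μ, T, P)` has a piecewise-`C²` model in `ℝ^d` with constant `C` and
label error `γ`. -/
def HasFlatModel {X : Type*} [MeasurableSpace X] {q : ℕ} (μ : Measure X) (T : X → X)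
    (P : X → Fin q) (γ : ℝ) (d : ℕ) (C : ℝ) : Prop :=
  ∃ (ι : X → E d) (G : E d → E d) (D : E d → E d →L[ℝ] E d) (lab : E d → Fin q),
    Measurable ι ∧ Measurable (fun x => D (ι x)) ∧ Measurable (fun x => lab (ι x)) ∧
    (∀ y, ‖D y‖ ≤ C) ∧
    (∀ A : Set (E d), MeasurableSet A → μ (ι ⁻¹' A) ≤ ENNReal.ofReal C * volume A) ∧
    (∀ᵐ x ∂μ, ι (T x) = G (ι x)) ∧
    μ {x | lab (ι x) ≠ P x} ≤ ENNReal.ofReal γ ∧
    ∀ ρ : ℝ, 0 < ρ → ρ ≤ 1 →
      μ {x | ¬ RegAt G D lab C ρ (ι x)} ≤ ENNReal.ofReal (C * √ρ)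

/-- The operator `S u = (u (k+1) - D k (u k))_{k < n}` has a linear right inverse of
(sup-norm) operator norm at most `σ`. -/
def HasRightInv {d n : ℕ} (D : Fin n → E d →L[ℝ] E d) (σ : ℝ) : Prop :=
  ∃ R : (Fin n → E d) →ₗ[ℝ] (Fin (n + 1) → E d),
    (∀ ξ (k : Fin n), R ξ k.succ - D k (R ξ k.castSucc) = ξ k) ∧ ∀ ξ, ‖R ξ‖ ≤ σ * ‖ξ‖

end Crest.Agent.R133
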