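import Crest.Agent.R133.FlatAux

/-! Row 133: a smooth map of a compact manifold with a smooth density has a flat model. -/

set_option autoImplicit false

open MeasureTheory Set Metric Filter Crest.AnalysisR
open scoped ENNReal Topology
open scoped Manifold ContDiff

namespace Crest.Agent.R133

namespace FlatM

/-- A measurable selection of an index whose function lies above its threshold. -/
lemma exists_sel {M : Type*} [MeasurableSpace M] {n : ℕ} (a0 : Fin n) (f : Fin n → M → ℝ)
    (hf : ∀ a, Measurable (f a)) (t : Fin n → ℝ) :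
    ∃ sel : M → Fin n, Measurable sel ∧
      (∀ m m', (∀ a, t a < f a m ↔ t a < f a m') → sel m = sel m') ∧
      ∀ m, (∃ a, t a < f a m) → t (sel m) < f (sel m) m := by
  classical
  let σ : (Fin n → Prop) → Fin n := fun s => if h : ∃ a, s a then h.choose else a0
  refine ⟨fun m => σ fun a => t a < f a m, ?_, fun m m' h => ?_, fun m h => ?_⟩
  · exact (measurable_of_finite σ).comp (measurable_pi_iff.2 fun a =>
      measurableSet_setOfPred.1 (measurableSet_lt measurable_const (hf a)))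
  · exact congrArg σ (funext fun a => propext (h a))
  · simp only [σ, dif_pos h]
    exact h.choose_spec

lemma no_cross {t x y ε : ℝ} (h1 : ε < |x - t|) (h2 : |y - x| ≤ ε) : t < y ↔ t < x := by
  rw [abs_le] at h2
  rcases lt_abs.1 h1 with h | h <;> constructor <;> intro <;> linarith

section small
variable {M : Type*} [MeasurableSpace M] (ν : Measure M)

/-- A family of sets of measure `O(√ρ)`. -/
def Small (B : ℝ → Set M) : Prop :=
  ∃ C : ℝ, 0 ≤ C ∧ ∀ ρ : ℝ, 0 < ρ → ρ ≤ 1 → ν (B ρ) ≤ ENNReal.ofReal (C * √ρ)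

variable {ν}

lemma Small.union {A B : ℝ → Set M} (hA : Small ν A) (hB : Small ν B) :
    Small ν fun ρ => A ρ ∪ B ρ := by
  obtain ⟨a, ha, hA⟩ := hA
  obtain ⟨b, hb, hB⟩ := hB
  refine ⟨a + b, by positivity, fun ρ h0 h1 => (measure_union_le _ _).trans ?_⟩
  rw [add_mul, ENNReal.ofReal_add (by positivity) (by positivity)]
  exact add_le_add (hA ρ h0 h1) (hB ρ h0 h1)

lemma Small.iUnion {ι : Type*} [Fintype ι] {A : ι → ℝ → Set M} (hA : ∀ i, Small ν (A i)) :
    Small ν fun ρ => ⋃ i, A i ρ := by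
  choose a ha hA using hA
  refine ⟨∑ i, a i, Finset.sum_nonneg fun i _ => ha i, fun ρ h0 h1 =>
    (measure_iUnion_fintype_le _ _).trans ?_⟩
  rw [Finset.sum_mul, ENNReal.ofReal_sum_of_nonneg fun i _ => mul_nonneg (ha i) (by positivity)]
  exact Finset.sum_le_sum fun i _ => hA i ρ h0 h1

lemma small_lt [IsProbabilityMeasure ν] {r : ℝ} (hr : 0 < r) :
    Small ν fun ρ => {_m | r < ρ} := by
  refine ⟨1 / √r, by positivity, fun ρ h0 _ => ?_⟩
  by_cases h : r < ρ
  · refine prob_le_one.trans (ENNReal.one_le_ofReal.2 ?_)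
    rw [one_div, inv_mul_eq_div, one_le_div (Real.sqrt_pos.2 hr)]
    exact Real.sqrt_le_sqrt h.le
  · simp [h]

lemma exists_thr (ν : Measure M) [IsFiniteMeasure ν] {f g : M → ℝ} (hf : Measurable f)
    (hg : Measurable g) : ∃ t ∈ Ioo (0 : ℝ) 1, ∀ C : ℝ, 0 < C →
      (Small ν fun ρ => {m | |f m - t| ≤ C * ρ}) ∧ Small ν fun ρ => {m | |g m - t| ≤ C * ρ} := by
  obtain ⟨t, ht, K, hK, h⟩ := exists_good_threshold (ν.map f + ν.map g)
  refine ⟨t, ht, fun C hC => ?_⟩
  have key : ∀ k : M → ℝ, Measurable k → ν.map k ≤ ν.map f + ν.map g →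
      Small ν fun ρ => {m | |k m - t| ≤ C * ρ} := by
    intro k hk hle
    refine ⟨K * √C, by positivity, fun ρ h0 _ => ?_⟩
    have h1 : {m | |k m - t| ≤ C * ρ} = k ⁻¹' closedBall t (C * ρ) := by
      ext m; simp [Real.dist_eq]
    beta_reduce
    rw [h1, ← Measure.map_apply hk measurableSet_closedBall, mul_assoc, ← Real.sqrt_mul hC.le]
    exact (hle _).trans (h _ (by positivity))
  exact ⟨key f hf (Measure.le_add_right le_rfl), key g hg (Measure.le_add_left le_rfl)⟩

end small

section chart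
variable {d : ℕ} {H : Type*} [TopologicalSpace H] (I : ModelWithCorners ℝ (E d) H)
  {M : Type*} [TopologicalSpace M] [ChartedSpace H M] [IsManifold I ∞ M]

lemma lip_ev (p : M) (f : M → ℝ) (hf : ContMDiff I 𝓘(ℝ, ℝ) ∞ f) {K : Set (E d)}
    (hK : IsCompact K) (hKt : K ⊆ (extChartAt I p).target) :
    ∀ᶠ C : ℝ in atTop, ∀ (y : E d) (ρ : ℝ), 0 < ρ → ball y ρ ⊆ K → ∀ u ∈ ball y ρ,
      |f ((extChartAt I p).symm u) - f ((extChartAt I p).symm y)| ≤ C * ρ := by
  obtain ⟨C, -, h⟩ := uniform_approx I p f hf hK hKt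
  filter_upwards [eventually_ge_atTop C] with C' hC y ρ h0 hy u hu
  exact ((h y ρ h0 hy).2.2.2 u hu).trans (mul_le_mul_of_nonneg_right hC h0.le)

lemma c2_ev (p : M) (Φ : M → E d) (hΦ : ContMDiff I 𝓘(ℝ, E d) ∞ Φ) {K : Set (E d)}
    (hK : IsCompact K) (hKt : K ⊆ (extChartAt I p).target) :
    ∀ᶠ C : ℝ in atTop, ∀ (y : E d) (ρ : ℝ), 0 < ρ → ball y ρ ⊆ K →
      ‖fderiv ℝ (Φ ∘ (extChartAt I p).symm) y‖ ≤ C ∧
      ∀ u ∈ ball y ρ, ∀ v ∈ ball y ρ,
        ‖Φ ((extChartAt I p).symm u) - Φ ((extChartAt I p).symm v) -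
          fderiv ℝ (Φ ∘ (extChartAt I p).symm) y (u - v)‖ ≤ C * ρ * ‖u - v‖ := by
  obtain ⟨C, -, h⟩ := uniform_approx I p Φ hΦ hK hKt
  filter_upwards [eventually_ge_atTop C] with C' hC y ρ h0 hy
  refine ⟨(h y ρ h0 hy).2.1.trans hC, fun u hu v hv => ((h y ρ h0 hy).2.2.1 u hu v hv).trans ?_⟩
  gcongr

end chart

lemma small_slab {d : ℕ} {H : Type*} [TopologicalSpace H]
    (I : ModelWithCorners ℝ (E (d + 1)) H)
    {M : Type*} [TopologicalSpace M] [ChartedSpace H M]
    [IsManifold I ∞ M] [MeasurableSpace M] [BorelSpace M]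
    (ν : Measure M) (hν : HasSmoothPositiveDensity I ν) (p : M) {K : Set (E (d + 1))}
    (hK : IsCompact K) (hKt : K ⊆ (extChartAt I p).target) :
    Small ν fun ρ => {m | m ∈ (extChartAt I p).source ∧ extChartAt I p m ∈ K ∧
      |extChartAt I p m 0| ≤ ρ} := by
  obtain ⟨C, hC, h⟩ := density_bound I ν hν p hK hKt
  obtain ⟨R, hR⟩ := hK.isBounded.exists_pos_norm_le
  refine ⟨C * (2 * (2 * R) ^ d), by have := hR.1; positivity, fun ρ h0 h1 => ?_⟩
  have hm : MeasurableSet {y : E (d + 1) | ‖y‖ ≤ R ∧ |y 0 - 0| ≤ ρ} := by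
    have h1 : Measurable fun y : E (d + 1) => |y 0 - 0| := by fun_prop
    exact (measurableSet_le measurable_norm measurable_const).inter
      (measurableSet_le h1 measurable_const)
  refine (measure_mono ?_).trans ((h _ hm).trans ?_)
  · rintro m ⟨h2, h3, h4⟩
    exact ⟨h2, ⟨hR.2 _ h3, by simpa using h4⟩, h3⟩
  · refine (mul_le_mul_right (volume_slab_le d R 0 ρ hR.1.le h0.le) _).trans ?_
    rw [← ENNReal.ofReal_mul hC]
    refine ENNReal.ofReal_le_ofReal ?_
    have h2 : ρ ≤ √ρ := Real.le_sqrt_of_sq_le (by nlinarith)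
    have h3 : 0 ≤ (2 * R) ^ d := by have := hR.1; positivity
    calc C * (2 * ρ * (2 * R) ^ d) ≤ C * (2 * √ρ * (2 * R) ^ d) := by gcongr
      _ = _ := by ring

lemma exists_offsets (d n : ℕ) (R : ℝ) (hR : 0 ≤ R) :
    ∃ o : Fin n → E (d + 1), ∀ a b, dist (o a) (o b) < R → a = b := by
  refine ⟨fun a => EuclideanSpace.single 0 (R * (a : ℕ)), fun a b h => ?_⟩
  rw [PiLp.dist_single_same, Real.dist_eq, ← mul_sub, abs_mul, abs_of_nonneg hR] at h
  by_contra hab
  have h1 : (1 : ℝ) ≤ |((a : ℕ) : ℝ) - (b : ℕ)| := by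
    have h2 : ((a : ℕ) : ℤ) - (b : ℕ) ≠ 0 := by
      intro h3; exact hab (Fin.ext (by omega))
    exact_mod_cast Int.one_le_abs h2
  nlinarith

end FlatM

open FlatM in
theorem hasFlatModel_of_manifold {d : ℕ} {H : Type*} [TopologicalSpace H]
    (I : ModelWithCorners ℝ (E (d + 1)) H)
    (hI : ∀ y ∈ range I, ∀ ρ : ℝ, ρ ≤ |y 0| → ball y ρ ⊆ range I)
    {M : Type*} [TopologicalSpace M] [T2Space M] [CompactSpace M] [ChartedSpace H M]
    [IsManifold I ∞ M] [MeasurableSpace M] [BorelSpace M]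
    (ν : Measure M) [IsProbabilityMeasure ν] (hν : HasSmoothPositiveDensity I ν)
    (S : M → M) (hS : ContMDiff I I ∞ S) {q : ℕ} (Q : M → Fin q) (hQ : Measurable Q)
    {γ : ℝ} (hγ : 0 < γ) :
    ∃ C : ℕ, 1 ≤ C ∧ HasFlatModel ν S Q γ (d + 1) C := by
  classical
  have : Nonempty M := nonempty_of_isProbabilityMeasure ν
  obtain ⟨m0⟩ := ‹Nonempty M›
  obtain ⟨n, p, r, k, Φ, hr, hKt, hk, hΦ, hcov, hch⟩ := exists_chart_cover (M := M) I
  obtain ⟨h, hh, hlab⟩ := exists_smooth_labels I ν Q hQ hγ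
  have hSm : Measurable S := hS.continuous.measurable
  have hkm : ∀ a, Measurable (k a) := fun a => (hk a).continuous.measurable
  have hhm : ∀ a, Measurable (h a) := fun a => (hh a).continuous.measurable
  choose t ht hthr using fun a => exists_thr ν (hkm a) ((hkm a).comp hSm)
  choose s hs hshr using fun j => exists_thr ν (hhm j) (hhm j)
  obtain ⟨idx, idxm, idxc, idxp⟩ := exists_sel (hcov m0).choose k hkm t
  obtain ⟨lb, lbm, lbc, lbp⟩ := exists_sel (Q m0) h hhm s
  have kpos : ∀ m, 0 < k (idx m) m := fun m => (ht _).1.trans (idxp m <| by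
    obtain ⟨a, ha⟩ := hcov m
    exact ⟨a, ha ▸ (ht a).2⟩)
  set c : Fin n → E (d + 1) := fun a => extChartAt I (p a) (p a) with hc
  set K : Fin n → Set (E (d + 1)) := fun a => closedBall (c a) (2 * r a) ∩ range I with hKdef
  have hKc : ∀ a, IsCompact (K a) := fun a =>
    (isCompact_closedBall _ _).inter_right I.isClosed_range
  obtain ⟨R, hR⟩ := (finite_range r).bddAbove
  have hR' : ∀ a, r a ≤ R := fun a => hR (mem_range_self a)
  obtain ⟨o, ho⟩ := exists_offsets d n (2 * R)
    (by have := hr (idx m0); have := hR' (idx m0); linarith)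
  obtain ⟨Ro, hRo⟩ := (finite_range fun a => ‖o a‖).bddAbove
  set ι : M → E (d + 1) := fun m => Φ (idx m) m + (o (idx m) - c (idx m)) with hι
  have hιeq : ∀ m, ι m = extChartAt I (p (idx m)) m + (o (idx m) - c (idx m)) := fun m => by
    simp only [hι, (hch _ m (kpos m)).2.1]
  have hιd : ∀ m, dist (ι m) (o (idx m)) < R := fun m => by
    have h1 := (hch _ m (kpos m)).2.2
    rw [mem_ball, dist_eq_norm] at h1
    rw [hιeq, dist_eq_norm]
    refine lt_of_eq_of_lt ?_ (h1.trans_le (hR' _))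
    congr 1
    simp only [hc]
    abel
  have hιinj : Function.Injective ι := by
    intro m m' hmm
    have h1 : idx m = idx m' := by
      refine ho _ _ ((dist_triangle_left _ _ (ι m)).trans_lt ?_)
      have h2 := hιd m
      have h3 := hιd m'
      rw [← hmm] at h3
      linarith
    rw [hιeq, hιeq, ← h1, add_left_inj] at hmm
    exact (extChartAt I (p (idx m))).injOn (hch _ m (kpos m)).1
      (h1 ▸ (hch _ m' (kpos m')).1) hmm
  have hιm : Measurable ι := by
    have h1 : Measurable fun x : M × Fin n => Φ x.2 x.1 + (o x.2 - c x.2) :=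
      measurable_from_prod_countable_left fun a =>
        ((hΦ a).continuous.measurable).add_const (o a - c a)
    exact h1.comp (measurable_id.prodMk idxm)
  have hιb : ∀ m, ‖ι m‖ ≤ R + Ro := fun m => by
    have h1 := hιd m
    have h2 : ‖o (idx m)‖ ≤ Ro := hRo (mem_range_self (idx m))
    rw [dist_eq_norm] at h1
    have h3 := norm_le_norm_add_norm_sub' (ι m) (o (idx m))
    linarith
  have hmK : ∀ m, extChartAt I (p (idx m)) m ∈ K (idx m) := fun m => by
    refine ⟨ball_subset_closedBall (ball_subset_ball ?_ (hch _ m (kpos m)).2.2),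
      extChartAt_target_subset_range _ ((extChartAt I _).map_source (hch _ m (kpos m)).1)⟩
    have := hr (idx m); linarith
  -- the density bound
  choose Cd hCd hdens using fun a => density_bound I ν hν (p a) (hKc a) (hKt a)
  have hιdens : ∀ A : Set (E (d + 1)), MeasurableSet A →
      ν (ι ⁻¹' A) ≤ ENNReal.ofReal (∑ a, Cd a) * volume A := by
    intro A hA
    have h1 : ι ⁻¹' A ⊆ ⋃ a, (extChartAt I (p a)).source ∩
        extChartAt I (p a) ⁻¹' ((fun y => y + (o a - c a)) ⁻¹' A ∩ K a) := by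
      intro m hm
      refine mem_iUnion.2 ⟨idx m, (hch _ m (kpos m)).1, ?_, hmK m⟩
      rw [mem_preimage, hιeq] at hm
      exact hm
    refine (measure_mono h1).trans ((measure_iUnion_fintype_le _ _).trans ?_)
    rw [ENNReal.ofReal_sum_of_nonneg fun a _ => hCd a, Finset.sum_mul]
    refine Finset.sum_le_sum fun a _ => ?_
    refine (hdens a _ (measurable_add_const _ hA)).trans_eq ?_
    rw [measure_preimage_add_right]
  -- uniform bounds in the charts
  obtain ⟨C1, hC1, hL1, hL2, hL3, hL4⟩ := ((eventually_gt_atTop (0 : ℝ)).and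
    ((eventually_all.2 fun a => eventually_all.2 fun b =>
      lip_ev I (p a) (k b) (hk b) (hKc a) (hKt a)).and
    ((eventually_all.2 fun a => eventually_all.2 fun b =>
      lip_ev I (p a) (k b ∘ S) ((hk b).comp hS) (hKc a) (hKt a)).and
    ((eventually_all.2 fun a => eventually_all.2 fun j =>
      lip_ev I (p a) (h j) (hh j) (hKc a) (hKt a)).and
    (eventually_all.2 fun a => eventually_all.2 fun b =>
      c2_ev I (p a) (Φ b ∘ S) ((hΦ b).comp hS) (hKc a) (hKt a)))))).exists
  obtain ⟨Cb, hCb, hbad⟩ := ((((Small.iUnion fun a => (hthr a C1 hC1).1).union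
    (Small.iUnion fun a => (hthr a C1 hC1).2)).union
    (Small.iUnion fun j => (hshr j C1 hC1).1)).union
    (Small.iUnion fun a => small_slab I ν hν (p a) (hKc a) (hKt a))).union
    (Small.iUnion fun a => small_lt (ν := ν) (hr a))
  obtain ⟨C, hC⟩ := exists_nat_ge (max (max 1 C1) (max (R + Ro) (max (∑ a, Cd a) Cb)))
  simp only [max_le_iff] at hC
  obtain ⟨⟨hC0, hCC1⟩, hCR, hCCd, hCCb⟩ := hC
  have hinv : ∀ m, Function.invFun ι (ι m) = m := Function.leftInverse_invFun hιinj
  set G : E (d + 1) → E (d + 1) := fun y => ι (S (Function.invFun ι y)) with hG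
  refine ⟨C, by exact_mod_cast hC0, ι, G,
    fun y => if ‖fderiv ℝ G y‖ ≤ C then fderiv ℝ G y else 0,
    fun y => lb (Function.invFun ι y), hιm, ?_, ?_, fun y => ?_, fun A hA => ?_,
    ae_of_all _ fun m => ?_, ?_, fun ρ h0 h1 => ?_⟩
  · have h1 := (measurable_fderiv ℝ G).comp hιm
    exact Measurable.ite (measurableSet_le h1.norm measurable_const) h1 measurable_const
  · simpa only [hinv] using lbm
  · beta_reduce
    split_ifs with h1
    · exact h1
    · simp
  · exact (hιdens A hA).trans (by gcongr)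
  · simp only [hG, hinv]
  · refine (measure_mono fun m hm => ?_).trans hlab
    rintro ⟨h1, h2⟩
    apply hm
    beta_reduce
    rw [hinv]
    by_contra h3
    have h4 := lbp m ⟨Q m, h1 ▸ (hs _).2⟩
    rw [h2 _ h3] at h4
    exact (hs _).1.not_gt h4
  · refine (measure_mono fun m hm => ?_).trans ((hbad ρ h0 h1).trans (by gcongr))
    by_contra hnb
    apply hm
    simp only [mem_union, mem_iUnion, mem_ofPred_eq, not_or, not_exists, not_le, not_lt,
      not_and] at hnb
    obtain ⟨⟨⟨⟨b1, b2⟩, b3⟩, b4⟩, b5⟩ := hnb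
    set a := idx m with ha
    set y0 := extChartAt I (p a) m with hy0
    set w := o a - c a with hw
    have hms : m ∈ (extChartAt I (p a)).source := (hch _ m (kpos m)).1
    have hball : ball y0 ρ ⊆ K a := by
      refine subset_inter (fun u hu => ?_) (hI y0 (hmK m).2 ρ (b4 a hms (hmK m)).le)
      have h2 : dist y0 (c a) < r a := (hch _ m (kpos m)).2.2
      have h3 := dist_triangle u y0 (c a)
      have h4 := b5 a
      rw [mem_ball] at hu
      rw [mem_closedBall]
      linarith
    have hy0s : (extChartAt I (p a)).symm y0 = m := (extChartAt I (p a)).left_inv hms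
    have hιm0 : ι m = y0 + w := hιeq m
    have hsh : ∀ u ∈ ball (ι m) ρ, u - w ∈ ball y0 ρ := fun u hu => by
      rw [mem_ball, dist_eq_norm] at hu ⊢
      rw [hιm0] at hu
      rwa [sub_sub, add_comm w]
    have hinv' : ∀ u ∈ ball (ι m) ρ,
        Function.invFun ι u = (extChartAt I (p a)).symm (u - w) := fun u hu => by
      have h2 : idx ((extChartAt I (p a)).symm (u - w)) = a := idxc _ _ fun b =>
        no_cross (b1 b) (by simpa only [hy0s] using hL1 a b y0 ρ h0 hball _ (hsh u hu))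
      have h3 : ι ((extChartAt I (p a)).symm (u - w)) = u := by
        rw [hιeq, h2, (extChartAt I (p a)).right_inv (hKt a (hball (hsh u hu))), sub_add_cancel]
      conv_lhs => rw [← h3]
      exact hinv _
    set a' := idx (S m) with ha'
    set F : E (d + 1) → E (d + 1) := (Φ a' ∘ S) ∘ (extChartAt I (p a)).symm with hF
    have hGeq : ∀ u ∈ ball (ι m) ρ, G u = F (u - w) + (o a' - c a') := fun u hu => by
      have h2 : idx (S ((extChartAt I (p a)).symm (u - w))) = a' := idxc _ _ fun b =>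
        no_cross (b2 b) (by
          simpa only [hy0s, Function.comp] using hL2 a b y0 ρ h0 hball _ (hsh u hu))
      simp only [hG, hinv' u hu]
      simp only [hι, h2, hF, Function.comp]
    have hfd : fderiv ℝ G (ι m) = fderiv ℝ F y0 := by
      have h2 : G =ᶠ[𝓝 (ι m)] fun u => F (u - w) + (o a' - c a') :=
        eventually_of_mem (ball_mem_nhds _ h0) hGeq
      rw [h2.fderiv_eq, fderiv_add_const, fderiv_comp_sub, hιm0, add_sub_cancel_right]
    obtain ⟨h5, h6⟩ := hL4 a a' y0 ρ h0 hball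
    refine ⟨(hιb m).trans hCR, (hιb _).trans hCR, fun u hu v hv => ?_, fun u hu => ?_⟩
    · have h7 := h6 _ (hsh u hu) _ (hsh v hv)
      beta_reduce
      rw [hfd, if_pos (show ‖fderiv ℝ F y0‖ ≤ C from h5.trans hCC1), hGeq u hu, hGeq v hv,
        add_sub_add_right_eq_sub]
      rw [sub_sub_sub_cancel_right] at h7
      exact h7.trans (by gcongr)
    · simp only [hinv' u hu, hinv]
      exact lbc _ _ fun j =>
        no_cross (b3 j) (by simpa only [hy0s] using hL3 a j y0 ρ h0 hball _ (hsh u hu))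

end Crest.Agent.R133
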