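import Crest.Agent.R133.Defs

/-! Row 133: auxiliary lemmas for the passage from a manifold to a flat model. -/

set_option autoImplicit false

open MeasureTheory Set Metric Filter Crest.AnalysisR
open scoped ENNReal Topology
open scoped Manifold ContDiff

namespace Crest.Agent.R133

/-- A finite measure on the line has a point of `(0,1)` whose neighbourhoods are small. -/
theorem exists_good_threshold (κ : Measure ℝ) [IsFiniteMeasure κ] :
    ∃ t ∈ Ioo (0 : ℝ) 1, ∃ C : ℝ, 0 ≤ C ∧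
      ∀ ρ : ℝ, 0 < ρ → κ (closedBall t ρ) ≤ ENNReal.ofReal (C * √ρ) := by
  have h1 := Besicovitch.ae_tendsto_rnDeriv κ (volume : Measure ℝ)
  have h2 := Measure.rnDeriv_lt_top κ (volume : Measure ℝ)
  have h3 : ∃ᵐ t ∂(volume : Measure ℝ), t ∈ Ioo (0 : ℝ) 1 := by
    rw [frequently_ae_mem_iff]
    simp
  obtain ⟨t, ht, ht1, ht2⟩ := (h3.and_eventually (h1.and h2)).exists
  set L := κ.rnDeriv volume t with hL
  have hlt : L < L + 1 := ENNReal.lt_add_right ht2.ne one_ne_zero
  have hev := ht1.eventually (gt_mem_nhds hlt)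
  obtain ⟨δ, hδ, hδ'⟩ := (nhdsGT_basis (0 : ℝ)).eventually_iff.1 hev
  set δ0 := min δ 1 with hδ0
  have hδ0p : 0 < δ0 := lt_min hδ one_pos
  have hs : 0 < √δ0 := Real.sqrt_pos.2 hδ0p
  have hA : 0 ≤ (L + 1).toReal := ENNReal.toReal_nonneg
  have hB : 0 ≤ (κ univ).toReal / √δ0 := div_nonneg ENNReal.toReal_nonneg hs.le
  refine ⟨t, ht, 2 * (L + 1).toReal + (κ univ).toReal / √δ0, by positivity, fun ρ hρ => ?_⟩
  have hsρ : 0 < √ρ := Real.sqrt_pos.2 hρ
  rcases lt_or_ge ρ δ0 with h | h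
  · have h4 := hδ' (⟨hρ, h.trans_le (min_le_left _ _)⟩ : ρ ∈ Ioo 0 δ)
    have h5 : κ (closedBall t ρ) ≤ (L + 1) * volume (closedBall t ρ) := by
      apply le_of_lt
      refine (ENNReal.div_lt_iff (Or.inl ?_) (Or.inl ?_)).1 h4
      · exact (measure_closedBall_pos volume t hρ).ne'
      · exact measure_closedBall_lt_top.ne
    refine h5.trans ?_
    rw [Real.volume_closedBall]
    have hne : L + 1 ≠ ⊤ := ENNReal.add_ne_top.2 ⟨ht2.ne, ENNReal.one_ne_top⟩
    rw [← ENNReal.ofReal_toReal hne, ← ENNReal.ofReal_mul hA]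
    apply ENNReal.ofReal_le_ofReal
    have hρ1 : ρ ≤ 1 := h.le.trans (min_le_right _ _)
    have h6 : ρ ≤ √ρ := by
      have := Real.sq_sqrt hρ.le
      have h7 : √ρ ≤ 1 := Real.sqrt_le_one.2 hρ1
      nlinarith
    rw [ENNReal.toReal_ofReal hA]
    nlinarith [mul_nonneg hB hsρ.le, mul_le_mul_of_nonneg_left h6 hA]
  · refine (measure_mono (subset_univ _)).trans ?_
    rw [← ENNReal.ofReal_toReal (measure_ne_top κ univ)]
    apply ENNReal.ofReal_le_ofReal
    rw [ENNReal.toReal_ofReal ENNReal.toReal_nonneg]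
    have h6 : √δ0 ≤ √ρ := Real.sqrt_le_sqrt h
    have h7 : (κ univ).toReal / √δ0 * √δ0 = (κ univ).toReal := div_mul_cancel₀ _ hs.ne'
    nlinarith [mul_le_mul_of_nonneg_left h6 hB, mul_nonneg hA hsρ.le]

/-- Volume of a slab. -/
theorem volume_slab_le (d : ℕ) (R s ρ : ℝ) (hR : 0 ≤ R) (hρ : 0 ≤ ρ) :
    volume {y : E (d + 1) | ‖y‖ ≤ R ∧ |y 0 - s| ≤ ρ} ≤
      ENNReal.ofReal (2 * ρ * (2 * R) ^ d) := by
  let a : Fin (d + 1) → ℝ := Fin.cons (s - ρ) fun _ => -R
  let b : Fin (d + 1) → ℝ := Fin.cons (s + ρ) fun _ => R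
  have hsub : {y : E (d + 1) | ‖y‖ ≤ R ∧ |y 0 - s| ≤ ρ} ⊆
      (WithLp.ofLp : E (d + 1) → (Fin (d + 1) → ℝ)) ⁻¹' Icc a b := by
    rintro y ⟨h1, h2⟩
    have h3 : ∀ i, |y i| ≤ R := fun i => by
      have := PiLp.norm_apply_le y i
      rw [Real.norm_eq_abs] at this
      exact this.trans h1
    rw [abs_le] at h2
    refine ⟨fun i => ?_, fun i => ?_⟩
    · refine Fin.cases ?_ (fun j => ?_) i
      · simp only [a, Fin.cons_zero]; linarith [h2.1]
      · simp only [a, Fin.cons_succ]; exact (abs_le.1 (h3 _)).1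
    · refine Fin.cases ?_ (fun j => ?_) i
      · simp only [b, Fin.cons_zero]; linarith [h2.2]
      · simp only [b, Fin.cons_succ]; exact (abs_le.1 (h3 _)).2
  refine (measure_mono hsub).trans ?_
  rw [(PiLp.volume_preserving_ofLp (Fin (d + 1))).measure_preimage
    measurableSet_Icc.nullMeasurableSet, Real.volume_Icc_pi, Fin.prod_univ_succ]
  simp only [a, b, Fin.cons_zero, Fin.cons_succ, Finset.prod_const, Finset.card_univ,
    Fintype.card_fin]
  rw [← ENNReal.ofReal_pow (by linarith), ← ENNReal.ofReal_mul (by linarith)]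
  apply le_of_eq
  congr 1
  ring

variable {d : ℕ} {H : Type*} [TopologicalSpace H] (I : ModelWithCorners ℝ (E d) H)
  {M : Type*} [TopologicalSpace M] [ChartedSpace H M] [IsManifold I ∞ M]

/-- Uniform `C²` bounds of a smooth function read in a chart, on balls inside a compact set. -/
theorem uniform_approx {F : Type*} [NormedAddCommGroup F] [NormedSpace ℝ F] (p : M)
    (Φ : M → F) (hΦ : ContMDiff I 𝓘(ℝ, F) ∞ Φ) {K : Set (E d)} (hK : IsCompact K)
    (hKt : K ⊆ (extChartAt I p).target) :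
    ∃ C : ℝ, 0 ≤ C ∧ ∀ (y : E d) (ρ : ℝ), 0 < ρ → ball y ρ ⊆ K →
      DifferentiableAt ℝ (Φ ∘ (extChartAt I p).symm) y ∧
      ‖fderiv ℝ (Φ ∘ (extChartAt I p).symm) y‖ ≤ C ∧
      (∀ u ∈ ball y ρ, ∀ v ∈ ball y ρ,
        ‖Φ ((extChartAt I p).symm u) - Φ ((extChartAt I p).symm v) -
          fderiv ℝ (Φ ∘ (extChartAt I p).symm) y (u - v)‖ ≤ C * ρ * ‖u - v‖) ∧
      ∀ u ∈ ball y ρ,
        ‖Φ ((extChartAt I p).symm u) - Φ ((extChartAt I p).symm y)‖ ≤ C * ρ := by
  set g := Φ ∘ (extChartAt I p).symm with hg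
  set t := (extChartAt I p).target with ht
  have hU : UniqueDiffOn ℝ t := uniqueDiffOn_extChartAt_target p
  have hg0 : ContDiffOn ℝ ∞ g t := by
    rw [← contMDiffOn_iff_contDiffOn]
    exact hΦ.comp_contMDiffOn (contMDiffOn_extChartAt_symm p)
  have hg2 : ContDiffOn ℝ 2 g t := hg0.of_le (by norm_cast)
  set g1 := fderivWithin ℝ g t with hg1
  have hg1c : ContDiffOn ℝ 1 g1 t := hg2.fderivWithin hU (by norm_num)
  set g2 := fderivWithin ℝ g1 t with hg2d
  have hg2c : ContinuousOn g2 t := hg1c.continuousOn_fderivWithin hU le_rfl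
  obtain ⟨C1, hC1⟩ := hK.exists_bound_of_continuousOn (hg1c.continuousOn.mono hKt)
  obtain ⟨C2, hC2⟩ : ∃ C, ∀ x ∈ K, ‖g2 x‖ ≤ C :=
    hK.exists_bound_of_continuousOn (E := E d →L[ℝ] E d →L[ℝ] F) (hg2c.mono hKt)
  refine ⟨max (max C1 C2) 0, le_max_right _ _, fun y ρ hρ hb => ?_⟩
  set C := max (max C1 C2) 0 with hC
  have hC0 : 0 ≤ C := le_max_right _ _
  have hC1' : C1 ≤ C := (le_max_left _ _).trans (le_max_left _ _)
  have hC2' : C2 ≤ C := (le_max_right _ _).trans (le_max_left _ _)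
  have hn : ∀ u ∈ ball y ρ, t ∈ 𝓝 u := fun u hu =>
    mem_of_superset (isOpen_ball.mem_nhds hu) (hb.trans hKt)
  have hd1 : ∀ u ∈ ball y ρ, HasFDerivAt g (g1 u) u := fun u hu =>
    ((hg2.differentiableOn (by norm_num) u (hKt (hb hu))).hasFDerivWithinAt).hasFDerivAt (hn u hu)
  have hd2 : ∀ u ∈ ball y ρ, HasFDerivAt g1 (g2 u) u := fun u hu =>
    ((hg1c.differentiableOn (by norm_num) u (hKt (hb hu))).hasFDerivWithinAt).hasFDerivAt
      (hn u hu)
  have hy : y ∈ ball y ρ := mem_ball_self hρ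
  have hfy : fderiv ℝ g y = g1 y := (hd1 y hy).fderiv
  have hlip : ∀ u ∈ ball y ρ, ‖g1 u - g1 y‖ ≤ C * ρ := fun u hu => by
    have := (convex_ball y ρ).norm_image_sub_le_of_norm_hasFDerivWithin_le (C := C)
      (fun x hx => (hd2 x hx).hasFDerivWithinAt) (fun x hx => (hC2 x (hb hx)).trans hC2') hy hu
    refine this.trans (mul_le_mul_of_nonneg_left ?_ hC0)
    rw [← dist_eq_norm]; exact (mem_ball.1 hu).le
  refine ⟨(hd1 y hy).differentiableAt, ?_, fun u hu v hv => ?_, fun u hu => ?_⟩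
  · rw [hfy]; exact (hC1 y (hb hy)).trans hC1'
  · rw [hfy]
    exact (convex_ball y ρ).norm_image_sub_le_of_norm_hasFDerivWithin_le' (f := g)
      (fun x hx => (hd1 x hx).hasFDerivWithinAt) hlip hv hu
  · have := (convex_ball y ρ).norm_image_sub_le_of_norm_hasFDerivWithin_le (C := C) (f := g)
      (fun x hx => (hd1 x hx).hasFDerivWithinAt) (fun x hx => (hC1 x (hb hx)).trans hC1') hy hu
    refine this.trans (mul_le_mul_of_nonneg_left ?_ hC0)
    rw [← dist_eq_norm]; exact (mem_ball.1 hu).le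

/-- A measure with smooth density is dominated by Lebesgue measure on compact parts of a chart. -/
theorem density_bound [MeasurableSpace M] [BorelSpace M] (ν : Measure M)
    (hν : HasSmoothPositiveDensity I ν) (p : M) {K : Set (E d)} (hK : IsCompact K)
    (hKt : K ⊆ (extChartAt I p).target) :
    ∃ C : ℝ, 0 ≤ C ∧ ∀ A : Set (E d), MeasurableSet A →
      ν ((extChartAt I p).source ∩ extChartAt I p ⁻¹' (A ∩ K)) ≤ ENNReal.ofReal C * volume A := by
  obtain ⟨f, hf, -, hmap⟩ := hν (chartAt H p) (chart_mem_atlas H p)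
  have htar : I '' (chartAt H p).target = (extChartAt I p).target := by
    rw [extChartAt_target, I.image_eq]
  rw [htar] at hf hmap
  obtain ⟨C, hC⟩ := hK.exists_bound_of_continuousOn (hf.continuousOn.mono hKt)
  refine ⟨max C 0, le_max_right _ _, fun A hA => ?_⟩
  have hAK : MeasurableSet (A ∩ K) := hA.inter hK.measurableSet
  have hso : MeasurableSet (chartAt H p).source := (chartAt H p).open_source.measurableSet
  have hae : AEMeasurable (I ∘ chartAt H p) (ν.restrict (chartAt H p).source) :=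
    (I.continuous.comp_continuousOn (chartAt H p).continuousOn).aemeasurable hso
  calc ν ((extChartAt I p).source ∩ extChartAt I p ⁻¹' (A ∩ K))
      = ν.restrict (chartAt H p).source ((I ∘ chartAt H p) ⁻¹' (A ∩ K)) := by
        rw [Measure.restrict_apply' hso, extChartAt_source, inter_comm]
        rfl
    _ ≤ (ν.restrict (chartAt H p).source).map (I ∘ chartAt H p) (A ∩ K) :=
        Measure.le_map_apply hae _
    _ = ∫⁻ y in A ∩ K, ENNReal.ofReal (f y) ∂(volume.restrict (extChartAt I p).target) := by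
        rw [hmap, withDensity_apply _ hAK]
    _ ≤ ∫⁻ _ in A ∩ K, ENNReal.ofReal (max C 0) ∂(volume.restrict (extChartAt I p).target) := by
        refine setLIntegral_mono' hAK fun y hy => ENNReal.ofReal_le_ofReal ?_
        exact (le_abs_self _).trans ((hC y hy.2).trans (le_max_left _ _))
    _ ≤ ENNReal.ofReal (max C 0) * volume A := by
        rw [setLIntegral_const]
        exact mul_le_mul' le_rfl
          ((Measure.restrict_le_self _).trans (measure_mono inter_subset_left))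

/-- A measurable labelling is, up to a small set, cut out by smooth functions. -/
theorem exists_smooth_labels [T2Space M] [CompactSpace M] [MeasurableSpace M] [BorelSpace M]
    (ν : Measure M) [IsFiniteMeasure ν] {q : ℕ} (Q : M → Fin q) (hQ : Measurable Q)
    {γ : ℝ} (hγ : 0 < γ) :
    ∃ h : Fin q → M → ℝ, (∀ a, ContMDiff I 𝓘(ℝ, ℝ) ∞ (h a)) ∧
      ν {m | ¬ (h (Q m) m = 1 ∧ ∀ a, a ≠ Q m → h a m = 0)} ≤ ENNReal.ofReal γ := by
  have := Manifold.metrizableSpace I M
  have hq : (0 : ℝ) < γ / (q + 1) := by positivity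
  have hK : ∀ a : Fin q, ∃ K, K ⊆ Q ⁻¹' {a} ∧ IsClosed K ∧
      ν (Q ⁻¹' {a} \ K) < ENNReal.ofReal (γ / (q + 1)) := fun a =>
    (hQ (measurableSet_singleton a)).exists_isClosed_sdiff_lt (measure_ne_top _ _)
      (ENNReal.ofReal_pos.2 hq).ne'
  choose K hKs hKc hKm using hK
  have hh : ∀ a : Fin q, ∃ h : M → ℝ, ContMDiff I 𝓘(ℝ, ℝ) ∞ h ∧
      EqOn h 0 (⋃ a' ∈ {a' | a' ≠ a}, K a') ∧ EqOn h 1 (K a) := fun a => by
    have hc : IsClosed (⋃ a' ∈ {a' | a' ≠ a}, K a') :=
      (Set.toFinite _).isClosed_biUnion fun a' _ => hKc a'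
    have hdj : Disjoint (⋃ a' ∈ {a' | a' ≠ a}, K a') (K a) := by
      rw [Set.disjoint_left]
      intro m hm hm'
      simp only [mem_iUnion] at hm
      obtain ⟨a', ha', hm⟩ := hm
      have e1 : Q m = a' := hKs a' hm
      have e2 : Q m = a := hKs a hm'
      exact ha' (e1.symm.trans e2)
    obtain ⟨f, h0, h1, -⟩ := exists_contMDiffMap_zero_one_of_isClosed (n := ⊤) I hc (hKc a) hdj
    exact ⟨f, f.contMDiff, h0, h1⟩
  choose h hs h0 h1 using hh
  refine ⟨h, hs, ?_⟩
  have hsub : {m | ¬ (h (Q m) m = 1 ∧ ∀ a, a ≠ Q m → h a m = 0)} ⊆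
      ⋃ a, Q ⁻¹' {a} \ K a := by
    intro m hm
    refine mem_iUnion.2 ⟨Q m, rfl, fun hmK => hm ⟨h1 _ hmK, fun a ha => h0 a ?_⟩⟩
    simp only [mem_iUnion]
    exact ⟨Q m, fun e => ha e.symm, hmK⟩
  refine (measure_mono hsub).trans ((measure_iUnion_fintype_le ν _).trans ?_)
  refine (Finset.sum_le_sum fun a _ => (hKm a).le).trans ?_
  rw [Finset.sum_const, Finset.card_univ, Fintype.card_fin, nsmul_eq_mul,
    ← ENNReal.ofReal_natCast, ← ENNReal.ofReal_mul (Nat.cast_nonneg q)]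
  apply ENNReal.ofReal_le_ofReal
  rw [mul_div_assoc', div_le_iff₀ (by positivity)]
  nlinarith

/-- A finite family of charts with two nested smooth cut-offs: `k a` is a smooth function with
`{k a = 1}` covering `M`; where `k a > 0` the point lies in the chart at `p a`, at distance
`< r a` of the centre, and the globally smooth map `Φ a` agrees with the chart. -/
theorem exists_chart_cover [T2Space M] [CompactSpace M] :
    ∃ (n : ℕ) (p : Fin n → M) (r : Fin n → ℝ) (k : Fin n → M → ℝ) (Φ : Fin n → M → E d),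
      (∀ a, 0 < r a) ∧
      (∀ a, closedBall (extChartAt I (p a) (p a)) (2 * r a) ∩ range I ⊆
        (extChartAt I (p a)).target) ∧
      (∀ a, ContMDiff I 𝓘(ℝ, ℝ) ∞ (k a)) ∧ (∀ a, ContMDiff I 𝓘(ℝ, E d) ∞ (Φ a)) ∧
      (∀ m, ∃ a, k a m = 1) ∧
      ∀ a m, 0 < k a m → m ∈ (extChartAt I (p a)).source ∧ Φ a m = extChartAt I (p a) m ∧
        extChartAt I (p a) m ∈ ball (extChartAt I (p a) (p a)) (r a) := by
  have key : ∀ p : M, ∃ (r : ℝ) (k : M → ℝ) (Φ : M → E d), 0 < r ∧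
      closedBall (extChartAt I p p) (2 * r) ∩ range I ⊆ (extChartAt I p).target ∧
      ContMDiff I 𝓘(ℝ, ℝ) ∞ k ∧ ContMDiff I 𝓘(ℝ, E d) ∞ Φ ∧ {m | k m = 1} ∈ 𝓝 p ∧
      ∀ m, 0 < k m → m ∈ (extChartAt I p).source ∧ Φ m = extChartAt I p m ∧
        extChartAt I p m ∈ ball (extChartAt I p p) r := by
    intro p
    obtain ⟨ε, hε, hεs⟩ := Metric.mem_nhdsWithin_iff.1 (extChartAt_target_mem_nhdsWithin (I := I) p)
    let h : SmoothBumpFunction I p := Classical.arbitrary _
    have hN : {m | h m = 1} ∩ ((extChartAt I p).source ∩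
        extChartAt I p ⁻¹' ball (extChartAt I p p) (ε / 3)) ∈ 𝓝 p := by
      refine inter_mem h.eventuallyEq_one (inter_mem (extChartAt_source_mem_nhds p) ?_)
      exact (continuousAt_extChartAt p).preimage_mem_nhds (ball_mem_nhds _ (by positivity))
    obtain ⟨k, -, hk⟩ := (SmoothBumpFunction.nhds_basis_tsupport (I := I) p).mem_iff.1 hN
    refine ⟨ε / 3, k, fun m => h m • extChartAt I p m, by positivity, ?_, k.contMDiff,
      h.contMDiff_smul (contMDiffOn_extChartAt (I := I) (x := p)), k.eventuallyEq_one, ?_⟩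
    · rintro y ⟨hy1, hy2⟩
      refine hεs ⟨?_, hy2⟩
      exact closedBall_subset_ball (by linarith) hy1
    · intro m hm
      obtain ⟨e1, e2, e3⟩ := hk (subset_tsupport _ hm.ne')
      refine ⟨e2, ?_, e3⟩
      have e1' : h m = 1 := e1
      simp only [e1', one_smul]
  choose r k Φ hr hsub hk hΦ hn hloc using key
  obtain ⟨s, -, hs⟩ := isCompact_univ.elim_nhds_subcover (fun p => {m | k p m = 1})
    fun p _ => hn p
  let e := s.equivFin.symm
  refine ⟨s.card, fun a => e a, fun a => r (e a), fun a => k (e a), fun a => Φ (e a),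
    fun a => hr _, fun a => hsub _, fun a => hk _, fun a => hΦ _, fun m => ?_,
    fun a m hm => hloc _ m hm⟩
  have hm := hs (mem_univ m)
  simp only [mem_iUnion] at hm
  obtain ⟨p, hp, hm⟩ := hm
  refine ⟨e.symm ⟨p, hp⟩, ?_⟩
  simp only [Equiv.apply_symm_apply]
  exact hm

end Crest.Agent.R133
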