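import Mathlib

/-! Row 133: determinant inequalities for positive definite matrices. -/

set_option autoImplicit false
set_option linter.unusedSectionVars false

open Matrix
open scoped MatrixOrder

namespace Crest.Agent.R133

variable {ι : Type*} [Fintype ι] [DecidableEq ι]

/-- A lower bound for all eigenvalues bounds the quadratic form from below. -/
theorem quad_ge_of_eigenvalues {A : Matrix ι ι ℝ} (hA : A.IsHermitian) (μ : ℝ)
    (h : ∀ i, μ ≤ hA.eigenvalues i) (y : ι → ℝ) : μ * (y ⬝ᵥ y) ≤ y ⬝ᵥ (A *ᵥ y) := by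
  set U : Matrix ι ι ℝ := (hA.eigenvectorUnitary : Matrix ι ι ℝ) with hU
  have h1 : A = U * diagonal hA.eigenvalues * Uᵀ := by
    conv_lhs => rw [hA.spectral_theorem, Unitary.conjStarAlgAut_apply]
    simp [hU, star_eq_conjTranspose, conjTranspose_eq_transpose_of_trivial]
  have h2 : U * Uᵀ = 1 := by
    have := Unitary.coe_mul_star_self hA.eigenvectorUnitary
    simpa [hU, star_eq_conjTranspose, conjTranspose_eq_transpose_of_trivial] using this
  set z := Uᵀ *ᵥ y with hz
  have h3 : y ⬝ᵥ y = z ⬝ᵥ z := by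
    rw [hz, dotProduct_mulVec, vecMul_transpose, mulVec_mulVec, h2, one_mulVec]
  have h4 : y ⬝ᵥ (A *ᵥ y) = z ⬝ᵥ (diagonal hA.eigenvalues *ᵥ z) := by
    conv_lhs => rw [h1, ← mulVec_mulVec, ← mulVec_mulVec, dotProduct_mulVec, ← mulVec_transpose]
  rw [h3, h4]
  simp only [dotProduct, mulVec_diagonal, Finset.mul_sum]
  refine Finset.sum_le_sum fun i _ => ?_
  nlinarith [h i, mul_self_nonneg (z i)]

theorem key_one {A : Matrix ι ι ℝ} (hA : A.PosDef) (htr : A.trace ≤ Fintype.card ι) :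
    A.det ≤ 1 ∧ ∀ y : ι → ℝ, A.det / Real.exp 1 * (y ⬝ᵥ y) ≤ y ⬝ᵥ (A *ᵥ y) := by
  have hpos := hA.eigenvalues_pos
  have hdet : A.det = ∏ i, hA.1.eigenvalues i := by simpa using hA.1.det_eq_prod_eigenvalues
  have htr' : ∑ i, hA.1.eigenvalues i ≤ Fintype.card ι := by
    have := hA.1.trace_eq_sum_eigenvalues
    simp only [RCLike.ofReal_real_eq_id, id] at this
    rwa [← this]
  have hle : ∀ i, hA.1.eigenvalues i ≤ Real.exp (hA.1.eigenvalues i - 1) := fun i => by
    linarith [Real.add_one_le_exp (hA.1.eigenvalues i - 1)]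
  constructor
  · rw [hdet]
    calc ∏ i, hA.1.eigenvalues i ≤ ∏ i, Real.exp (hA.1.eigenvalues i - 1) :=
          Finset.prod_le_prod (fun i _ => (hpos i).le) fun i _ => hle i
      _ = Real.exp (∑ i, (hA.1.eigenvalues i - 1)) := (Real.exp_sum _ _).symm
      _ ≤ 1 := by
          rw [Real.exp_le_one_iff, Finset.sum_sub_distrib]
          simpa using htr'
  · refine quad_ge_of_eigenvalues hA.1 _ fun j => ?_
    rw [div_le_iff₀ (Real.exp_pos 1), hdet, ← Finset.mul_prod_erase _ _ (Finset.mem_univ j)]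
    refine mul_le_mul_of_nonneg_left ?_ (hpos j).le
    calc ∏ i ∈ Finset.univ.erase j, hA.1.eigenvalues i
        ≤ ∏ i ∈ Finset.univ.erase j, Real.exp (hA.1.eigenvalues i - 1) :=
          Finset.prod_le_prod (fun i _ => (hpos i).le) fun i _ => hle i
      _ = Real.exp (∑ i ∈ Finset.univ.erase j, (hA.1.eigenvalues i - 1)) :=
          (Real.exp_sum _ _).symm
      _ ≤ Real.exp 1 := by
          rw [Real.exp_le_exp]
          have h1 := Finset.add_sum_erase _ (fun i => hA.1.eigenvalues i - 1) (Finset.mem_univ j)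
          rw [Finset.sum_sub_distrib (s := Finset.univ)] at h1
          simp only [Finset.sum_const, Finset.card_univ, nsmul_eq_mul, mul_one] at h1
          linarith [hpos j]

/-- The key lemma. -/
theorem key {G P : Matrix ι ι ℝ} (hG : G.PosDef) (hP : P.PosDef)
    (htr : (P⁻¹ * G).trace ≤ Fintype.card ι) :
    G.det ≤ P.det ∧
      ∀ x : ι → ℝ, G.det / (Real.exp 1 * P.det) * (x ⬝ᵥ (P *ᵥ x)) ≤ x ⬝ᵥ (G *ᵥ x) := by
  obtain ⟨B, hB⟩ := CStarAlgebra.nonneg_iff_eq_star_mul_self.mp hP.posSemidef.nonneg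
  rw [star_eq_conjTranspose, conjTranspose_eq_transpose_of_trivial] at hB
  have hPd : P.det = B.det * B.det := by rw [hB, det_mul, det_transpose]
  have hPpos := hP.det_pos
  have hBd : B.det ≠ 0 := fun h => by rw [hPd, h, mul_zero] at hPpos; exact lt_irrefl _ hPpos
  have hBu : IsUnit B.det := isUnit_iff_ne_zero.2 hBd
  have hN : ((B⁻¹)ᵀ * G * B⁻¹).PosDef := by
    have := hG.conjTranspose_mul_mul_same (B := B⁻¹)
      (mulVec_injective_of_isUnit (isUnit_nonsing_inv_iff.2 ((isUnit_iff_isUnit_det B).2 hBu)))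
    rwa [conjTranspose_eq_transpose_of_trivial] at this
  have htr' : ((B⁻¹)ᵀ * G * B⁻¹).trace ≤ Fintype.card ι := by
    rw [trace_mul_cycle, transpose_nonsing_inv, ← Matrix.mul_inv_rev, ← hB]
    exact htr
  obtain ⟨h1, h2⟩ := key_one hN htr'
  have hdet : ((B⁻¹)ᵀ * G * B⁻¹).det = G.det / P.det := by
    rw [det_mul, det_mul, det_transpose, det_nonsing_inv, Ring.inverse_eq_inv', hPd]
    field_simp
  rw [hdet] at h1 h2
  refine ⟨(div_le_one hPpos).1 h1, fun x => ?_⟩
  have h3 := h2 (B *ᵥ x)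
  have h4 : (B *ᵥ x) ⬝ᵥ (B *ᵥ x) = x ⬝ᵥ (P *ᵥ x) := by
    rw [hB, ← mulVec_mulVec, dotProduct_mulVec x, vecMul_transpose]
  have h5 : (B *ᵥ x) ⬝ᵥ (((B⁻¹)ᵀ * G * B⁻¹) *ᵥ (B *ᵥ x)) = x ⬝ᵥ (G *ᵥ x) := by
    rw [← mulVec_mulVec, ← mulVec_mulVec, dotProduct_mulVec, vecMul_transpose, mulVec_mulVec,
      mulVec_mulVec, nonsing_inv_mul _ hBu, one_mulVec, Matrix.mul_one]
  rw [h4, h5] at h3
  convert h3 using 2
  field_simp

/-- Hadamard's inequality. -/
theorem det_le_prod_diag {G : Matrix ι ι ℝ} (hG : G.PosDef) : G.det ≤ ∏ i, G i i := by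
  have hd : ∀ i, 0 < G i i := fun i => hG.diag_pos
  have hP : (diagonal fun i => G i i).PosDef := PosDef.diagonal hd
  have hinv : (diagonal fun i => G i i)⁻¹ = diagonal fun i => (G i i)⁻¹ := by
    refine inv_eq_left_inv ?_
    rw [diagonal_mul_diagonal, ← diagonal_one]
    congr 1
    ext i
    exact inv_mul_cancel₀ (hd i).ne'
  have := (key hG hP (by
    rw [hinv]
    simp only [trace, diag, diagonal_mul]
    rw [Finset.sum_congr rfl fun i _ => inv_mul_cancel₀ (hd i).ne']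
    simp)).1
  rwa [det_diagonal] at this

/-- Monotonicity of the determinant. -/
theorem det_le_det_add {G H : Matrix ι ι ℝ} (hG : G.PosDef) (hH : H.PosSemidef) :
    G.det ≤ (G + H).det := by
  have hP : (G + H).PosDef := hG.add_posSemidef hH
  refine (key hG hP ?_).1
  have hu : IsUnit (G + H).det := (isUnit_iff_isUnit_det _).1 hP.isUnit
  have h1 : (G + H)⁻¹ * G = 1 - (G + H)⁻¹ * H := by
    rw [← nonsing_inv_mul _ hu, Matrix.mul_add, add_sub_cancel_right]
  obtain ⟨B, hB⟩ := CStarAlgebra.nonneg_iff_eq_star_mul_self.mp hH.nonneg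
  have h2 : 0 ≤ ((G + H)⁻¹ * H).trace := by
    have := (hP.inv.posSemidef.mul_mul_conjTranspose_same B).trace_nonneg
    rw [trace_mul_cycle, trace_mul_comm, ← star_eq_conjTranspose, ← hB] at this
    exact this
  rw [h1, trace_sub, trace_one]
  linarith

section Block

variable {m o : Type*} [Fintype m] [DecidableEq m] [Fintype o] [DecidableEq o]

/-- Diagonal blocks. -/
def blk (G : Matrix (m × o) (m × o) ℝ) (c : o) : Matrix m m ℝ :=
  G.submatrix (fun i => (i, c)) fun i => (i, c)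

theorem blockDiagonal_quad (M : o → Matrix m m ℝ) (x : m × o → ℝ) :
    x ⬝ᵥ (blockDiagonal M *ᵥ x) =
      ∑ c, (fun i => x (i, c)) ⬝ᵥ (M c *ᵥ fun i => x (i, c)) := by
  simp only [dotProduct, mulVec, Fintype.sum_prod_type_right, blockDiagonal_apply']
  refine Finset.sum_congr rfl fun c _ => Finset.sum_congr rfl fun i _ => ?_
  congr 1
  rw [Finset.sum_eq_single c]
  · simp
  · intro c' _ h
    simp [Ne.symm h]
  · simp

/-- Fischer's inequality and a lower bound for the smallest eigenvalue. -/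
theorem block_key {G : Matrix (m × o) (m × o) ℝ} (hG : G.PosDef) {μ : ℝ} (hμ : 0 < μ)
    (h : ∀ c y, μ * (y ⬝ᵥ y) ≤ y ⬝ᵥ (blk G c *ᵥ y)) :
    G.det ≤ ∏ c, (blk G c).det ∧
      ∀ x, G.det / (Real.exp 1 * ∏ c, (blk G c).det) * μ * (x ⬝ᵥ x) ≤ x ⬝ᵥ (G *ᵥ x) := by
  have hb : ∀ c, (blk G c).PosDef := fun c =>
    hG.submatrix fun i j hij => (Prod.mk.inj hij).1
  have hq : ∀ x : m × o → ℝ, μ * (x ⬝ᵥ x) ≤ x ⬝ᵥ (blockDiagonal (blk G) *ᵥ x) := by
    intro x
    rw [blockDiagonal_quad]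
    have : x ⬝ᵥ x = ∑ c, (fun i => x (i, c)) ⬝ᵥ fun i => x (i, c) := by
      simp only [dotProduct, Fintype.sum_prod_type_right]
    rw [this, Finset.mul_sum]
    exact Finset.sum_le_sum fun c _ => h c _
  have hP : (blockDiagonal (blk G)).PosDef := by
    refine PosDef.of_dotProduct_mulVec_pos ?_ fun x hx => ?_
    · rw [IsHermitian, blockDiagonal_conjTranspose]
      congr 1
      ext1 c
      exact (hb c).1
    · refine lt_of_lt_of_le (mul_pos hμ ?_) (hq x)
      simpa using dotProduct_star_self_pos_iff.2 hx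
  have hinv : (blockDiagonal (blk G))⁻¹ = blockDiagonal fun c => (blk G c)⁻¹ := by
    refine inv_eq_left_inv ?_
    rw [← blockDiagonal_mul, ← blockDiagonal_one]
    congr 1
    ext1 c
    exact nonsing_inv_mul _ ((isUnit_iff_isUnit_det _).1 (hb c).isUnit)
  have htr : ((blockDiagonal (blk G))⁻¹ * G).trace =
      ((blockDiagonal (blk G))⁻¹ * blockDiagonal (blk G)).trace := by
    rw [hinv]
    simp only [trace, diag, mul_apply]
    refine Finset.sum_congr rfl fun p _ => Finset.sum_congr rfl fun q _ => ?_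
    obtain ⟨i, c⟩ := p
    obtain ⟨j, c'⟩ := q
    by_cases hc : c = c'
    · subst hc
      simp [blk]
    · simp [blockDiagonal_apply', hc]
  rw [nonsing_inv_mul _ ((isUnit_iff_isUnit_det _).1 hP.isUnit), trace_one] at htr
  obtain ⟨h1, h2⟩ := key hG hP htr.le
  rw [det_blockDiagonal] at h1 h2
  refine ⟨h1, fun x => le_trans ?_ (h2 x)⟩
  rw [mul_assoc]
  refine mul_le_mul_of_nonneg_left (hq x) (div_nonneg hG.det_pos.le ?_)
  exact (mul_pos (Real.exp_pos 1) (Finset.prod_pos fun c _ => (hb c).det_pos)).le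

end Block

end Crest.Agent.R133
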