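import Crest.Agent.R133.Defs
import Crest.Agent.R133.GramKey

/-! Row 133: at most scales the linearised pseudo-orbit operator is well conditioned. -/

set_option autoImplicit false

open MeasureTheory Set Metric Filter Crest.AnalysisR
open scoped ENNReal Topology

namespace Crest.Agent.R133

open Matrix

namespace GramAux

variable {d : ℕ}

/-- Matrix entries of an operator. -/
noncomputable def ent (A : E d →L[ℝ] E d) (a c : Fin d) : ℝ := A (EuclideanSpace.single c 1) a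

theorem apply_eq_sum (A : E d →L[ℝ] E d) (u : E d) (a : Fin d) :
    A u a = ∑ c, ent A a c * u c := by
  have hu : u = ∑ c, u c • EuclideanSpace.single c (1 : ℝ) := by
    ext i
    simp [Pi.single_apply]
  conv_lhs => rw [hu]
  simp [ent, mul_comm]

theorem sum_ent_sq_le (A : E d →L[ℝ] E d) {C : ℝ} (hA : ‖A‖ ≤ C) (a : Fin d) :
    ∑ c, ent A a c * ent A a c ≤ C ^ 2 := by
  set w : E d := WithLp.toLp 2 (ent A a) with hw
  have h1 : ‖w‖ ^ 2 = ∑ c, ent A a c * ent A a c := by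
    rw [EuclideanSpace.norm_sq_eq]
    simp [hw, sq]
  have h2 : A w a = ∑ c, ent A a c * ent A a c := by rw [apply_eq_sum]
  have h3 : A w a ≤ C * ‖w‖ :=
    calc A w a ≤ ‖A w a‖ := le_abs_self _
      _ ≤ ‖A w‖ := PiLp.norm_apply_le _ _
      _ ≤ ‖A‖ * ‖w‖ := A.le_opNorm w
      _ ≤ C * ‖w‖ := mul_le_mul_of_nonneg_right hA (norm_nonneg _)
  rw [← h1]
  rw [h2, ← h1] at h3
  nlinarith [norm_nonneg w, sq_nonneg (‖w‖ - C)]

/-- The matrix of `u ↦ (u (k+1) - D k (u k))_k`. -/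
noncomputable def SM {m : ℕ} (D : Fin m → E d →L[ℝ] E d) :
    Matrix (Fin m × Fin d) (Fin (m + 1) × Fin d) ℝ := fun p q =>
  (if q.1 = p.1.succ ∧ q.2 = p.2 then 1 else 0) -
    if q.1 = p.1.castSucc then ent (D p.1) p.2 q.2 else 0

/-- The Gram matrix. -/
noncomputable def GM {m : ℕ} (D : Fin m → E d →L[ℝ] E d) :
    Matrix (Fin m × Fin d) (Fin m × Fin d) ℝ := SM D * (SM D)ᵀ

theorem SM_mulVec {m : ℕ} (D : Fin m → E d →L[ℝ] E d) (y : Fin (m + 1) × Fin d → ℝ)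
    (k : Fin m) (a : Fin d) :
    (SM D *ᵥ y) (k, a) = y (k.succ, a) - ∑ c, ent (D k) a c * y (k.castSucc, c) := by
  simp only [mulVec, dotProduct, SM, sub_mul, Finset.sum_sub_distrib, Fintype.sum_prod_type,
    ite_mul, one_mul, zero_mul, ite_and]
  congr 1
  · rw [Finset.sum_eq_single k.succ] <;> simp +contextual
  · rw [Finset.sum_eq_single k.castSucc] <;> simp +contextual

theorem GM_apply {m : ℕ} (D : Fin m → E d →L[ℝ] E d) (k j : Fin m) (a c : Fin d) :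
    GM D (k, a) (j, c) =
      (if (k : ℕ) = j then (if a = c then 1 else 0) + ∑ e, ent (D k) a e * ent (D j) c e else 0) -
        (if (k : ℕ) + 1 = j then ent (D j) c a else 0) -
        (if (j : ℕ) + 1 = k then ent (D k) a c else 0) := by
  have : GM D (k, a) (j, c) = (SM D *ᵥ SM D (j, c)) (k, a) := rfl
  rw [this, SM_mulVec]
  simp only [SM, Fin.ext_iff, Fin.val_succ, Fin.val_castSucc, add_left_inj, mul_sub,
    Finset.sum_sub_distrib]
  by_cases h1 : (k : ℕ) = j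
  · have h2 : ¬ (k : ℕ) + 1 = j := by omega
    have h3 : ¬ (j : ℕ) + 1 = k := by omega
    have h4 : ¬ (k : ℕ) = j + 1 := by omega
    simp [h1]
  · by_cases h3 : (j : ℕ) + 1 = k
    · have h2 : ¬ (k : ℕ) + 1 = j := by omega
      simp [h1, h2, h3, ← Fin.ext_iff]
    · have h4 : ¬ (k : ℕ) = j + 1 := by omega
      simp [h1, h3, h4]

theorem GM_quad {m : ℕ} (D : Fin m → E d →L[ℝ] E d) (x : Fin m × Fin d → ℝ) :
    x ⬝ᵥ (GM D *ᵥ x) = ((SM D)ᵀ *ᵥ x) ⬝ᵥ ((SM D)ᵀ *ᵥ x) := by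
  rw [GM, ← mulVec_mulVec, dotProduct_mulVec, ← mulVec_transpose]

theorem GM_herm {m : ℕ} (D : Fin m → E d →L[ℝ] E d) : (GM D).IsHermitian := by
  have := isHermitian_mul_conjTranspose_self (SM D)
  rwa [conjTranspose_eq_transpose_of_trivial] at this

theorem posDef_of_quad {ι : Type*} [Fintype ι] {G : Matrix ι ι ℝ} (hG : G.IsHermitian) {μ : ℝ}
    (hμ : 0 < μ) (h : ∀ x, μ * (x ⬝ᵥ x) ≤ x ⬝ᵥ (G *ᵥ x)) : G.PosDef :=
  PosDef.of_dotProduct_mulVec_pos hG fun x hx => lt_of_lt_of_le (mul_pos hμ (by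
    simpa using dotProduct_star_self_pos_iff.2 hx)) (h x)

theorem two_dot_le {ι : Type*} [Fintype ι] (x y : ι → ℝ) {t : ℝ} (ht : 0 < t) :
    2 * (x ⬝ᵥ y) ≤ t * (x ⬝ᵥ x) + y ⬝ᵥ y / t := by
  simp only [dotProduct, Finset.mul_sum, Finset.sum_div, ← Finset.sum_add_distrib]
  refine Finset.sum_le_sum fun i _ => ?_
  have : t * (x i * x i) + y i * y i / t - 2 * (x i * y i) = (t * x i - y i) ^ 2 / t := by
    field_simp
    ring
  have h2 : 0 ≤ (t * x i - y i) ^ 2 / t := by positivity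
  linarith

theorem norm_sq_row {m : ℕ} (y : Fin m × Fin d → ℝ) (k : Fin m) :
    ‖(WithLp.toLp 2 fun c => y (k, c) : E d)‖ ^ 2 = ∑ c, y (k, c) * y (k, c) := by
  rw [EuclideanSpace.norm_sq_eq]
  simp [sq]

theorem dot_self_eq {m : ℕ} (y : Fin m × Fin d → ℝ) :
    y ⬝ᵥ y = ∑ k, ‖(WithLp.toLp 2 fun c => y (k, c) : E d)‖ ^ 2 := by
  simp only [norm_sq_row, dotProduct, Fintype.sum_prod_type]

theorem norm_sq_row_le {m : ℕ} (y : Fin m × Fin d → ℝ) (k : Fin m) :
    ‖(WithLp.toLp 2 fun c => y (k, c) : E d)‖ ^ 2 ≤ y ⬝ᵥ y := by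
  rw [dot_self_eq]
  exact Finset.single_le_sum (f := fun k => ‖(WithLp.toLp 2 fun c => y (k, c) : E d)‖ ^ 2)
    (fun _ _ => sq_nonneg _) (Finset.mem_univ k)

/-- A lower bound for the Gram form gives a bounded right inverse. -/
theorem hasRightInv_of_quad {m : ℕ} (D : Fin m → E d →L[ℝ] E d) {μ σ : ℝ} (hμ : 0 < μ)
    (hσ : 0 ≤ σ) (hσμ : (m : ℝ) / μ ≤ σ ^ 2) (h : ∀ x, μ * (x ⬝ᵥ x) ≤ x ⬝ᵥ (GM D *ᵥ x)) :
    HasRightInv D σ := by
  have hG := posDef_of_quad (GM_herm D) hμ h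
  have hu : IsUnit (GM D).det := (isUnit_iff_isUnit_det _).1 hG.isUnit
  let fl : (Fin m → E d) → Fin m × Fin d → ℝ := fun ξ p => ξ p.1 p.2
  let Y : (Fin m → E d) → Fin (m + 1) × Fin d → ℝ := fun ξ => (SM D)ᵀ *ᵥ ((GM D)⁻¹ *ᵥ fl ξ)
  have hY : ∀ ξ, SM D *ᵥ Y ξ = fl ξ := fun ξ => by
    simp only [Y]
    rw [mulVec_mulVec, ← GM, mulVec_mulVec, mul_nonsing_inv _ hu, one_mulVec]
  refine ⟨{ toFun := fun ξ k => WithLp.toLp 2 fun c => Y ξ (k, c)
            map_add' := fun ξ η => ?_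
            map_smul' := fun t ξ => ?_ }, fun ξ k => ?_, fun ξ => ?_⟩
  · have : fl (ξ + η) = fl ξ + fl η := rfl
    ext k c
    simp only [Y, this, mulVec_add, Pi.add_apply, PiLp.add_apply]
  · have : fl (t • ξ) = t • fl ξ := rfl
    ext k c
    simp only [Y, this, mulVec_smul, Pi.smul_apply, PiLp.smul_apply, RingHom.id_apply]
  · ext a
    have := congrFun (hY ξ) (k, a)
    rw [SM_mulVec] at this
    simp only [LinearMap.coe_mk, AddHom.coe_mk, PiLp.sub_apply, apply_eq_sum]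
    exact this
  · set z := (GM D)⁻¹ *ᵥ fl ξ with hz
    have h1 : GM D *ᵥ z = fl ξ := by
      rw [hz, mulVec_mulVec, mul_nonsing_inv _ hu, one_mulVec]
    have h2 : Y ξ ⬝ᵥ Y ξ = z ⬝ᵥ fl ξ := by
      rw [← h1, GM_quad]
    have h3 := h z
    rw [h1] at h3
    have h4 := two_dot_le z (fl ξ) hμ
    have h5 : fl ξ ⬝ᵥ fl ξ ≤ m * ‖ξ‖ ^ 2 := by
      rw [dot_self_eq]
      calc ∑ k, ‖(WithLp.toLp 2 fun c => fl ξ (k, c) : E d)‖ ^ 2 ≤ ∑ _k : Fin m, ‖ξ‖ ^ 2 :=
            Finset.sum_le_sum fun k _ => pow_le_pow_left₀ (norm_nonneg _) (norm_le_pi_norm ξ k) 2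
        _ = m * ‖ξ‖ ^ 2 := by simp
    have h6 : Y ξ ⬝ᵥ Y ξ ≤ (σ * ‖ξ‖) ^ 2 :=
      calc Y ξ ⬝ᵥ Y ξ ≤ fl ξ ⬝ᵥ fl ξ / μ := by linarith
        _ ≤ m * ‖ξ‖ ^ 2 / μ := by gcongr
        _ = m / μ * ‖ξ‖ ^ 2 := by ring
        _ ≤ σ ^ 2 * ‖ξ‖ ^ 2 := by gcongr
        _ = (σ * ‖ξ‖) ^ 2 := by ring
    refine (pi_norm_le_iff_of_nonneg (by positivity)).2 fun k => ?_
    exact (pow_le_pow_iff_left₀ (norm_nonneg _) (by positivity) two_ne_zero).1
      ((norm_sq_row_le _ k).trans h6)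

/-- Forward solution of the linearised equation. -/
noncomputable def fwd (D : ℕ → E d →L[ℝ] E d) (ξ : ℕ → E d) : ℕ → E d
  | 0 => 0
  | k + 1 => ξ k + D k (fwd D ξ k)

theorem fwd_anchor : type_of% @fwd.eq_def := @fwd.eq_def
theorem fwd_anchor1 : type_of% @fwd.eq_1 := @fwd.eq_1
theorem fwd_anchor2 : type_of% @fwd.eq_2 := @fwd.eq_2

theorem norm_fwd_le (D : ℕ → E d →L[ℝ] E d) (ξ : ℕ → E d) {C X : ℝ} (hC : 0 ≤ C) (hX : 0 ≤ X)
    (hD : ∀ k, ‖D k‖ ≤ C) (hξ : ∀ k, ‖ξ k‖ ≤ X) (k : ℕ) : ‖fwd D ξ k‖ ≤ (1 + C) ^ k * X := by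
  induction k with
  | zero => simpa [fwd] using hX
  | succ k ih =>
    have h1 : (1 : ℝ) ≤ (1 + C) ^ k := one_le_pow₀ (by linarith)
    calc ‖fwd D ξ (k + 1)‖ ≤ ‖ξ k‖ + ‖D k (fwd D ξ k)‖ := norm_add_le _ _
      _ ≤ X + C * ((1 + C) ^ k * X) := by
          gcongr
          · exact hξ k
          · exact ((D k).le_opNorm _).trans (mul_le_mul (hD k) ih (norm_nonneg _) hC)
      _ ≤ (1 + C) ^ (k + 1) * X := by rw [pow_succ]; nlinarith

/-- The trivial lower bound for the Gram form. -/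
theorem quad_triv {m : ℕ} (hm : 0 < m) (D : ℕ → E d →L[ℝ] E d) {C : ℝ} (hC : 0 ≤ C)
    (hD : ∀ k, ‖D k‖ ≤ C) (x : Fin m × Fin d → ℝ) :
    (m * (1 + C) ^ (2 * m))⁻¹ * (x ⬝ᵥ x) ≤ x ⬝ᵥ (GM (fun k : Fin m => D k) *ᵥ x) := by
  set T : ℝ := m * (1 + C) ^ (2 * m) with hT
  have hTpos : 0 < T := by positivity
  let ξ : ℕ → E d := fun k => if h : k < m then WithLp.toLp 2 fun c => x (⟨k, h⟩, c) else 0
  have hxx : 0 ≤ x ⬝ᵥ x := by simpa using dotProduct_star_self_nonneg x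
  have hξ : ∀ k, ‖ξ k‖ ≤ √(x ⬝ᵥ x) := fun k => by
    simp only [ξ]
    split_ifs with h
    · exact Real.le_sqrt_of_sq_le (norm_sq_row_le x _)
    · simp
  let y : Fin (m + 1) × Fin d → ℝ := fun q => fwd D ξ q.1 q.2
  have hy : SM (fun k : Fin m => D k) *ᵥ y = x := by
    ext ⟨k, a⟩
    rw [SM_mulVec]
    simp only [y, Fin.val_succ, Fin.val_castSucc, fwd, ← apply_eq_sum, ξ, k.2, dif_pos]
    simp
  have hyy : y ⬝ᵥ y ≤ T * (x ⬝ᵥ x) := by
    rw [dot_self_eq, Fin.sum_univ_succ]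
    have h0 : ‖(WithLp.toLp 2 fun c => y (0, c) : E d)‖ ^ 2 = 0 := by
      rw [norm_sq_row]; simp [y, fwd]
    rw [h0, zero_add]
    calc ∑ k : Fin m, ‖(WithLp.toLp 2 fun c => y (k.succ, c) : E d)‖ ^ 2
        ≤ ∑ _k : Fin m, ((1 + C) ^ m * √(x ⬝ᵥ x)) ^ 2 := by
          refine Finset.sum_le_sum fun k _ => pow_le_pow_left₀ (norm_nonneg _) ?_ 2
          refine (norm_fwd_le D ξ hC (Real.sqrt_nonneg _) hD hξ (k + 1)).trans ?_
          exact mul_le_mul_of_nonneg_right (pow_le_pow_right₀ (by linarith) k.2)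
            (Real.sqrt_nonneg _)
      _ = T * (x ⬝ᵥ x) := by
          rw [mul_pow, Real.sq_sqrt hxx, ← pow_mul, mul_comm m 2]
          simp [hT, mul_assoc]
  rw [GM_quad]
  set z := (SM fun k : Fin m => D k)ᵀ *ᵥ x with hz
  have h1 : x ⬝ᵥ x = z ⬝ᵥ y := by
    rw [hz, mulVec_transpose, ← dotProduct_mulVec, hy]
  have h2 := two_dot_le z y hTpos
  have h3 : y ⬝ᵥ y / T ≤ x ⬝ᵥ x := by rw [div_le_iff₀ hTpos]; linarith
  rw [inv_mul_le_iff₀ hTpos]
  linarith

theorem GM_posDef {m : ℕ} (hm : 0 < m) (D : ℕ → E d →L[ℝ] E d) {C : ℝ} (hC : 0 ≤ C)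
    (hD : ∀ k, ‖D k‖ ≤ C) : (GM fun k : Fin m => D k).PosDef :=
  posDef_of_quad (GM_herm _) (by positivity) (quad_triv hm D hC hD)

theorem det_GM_le {m : ℕ} (hm : 0 < m) (D : ℕ → E d →L[ℝ] E d) {C : ℝ} (hC : 0 ≤ C)
    (hD : ∀ k, ‖D k‖ ≤ C) :
    Real.log (GM fun k : Fin m => D k).det ≤ m * (d * Real.log (1 + C ^ 2)) := by
  have hG := GM_posDef hm D hC hD
  have h1 : (GM fun k : Fin m => D k).det ≤ (1 + C ^ 2) ^ (m * d) := by
    refine (det_le_prod_diag hG).trans ?_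
    calc ∏ p, (GM fun k : Fin m => D k) p p ≤ ∏ _p : Fin m × Fin d, (1 + C ^ 2) := by
          refine Finset.prod_le_prod (fun p _ => hG.diag_pos.le) fun p _ => ?_
          obtain ⟨k, a⟩ := p
          rw [GM_apply]
          simpa using sum_ent_sq_le (D k) (hD k) a
      _ = (1 + C ^ 2) ^ (m * d) := by simp
  have := Real.log_le_log hG.det_pos h1
  rwa [Real.log_pow, Nat.cast_mul, mul_assoc] at this

theorem one_le_det_GM {m : ℕ} (D : Fin m → E d →L[ℝ] E d) : 1 ≤ (GM D).det := by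
  let S₁ : Matrix (Fin m × Fin d) (Fin m × Fin d) ℝ := fun p q => SM D p (q.1.succ, q.2)
  let S₀ : Matrix (Fin m × Fin d) (Fin d) ℝ := fun p c => SM D p (0, c)
  have hG : GM D = S₁ * S₁ᵀ + S₀ * S₀ᵀ := by
    ext p q
    simp only [GM, mul_apply, transpose_apply, Matrix.add_apply, Fintype.sum_prod_type,
      Fin.sum_univ_succ, S₁, S₀]
    ring
  have htri : S₁ᵀ.BlockTriangular Prod.fst := by
    intro p q h
    have h' : (q.1 : ℕ) < p.1 := h
    have h1 : p.1 ≠ q.1 := fun e => by rw [e] at h'; omega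
    have h2 : p.1.succ ≠ q.1.castSucc := fun e => by
      have := congrArg Fin.val e
      simp at this
      omega
    simp [S₁, SM, h1, h2]
  have hdet : S₁.det = 1 := by
    rw [← det_transpose, htri.det_fintype]
    refine Finset.prod_eq_one fun k _ => ?_
    have : S₁ᵀ.toSquareBlock Prod.fst k = 1 := by
      ext ⟨⟨k1, a⟩, h1⟩ ⟨⟨k2, c⟩, h2⟩
      simp only at h1 h2
      subst h1 h2
      have h3 : k2.succ ≠ k2.castSucc := fun e => by
        have := congrArg Fin.val e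
        simp at this
      simp [toSquareBlock_def, S₁, SM, h3, one_apply]
    rw [this, det_one]
  have h1 : (S₁ * S₁ᵀ).PosDef := by
    have := PosDef.mul_conjTranspose_self S₁ (vecMul_injective_of_isUnit
      ((isUnit_iff_isUnit_det _).2 (by rw [hdet]; exact isUnit_one)))
    rwa [conjTranspose_eq_transpose_of_trivial] at this
  have h0 : (S₀ * S₀ᵀ).PosSemidef := by
    have := posSemidef_self_mul_conjTranspose S₀
    rwa [conjTranspose_eq_transpose_of_trivial] at this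
  have := det_le_det_add h1 h0
  rwa [← hG, det_mul, det_transpose, hdet, mul_one] at this

/-- Logarithm of the Gram determinant of the steps `a, …, a + m - 1`. -/
noncomputable def Δ (D : ℕ → E d →L[ℝ] E d) (a m : ℕ) : ℝ :=
  Real.log (GM fun k : Fin m => D (a + k)).det

/-- Splitting `Fin (b * l)` into `b` consecutive blocks. -/
def split (b l d : ℕ) : (Fin l × Fin d) × Fin b ≃ Fin (b * l) × Fin d where
  toFun p := (finProdFinEquiv (p.2, p.1.1), p.1.2)
  invFun q := (((finProdFinEquiv.symm q.1).2, q.2), (finProdFinEquiv.symm q.1).1)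
  left_inv p := by simp only [Equiv.symm_apply_apply]
  right_inv q := by simp only [Prod.mk.eta, Equiv.apply_symm_apply]

theorem defect {l b m : ℕ} (hl : 0 < l) (hb : 0 < b) (hm : m = b * l) (D : ℕ → E d →L[ℝ] E d)
    {C : ℝ} (hC : 0 ≤ C) (hD : ∀ k, ‖D k‖ ≤ C) (a : ℕ) :
    Δ D a m ≤ ∑ t ∈ Finset.range b, Δ D (a + t * l) l ∧
      ∀ x, Real.exp (Δ D a m - ∑ t ∈ Finset.range b, Δ D (a + t * l) l) / Real.exp 1 *
        (l * (1 + C) ^ (2 * l))⁻¹ * (x ⬝ᵥ x) ≤ x ⬝ᵥ ((GM fun k : Fin m => D (a + k)) *ᵥ x) := by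
  subst hm
  have hG := GM_posDef (Nat.mul_pos hb hl) (fun k => D (a + k)) hC fun k => hD _
  set G := GM fun k : Fin (b * l) => D (a + k) with hGdef
  have hG' : (G.submatrix (split b l d) (split b l d)).PosDef := hG.submatrix (Equiv.injective _)
  have hblk : ∀ t : Fin b, blk (G.submatrix (split b l d) (split b l d)) t =
      GM fun k : Fin l => D (a + t * l + k) := by
    intro t
    ext ⟨k, c⟩ ⟨j, e⟩
    have h1 : ∀ k : Fin l, a + (k + l * t) = a + t * l + k := fun k => by ring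
    simp only [blk, submatrix_apply, split, Equiv.coe_fn_mk, hGdef, GM_apply,
      finProdFinEquiv_apply_val, add_left_inj, h1, add_right_comm _ (l * t) 1]
  have hbp : ∀ t : Fin b, 0 < (GM fun k : Fin l => D (a + t * l + k)).det := fun t =>
    (GM_posDef hl (fun k => D (a + t * l + k)) hC fun k => hD _).det_pos
  obtain ⟨h1, h2⟩ := block_key hG' (μ := (l * (1 + C) ^ (2 * l))⁻¹) (by positivity) fun t y => by
    rw [hblk]
    exact quad_triv hl (fun k => D (a + t * l + k)) hC (fun k => hD _) y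
  simp only [hblk, det_submatrix_equiv_self] at h1 h2
  have h3 : ∑ t ∈ Finset.range b, Δ D (a + t * l) l =
      Real.log (∏ t : Fin b, (GM fun k : Fin l => D (a + t * l + k)).det) := by
    rw [Real.log_prod fun t _ => (hbp t).ne', Finset.sum_range]
    rfl
  have hprod := Finset.prod_pos (s := Finset.univ) fun t _ => hbp t
  refine ⟨h3 ▸ Real.log_le_log hG.det_pos h1, fun x => ?_⟩
  have h4 := h2 (x ∘ split b l d)
  rw [submatrix_mulVec_equiv, Function.comp_assoc, Equiv.self_comp_symm, Function.comp_id,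
    comp_equiv_dotProduct_comp_equiv, comp_equiv_dotProduct_comp_equiv] at h4
  rw [h3, Δ, Real.exp_sub, Real.exp_log hG.det_pos, Real.exp_log hprod]
  convert h4 using 3
  rw [div_div, mul_comm (Real.exp 1)]

theorem sum_range_mul (f : ℕ → ℝ) (p b : ℕ) :
    ∑ r ∈ Finset.range (p * b), f r =
      ∑ s ∈ Finset.range p, ∑ t ∈ Finset.range b, f (s * b + t) := by
  induction p with
  | zero => simp
  | succ p ih => rw [Nat.succ_mul, Finset.sum_range_add, ih, Finset.sum_range_succ]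

theorem isClosed_quad {m : ℕ} (μ : ℝ) :
    IsClosed {D : Fin m → E d →L[ℝ] E d | ∀ x, μ * (x ⬝ᵥ x) ≤ x ⬝ᵥ (GM D *ᵥ x)} := by
  rw [Set.ofPred_forall]
  refine isClosed_iInter fun x => isClosed_le continuous_const ?_
  have hS : Continuous fun D : Fin m → E d →L[ℝ] E d => SM D := by
    refine continuous_matrix fun p q => ?_
    simp only [SM, ent]
    split_ifs <;> fun_prop
  simp only [GM]
  fun_prop

end GramAux

open GramAux

open Classical in
theorem gram (d n b M : ℕ) (hn : 0 < n) (hb : 0 < b) (C θ : ℝ) (hC : 0 ≤ C) (hθ : 0 < θ) :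
    ∃ 𝒢 : (i : ℕ) → Set (Fin (n * b ^ (i + 1)) → E d →L[ℝ] E d),
      (∀ i, IsClosed (𝒢 i)) ∧
      (∀ i, ∀ D ∈ 𝒢 i, HasRightInv D (2 * ((n : ℝ) * b ^ (i + 1)) * (1 + C) ^ (n * b ^ i) *
        Real.exp (θ * ((n : ℝ) * b ^ (i + 1)) / 2))) ∧
      ∀ D : ℕ → E d →L[ℝ] E d, (∀ k, ‖D k‖ ≤ C) →
        θ * ∑ i ∈ Finset.range M, (b : ℝ) ^ (i + 1) *
          (((Finset.range (b ^ (M - i - 1))).filter fun s =>
            (fun k : Fin (n * b ^ (i + 1)) => D (s * (n * b ^ (i + 1)) + k)) ∉ 𝒢 i).card : ℝ) ≤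
          (b : ℝ) ^ M * (d * Real.log (1 + C ^ 2)) := by
  let μ : ℕ → ℝ := fun i => Real.exp (-(θ * ((n : ℝ) * b ^ (i + 1)))) / Real.exp 1 *
    ((n * b ^ i : ℕ) * (1 + C) ^ (2 * (n * b ^ i)))⁻¹
  have hl : ∀ i, 0 < n * b ^ i := fun i => by positivity
  have hb1 : (1 : ℝ) ≤ b := by exact_mod_cast hb
  have hnpos : (0 : ℝ) < n := by exact_mod_cast hn
  refine ⟨fun i => {D | ∀ x, μ i * (x ⬝ᵥ x) ≤ x ⬝ᵥ (GM D *ᵥ x)}, fun i => isClosed_quad _,
    fun i D hD => hasRightInv_of_quad D (μ := μ i) (by positivity) (by positivity) ?_ hD,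
    fun D hD => ?_⟩
  · have he : Real.exp 1 ≤ 4 := by linarith [Real.exp_one_lt_d9]
    have h1 : Real.exp (θ * ((n : ℝ) * b ^ (i + 1)) / 2) ^ 2 =
        Real.exp (θ * ((n : ℝ) * b ^ (i + 1))) := by
      rw [← Real.exp_nat_mul]
      congr 1
      push_cast
      ring
    have h2 : (n : ℝ) * b ^ i ≤ n * b ^ (i + 1) := by
      gcongr
      omega
    simp only [μ, mul_pow, h1, Real.exp_neg]
    push_cast
    rw [← pow_mul (1 + C), mul_comm (n * b ^ i) 2]
    set A := Real.exp (θ * ((n : ℝ) * b ^ (i + 1)))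
    set B := (1 + C) ^ (2 * (n * b ^ i))
    have hA : 0 < A := Real.exp_pos _
    have hB : 0 < B := by positivity
    calc (n : ℝ) * b ^ (i + 1) / (A⁻¹ / Real.exp 1 * (n * b ^ i * B)⁻¹)
        = Real.exp 1 * (n * b ^ (i + 1) * (n * b ^ i)) * B * A := by field_simp
      _ ≤ 4 * (n * b ^ (i + 1) * (n * b ^ (i + 1))) * B * A := by gcongr
      _ = 2 ^ 2 * (n ^ 2 * (b ^ (i + 1)) ^ 2) * B * A := by ring
  · let F : ℕ → ℝ := fun i => ∑ s ∈ Finset.range (b ^ (M - i)), Δ D (s * (n * b ^ i)) (n * b ^ i)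
    have step : ∀ i ∈ Finset.range M, θ * (n * (b : ℝ) ^ (i + 1)) *
        (((Finset.range (b ^ (M - i - 1))).filter fun s =>
          (fun k : Fin (n * b ^ (i + 1)) => D (s * (n * b ^ (i + 1)) + k)) ∉
            {D : Fin (n * b ^ (i + 1)) → E d →L[ℝ] E d |
              ∀ x, μ i * (x ⬝ᵥ x) ≤ x ⬝ᵥ (GM D *ᵥ x)}).card : ℝ) ≤ F i - F (i + 1) := by
      intro i hi
      have hi' := Finset.mem_range.1 hi
      have e1 : b ^ (M - i) = b ^ (M - i - 1) * b := by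
        rw [← pow_succ]
        congr 1
        omega
      have e2 : M - (i + 1) = M - i - 1 := by omega
      have e3 : n * b ^ (i + 1) = b * (n * b ^ i) := by ring
      simp only [F]
      rw [e1, sum_range_mul, e2, ← Finset.sum_sub_distrib, Finset.card_filter, Nat.cast_sum,
        Finset.mul_sum]
      refine Finset.sum_le_sum fun s _ => ?_
      obtain ⟨h1, h2⟩ := defect (hl i) hb e3 D hC hD (s * (n * b ^ (i + 1)))
      have e4 : ∀ t, (s * b + t) * (n * b ^ i) = s * (n * b ^ (i + 1)) + t * (n * b ^ i) :=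
        fun t => by ring
      simp only [e4]
      split_ifs with hbad
      · simp only [Nat.cast_zero, mul_zero]
        linarith
      · rw [Nat.cast_one, mul_one]
        by_contra hcon
        refine hbad fun x => le_trans ?_ (h2 x)
        have hxx : 0 ≤ x ⬝ᵥ x := by simpa using dotProduct_star_self_nonneg x
        simp only [μ]
        gcongr
        linarith
    have h1 := Finset.sum_le_sum step
    rw [Finset.sum_range_sub'] at h1
    have h2 : 0 ≤ F M := Finset.sum_nonneg fun s _ => Real.log_nonneg (one_le_det_GM _)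
    have h3 : F 0 ≤ (b : ℝ) ^ M * (n * (d * Real.log (1 + C ^ 2))) := by
      calc F 0 ≤ ∑ _s ∈ Finset.range (b ^ (M - 0)), (n * b ^ 0 : ℕ) * (d * Real.log (1 + C ^ 2)) :=
            Finset.sum_le_sum fun s _ => det_GM_le (hl 0) (fun k => D (s * (n * b ^ 0) + k)) hC
              fun k => hD _
        _ = _ := by simp
    refine le_of_mul_le_mul_left ?_ hnpos
    rw [Finset.mul_sum, Finset.mul_sum]
    refine le_trans (le_of_eq (Finset.sum_congr rfl fun i _ => by ring)) (h1.trans ?_)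
    linarith

end Crest.Agent.R133
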