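import Crest.Agent.R133.InnerStep

/-! Row 133: the hierarchical code with random tables. -/

set_option autoImplicit false

namespace Crest.Agent.R133

open Finset

/-- Mass of a set for a weight function on a finite type. -/
noncomputable def Pr {Ω : Type*} [Fintype Ω] (p : Ω → ℝ) (s : Set Ω) : ℝ :=
  ∑ ω, s.indicator p ω

theorem Pr_eq_filter {Ω : Type*} [Fintype Ω] (p : Ω → ℝ) (c : Ω → Prop) [DecidablePred c] :
    ∑ ω with c ω, p ω = Pr p {ω | c ω} := by
  rw [Pr, sum_filter]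
  exact sum_congr rfl fun ω _ => by simp [Set.indicator_apply]

theorem Pr_nonneg {Ω : Type*} [Fintype Ω] {p : Ω → ℝ} (hp : ∀ ω, 0 ≤ p ω) (s : Set Ω) :
    0 ≤ Pr p s :=
  sum_nonneg fun ω _ => Set.indicator_nonneg (fun ω _ => hp ω) ω

theorem Pr_prod {Ω : Type*} [Fintype Ω] (p : Ω → ℝ) (b : ℕ) (s : Set (Ω × Fin b)) :
    Pr (fun x : Ω × Fin b => p x.1 / b) s = (∑ t : Fin b, Pr p {ω | (ω, t) ∈ s}) / b := by
  classical
  rw [Pr, Fintype.sum_prod_type_right, sum_div]
  refine sum_congr rfl fun t _ => ?_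
  rw [Pr, sum_div]
  refine sum_congr rfl fun ω _ => ?_
  simp only [Set.indicator_apply, Set.mem_ofPred_eq]
  split_ifs <;> simp

theorem sum_law {Ω A : Type*} [Fintype Ω] [Fintype A] {p : Ω → ℝ} {w : Ω → A} {c : ℝ}
    (hw : ∀ a, Pr p {ω | w ω = a} = c) (F : A → ℝ) : ∑ ω, p ω * F (w ω) = c * ∑ a, F a := by
  classical
  rw [← Finset.sum_fiberwise_of_maps_to (s := univ) (t := univ) (g := w) (by simp), mul_sum]
  refine sum_congr rfl fun a _ => ?_
  rw [← hw a, ← Pr_eq_filter, sum_mul]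
  exact sum_congr rfl fun ω hω => by rw [(mem_filter.1 hω).2]

theorem Pr_law {Ω A : Type*} [Fintype Ω] [Fintype A] {p : Ω → ℝ} {w : Ω → A} {c : ℝ}
    (hw : ∀ a, Pr p {ω | w ω = a} = c) (D : A → Prop) [DecidablePred D] :
    Pr p {ω | D (w ω)} = c * (univ.filter D).card := by
  have := sum_law hw fun a => if D a then 1 else 0
  rw [sum_boole] at this
  rw [← this, Pr]
  exact sum_congr rfl fun ω _ => by simp [Set.indicator_apply]

theorem sum_range_mul' {β : Type*} [AddCommMonoid β] (F : ℕ → β) (a n : ℕ) :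
    ∑ j ∈ range (a * n), F j = ∑ t ∈ range a, ∑ k ∈ range n, F (t * n + k) := by
  induction a with
  | zero => simp
  | succ a ih => rw [Nat.succ_mul, sum_range_add, ih, sum_range_succ]

/-- The segment of length `n` starting at `a`. -/
def seg {W : Type*} (Y : ℕ → W) (a n : ℕ) : Fin n → W := fun t => Y (a + t)

theorem iblk_lt {b i : ℕ} (t : Fin b) (k : Fin (b ^ i)) : t * b ^ i + k < b ^ (i + 1) := by
  have h1 : (t + 1) * b ^ i ≤ b * b ^ i := Nat.mul_le_mul_right _ t.2
  have h2 := k.2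
  rw [pow_succ, mul_comm (b ^ i) b]
  rw [Nat.succ_mul] at h1
  omega

/-- The `t`-th block of a word of length `b ^ (i+1)`. -/
def iblk {W : Type*} (b i : ℕ) (y : Fin (b ^ (i + 1)) → W) (t : Fin b) : Fin (b ^ i) → W :=
  fun k => y ⟨t * b ^ i + k, iblk_lt t k⟩

/-- The invariant of the construction at level `i`. -/
def InnerInv (W : Type) [Fintype W] [DecidableEq W] (M g b : ℕ)
    (𝓕 : (i : ℕ) → Finset ((Fin (b ^ (i + 1)) → W) → ℝ)) (i : ℕ) : Prop :=
  ∃ (A : Type) (_ : Fintype A) (_ : DecidableEq A) (nm : A → ℕ → W)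
    (𝓠 : Finset (A → (Fin (b ^ i) → W) → ℝ)),
    Fintype.card A = 2 ^ (2 * g * b ^ i * (2 * M - i)) ∧
    (∀ t < b ^ i, Balanced fun a => nm a t) ∧
    (∀ t, 1 ≤ i → t + b ^ (i - 1) < b ^ i → Balanced fun a => (nm a t, nm a (t + b ^ (i - 1)))) ∧
    𝓠.card ≤ ∏ k ∈ range i, ((𝓕 k).card + 1) ∧
    (∀ q ∈ 𝓠, (∀ a y, 0 < q a y) ∧ ∀ y, ∑ a, q a y ≤ 1) ∧
    ∀ (Good : Finset ℕ) (ν : (i : ℕ) → (Fin (b ^ (i + 1)) → W) → ℝ) (K : ℕ → ℝ),
      (∀ k ∈ Good, ν k ∈ 𝓕 k ∧ 0 ≤ K k ∧ 48 * K k ≤ 2 ^ (g * b ^ (k + 1))) →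
      ∃ q ∈ 𝓠, ∀ (Ω : Type) [Fintype Ω] (p : Ω → ℝ) (w : Ω → A) (Y : Ω → ℕ → W),
        (∀ ω, 0 ≤ p ω) → (∀ a, Pr p {ω | w ω = a} = 1 / Fintype.card A) →
        (∀ k ∈ Good, k < i → ∀ B : Finset (Fin (b ^ (k + 1)) → W),
          ∑ s ∈ range (b ^ (i - k - 1)),
            Pr p {ω | seg (Y ω) (s * b ^ (k + 1)) (b ^ (k + 1)) ∈ B} ≤
            (b : ℝ) ^ (i - k - 1) * (1 / 4 + K k * ∑ y ∈ B, ν k y)) →
        ∑ ω, p ω * (-Real.logb 2 (q (w ω) (seg (Y ω) 0 (b ^ i)))) ≤
          2 * (b : ℝ) ^ i - 1 + 4 * M * g * ∑ t ∈ range (b ^ i), Pr p {ω | Y ω t ≠ nm (w ω) t} -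
            5 / 8 * g * (b : ℝ) ^ i * (Good.filter (· < i)).card

theorem innerInv_zero {W : Type} [Fintype W] [DecidableEq W] (M g b : ℕ)
    (hW : Fintype.card W = 2 ^ (4 * M * g))
    (𝓕 : (i : ℕ) → Finset ((Fin (b ^ (i + 1)) → W) → ℝ)) : InnerInv W M g b 𝓕 0 := by
  let q0 : W → (Fin (b ^ 0) → W) → ℝ := fun a y =>
    if y ⟨0, by simp⟩ = a then 1 / 2 else 1 / 2 ^ (4 * M * g + 1)
  refine ⟨W, inferInstance, inferInstance, fun a _ => a, {q0}, ?_, ?_, ?_, ?_, ?_, ?_⟩
  · rw [hW]; congr 1; simp; ring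
  · intro t _
    exact balanced_equiv (Equiv.refl W)
  · intro t ht; omega
  · exact (card_singleton _).le.trans (by simp)
  · intro q hq
    rw [mem_singleton.1 hq]
    refine ⟨fun a y => by simp only [q0]; split_ifs <;> positivity, fun y => ?_⟩
    calc ∑ a, q0 a y ≤ ∑ a, ((if y ⟨0, by simp⟩ = a then (1 / 2 : ℝ) else 0) +
          1 / 2 ^ (4 * M * g + 1)) := by
          refine sum_le_sum fun a _ => ?_
          simp only [q0]
          split_ifs
          · have : (0 : ℝ) < 1 / 2 ^ (4 * M * g + 1) := by positivity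
            linarith
          · simp
      _ = 1 := by
          rw [sum_add_distrib, sum_ite_eq, if_pos (mem_univ _), sum_const, card_univ, hW,
            nsmul_eq_mul]
          push_cast
          field_simp
          ring
  · intro Good ν K _
    refine ⟨q0, mem_singleton_self _, fun Ω _ p w Y hp hw _ => ?_⟩
    have hc : (0 : ℝ) < Fintype.card W := by rw [hW]; positivity
    have hsum : ∑ ω, p ω = 1 := by
      have := sum_law hw fun _ => 1
      simp only [mul_one, sum_const, card_univ, nsmul_eq_mul] at this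
      rw [this]; field_simp
    have h1 : ∀ ω, p ω * (-Real.logb 2 (q0 (w ω) (seg (Y ω) 0 (b ^ 0)))) =
        p ω + 4 * M * g * {ω | Y ω 0 ≠ w ω}.indicator p ω := by
      intro ω
      by_cases h : Y ω 0 = w ω
      · have : q0 (w ω) (seg (Y ω) 0 (b ^ 0)) = 1 / 2 := by simp [q0, seg, h]
        rw [this, Set.indicator_of_notMem (by simpa using h), one_div, Real.logb_inv,
          Real.logb_self_eq_one (by norm_num)]
        ring
      · have : q0 (w ω) (seg (Y ω) 0 (b ^ 0)) = 1 / 2 ^ (4 * M * g + 1) := by simp [q0, seg, h]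
        rw [this, Set.indicator_of_mem (by simpa using h), one_div, Real.logb_inv,
          Real.logb_pow, Real.logb_self_eq_one (by norm_num)]
        push_cast
        ring
    simp only [h1, sum_add_distrib, hsum, ← mul_sum]
    simp [Pr]
    norm_num

theorem card_bound {W : Type} [Fintype W] (M g b i : ℕ) (hb : 8 ≤ b) (hM : b ≤ M) (hg : 2 ≤ g)
    (hi : i < M) (𝓕 : (i : ℕ) → Finset ((Fin (b ^ (i + 1)) → W) → ℝ))
    (hcard : ∀ i, ((𝓕 i).card : ℝ) ≤ Real.exp (Real.exp (4 * M * g * b ^ (i + 1) / 12))) :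
    ((∏ k ∈ range (i + 1), ((𝓕 k).card + 1) : ℕ) : ℝ) <
      Real.exp ((2 ^ ((b - 1) * (2 * g * b ^ i * (2 * M - i)) - 2 * g * b ^ (i + 1)) : ℕ) /
        (16 * (2 ^ (2 * g * b ^ (i + 1)) : ℕ))) := by
  set x : ℕ := M * g * b ^ (i + 1) with hx
  have hb1 : (1 : ℝ) ≤ b := by exact_mod_cast (by omega : 1 ≤ b)
  have h1 : ((∏ k ∈ range (i + 1), ((𝓕 k).card + 1) : ℕ) : ℝ) ≤
      Real.exp (2 * M * Real.exp (x / 3)) := by
    have he : 1 ≤ Real.exp ((x : ℝ) / 3) := Real.one_le_exp (by positivity)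
    push_cast
    calc ∏ k ∈ range (i + 1), (((𝓕 k).card : ℝ) + 1)
        ≤ ∏ _k ∈ range (i + 1), Real.exp (2 * Real.exp (x / 3)) := by
          refine prod_le_prod (fun k _ => by positivity) fun k hk => ?_
          have h2 : ((𝓕 k).card : ℝ) ≤ Real.exp (Real.exp (x / 3)) := by
            refine (hcard k).trans (Real.exp_le_exp.2 (Real.exp_le_exp.2 ?_))
            have : (b : ℝ) ^ (k + 1) ≤ b ^ (i + 1) :=
              pow_le_pow_right₀ hb1 (by have := mem_range.1 hk; omega)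
            rw [hx]; push_cast
            have h3 : (0 : ℝ) ≤ M * g := by positivity
            nlinarith
          have h3 : 2 ≤ Real.exp (Real.exp ((x : ℝ) / 3)) := by
            have := Real.add_one_le_exp (Real.exp ((x : ℝ) / 3)); linarith
          rw [two_mul, Real.exp_add]
          nlinarith
      _ = Real.exp ((i + 1 : ℕ) * (2 * Real.exp (x / 3))) := by
          rw [prod_const, card_range, Real.exp_nat_mul]
      _ ≤ _ := by
          refine Real.exp_le_exp.2 ?_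
          have : ((i + 1 : ℕ) : ℝ) ≤ M := by exact_mod_cast hi
          nlinarith
  refine h1.trans_lt (Real.exp_lt_exp.2 ?_)
  have h2 : 2 * g * b ^ (i + 1) + x ≤
      (b - 1) * (2 * g * b ^ i * (2 * M - i)) - 2 * g * b ^ (i + 1) := by
    obtain ⟨b', rfl⟩ : ∃ b', b = b' + 8 := ⟨b - 8, by omega⟩
    obtain ⟨M', rfl⟩ : ∃ M', M = M' + 8 := ⟨M - 8, by omega⟩
    have h3 : M' + 8 + 1 ≤ 2 * (M' + 8) - i := by omega
    have h4 : (b' + 7) * (2 * g * (b' + 8) ^ i * (M' + 8 + 1)) ≤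
        (b' + 8 - 1) * (2 * g * (b' + 8) ^ i * (2 * (M' + 8) - i)) :=
      Nat.mul_le_mul (by omega) (Nat.mul_le_mul_left _ h3)
    have h5 : 2 * g * (b' + 8) ^ (i + 1) + x + 2 * g * (b' + 8) ^ (i + 1) ≤
        (b' + 7) * (2 * g * (b' + 8) ^ i * (M' + 8 + 1)) := by
      rw [hx, pow_succ]
      have : (b' + 7) * (2 * g * (b' + 8) ^ i * (M' + 8 + 1)) =
          2 * g * ((b' + 8) ^ i * (b' + 8)) + (M' + 8) * g * ((b' + 8) ^ i * (b' + 8)) +
          2 * g * ((b' + 8) ^ i * (b' + 8)) +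
          g * (b' + 8) ^ i * (b' * M' + 6 * b' + 6 * M' + 30) := by ring
      omega
    omega
  have h3 : (2 : ℝ) ^ x ≤
      (2 ^ ((b - 1) * (2 * g * b ^ i * (2 * M - i)) - 2 * g * b ^ (i + 1)) : ℕ) /
        (2 ^ (2 * g * b ^ (i + 1)) : ℕ) := by
    rw [le_div_iff₀ (by positivity)]
    push_cast
    rw [← pow_add, add_comm]
    exact pow_le_pow_right₀ (by norm_num) h2
  have h4 : 32 * M * Real.exp (x / 3) < (2 : ℝ) ^ x := by
    have hx16 : 16 * M ≤ x := by
      rw [hx]
      have : b ≤ b ^ (i + 1) := Nat.le_self_pow (by omega) b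
      have h5 : 16 ≤ g * b ^ (i + 1) := by nlinarith
      calc 16 * M ≤ g * b ^ (i + 1) * M := Nat.mul_le_mul_right _ h5
        _ = _ := by ring
    have hx' : (16 * M : ℝ) ≤ x := by exact_mod_cast hx16
    have hM' : (8 : ℝ) ≤ M := by exact_mod_cast hb.trans hM
    have h5 : (2 : ℝ) ^ x = Real.exp (x * Real.log 2) := by
      rw [Real.exp_nat_mul, Real.exp_log (by norm_num)]
    have h6 : Real.exp (x / 3) * Real.exp (x / 3) ≤ Real.exp (x * Real.log 2) := by
      rw [← Real.exp_add]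
      refine Real.exp_le_exp.2 ?_
      have := Real.log_two_gt_d9
      have : (0 : ℝ) ≤ x := by positivity
      nlinarith
    have h7 : 32 * M < Real.exp (x / 3) := by
      have := Real.quadratic_le_exp_of_nonneg (x := (x : ℝ) / 3) (by positivity)
      nlinarith
    rw [h5]
    exact (mul_lt_mul_of_pos_right h7 (Real.exp_pos _)).trans_le h6
  rw [mul_comm (16 : ℝ), ← div_div]
  linarith

theorem innerInv_succ {W : Type} [Fintype W] [DecidableEq W] (M g b : ℕ)
    (hb : 8 ≤ b) (hM : b ≤ M) (hg : 2 ≤ g)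
    (𝓕 : (i : ℕ) → Finset ((Fin (b ^ (i + 1)) → W) → ℝ))
    (h𝓕 : ∀ i, ∀ ν ∈ 𝓕 i, (∀ y, 0 ≤ ν y) ∧ ∑ y, ν y ≤ 1)
    (hcard : ∀ i, ((𝓕 i).card : ℝ) ≤ Real.exp (Real.exp (4 * M * g * b ^ (i + 1) / 12)))
    (i : ℕ) (hi : i < M) (ih : InnerInv W M g b 𝓕 i) : InnerInv W M g b 𝓕 (i + 1) := by
  classical
  obtain ⟨A, _, _, nm, 𝓠, hA, hbal, -, h𝓠c, h𝓠, hmain⟩ := ih
  have hbpos : 0 < b ^ i := by positivity
  have ho : 2 * g * b ^ (i + 1) ≤ 2 * g * b ^ i * (2 * M - i) := by
    rw [pow_succ, ← mul_assoc]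
    exact Nat.mul_le_mul_left _ (by omega)
  obtain ⟨U, O, _, _, _, asm, hU, hO, hinj, hpair⟩ := exists_cell (A := A) _ _ b hA ho (by omega)
  have : Nonempty O := Fintype.card_pos_iff.1 (by rw [hO]; positivity)
  have : Nonempty U := Fintype.card_pos_iff.1 (by rw [hU]; positivity)
  set Γ : ℝ := 2 ^ (g * b ^ (i + 1)) with hΓ
  have hΓpos : 0 < Γ := by positivity
  obtain ⟨τ, hτ⟩ := step_lemma b asm hinj (iblk b i) 𝓠 h𝓠 (insert 0 (𝓕 i))
    (fun ν hν => by
      rcases mem_insert.1 hν with rfl | hν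
      · simp
      · exact h𝓕 i ν hν) Γ hΓpos
    (by rw [hO, hΓ, ← pow_mul]; push_cast; congr 1; ring)
    (by
      rw [hU, hO]
      refine lt_of_le_of_lt ?_ (card_bound M g b i hb hM hg hi 𝓕 hcard)
      rw [prod_range_succ]
      exact_mod_cast Nat.mul_le_mul h𝓠c (card_insert_le _ _))
  choose! L B hL hB hK using hτ
  have hAA : 0 < Fintype.card (A × A) := by rw [Fintype.card_prod, hA]; positivity
  have hApos : 0 < Fintype.card A := by rw [hA]; positivity
  have hsingle : ∀ t < b, Balanced fun x : U × A => asm x.1 x.2 (τ x.1) t := by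
    intro t ht
    by_cases h : t + 1 < b
    · exact balanced_comp (g := fun x : A × A => x.1) balanced_fst (hpair τ t h) hAA
    · have := balanced_comp (g := fun x : A × A => x.2) balanced_snd
        (hpair τ (t - 1) (by omega)) hAA
      refine this.congr fun x => ?_
      simp only
      rw [show t - 1 + 1 = t by omega]
  let q' : (A → (Fin (b ^ i) → W) → ℝ) × ((Fin (b ^ (i + 1)) → W) → ℝ) →
      U × A → (Fin (b ^ (i + 1)) → W) → ℝ := fun c x y =>
    (1 / 2) * (∏ t : Fin b, c.1 (asm x.1 x.2 (τ x.1) t) (iblk b i y t)) *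
      (if x.1 ∈ L c.1 c.2 ∧ y ∉ B c.1 c.2 then Γ else 1)
  refine ⟨U × A, inferInstance, inferInstance,
    fun x j => nm (asm x.1 x.2 (τ x.1) (j / b ^ i)) (j % b ^ i),
    (𝓠 ×ˢ insert 0 (𝓕 i)).image q', ?_, ?_, ?_, ?_, ?_, ?_⟩
  · rw [Fintype.card_prod, hU, hA, ← pow_add]
    congr 1
    obtain ⟨r, hr⟩ : ∃ r, 2 * M - i = r + 1 := ⟨2 * M - i - 1, by omega⟩
    rw [show 2 * M - (i + 1) = r by omega]
    rw [hr] at ho ⊢
    obtain ⟨b', rfl⟩ : ∃ b', b = b' + 1 := ⟨b - 1, by omega⟩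
    have h1 : 2 * g * (b' + 1) ^ i * (r + 1) ≤ b' * (2 * g * (b' + 1) ^ i * (r + 1)) :=
      Nat.le_mul_of_pos_left _ (by omega)
    have h2 : b' * (2 * g * (b' + 1) ^ i * (r + 1)) + 2 * g * (b' + 1) ^ i * (r + 1) =
        2 * g * (b' + 1) ^ (i + 1) * r + 2 * g * (b' + 1) ^ (i + 1) := by ring
    simp only [Nat.add_sub_cancel]
    omega
  · intro t ht
    have h1 : t / b ^ i < b := by
      rw [Nat.div_lt_iff_lt_mul hbpos, mul_comm, ← pow_succ]; exact ht
    exact balanced_comp (g := fun a => nm a (t % b ^ i)) (hbal _ (Nat.mod_lt _ hbpos))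
      (hsingle _ h1) hApos
  · intro t _ ht
    simp only [Nat.add_sub_cancel] at ht ⊢
    have h1 : t / b ^ i + 1 < b := by
      rw [← Nat.add_div_right _ hbpos, Nat.div_lt_iff_lt_mul hbpos, mul_comm, ← pow_succ]
      exact ht
    have h2 := hbal _ (Nat.mod_lt t hbpos)
    have := balanced_comp (balanced_prod_map h2 h2) (hpair τ _ h1) hAA
    refine this.congr fun x => ?_
    simp only [Nat.add_div_right _ hbpos, Nat.add_mod_right]
  · refine card_image_le.trans ?_
    rw [card_product, prod_range_succ]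
    exact Nat.mul_le_mul h𝓠c (card_insert_le _ _)
  · intro q hq
    obtain ⟨c, hc, rfl⟩ := mem_image.1 hq
    obtain ⟨hc1, hc2⟩ := mem_product.1 hc
    refine ⟨fun x y => ?_, hK c.1 hc1 c.2 hc2⟩
    refine mul_pos (mul_pos (by norm_num) (prod_pos fun t _ => (h𝓠 _ hc1).1 _ _)) ?_
    split_ifs
    exacts [hΓpos, one_pos]
  · intro Good ν K hGood
    obtain ⟨q, hq, hqmain⟩ := hmain Good ν K hGood
    set ν' : (Fin (b ^ (i + 1)) → W) → ℝ := if i ∈ Good then ν i else 0 with hν'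
    have hν'mem : ν' ∈ insert 0 (𝓕 i) := by
      rw [hν']
      split_ifs with h
      exacts [mem_insert_of_mem (hGood i h).1, mem_insert_self _ _]
    refine ⟨q' (q, ν'), mem_image_of_mem _ (mem_product.2 ⟨hq, hν'mem⟩), ?_⟩
    intro Ω _ p w Y hp hw hgood
    have hbR : (0 : ℝ) < b := by exact_mod_cast (by omega : 0 < b)
    have hb2 : (2 : ℝ) ≤ b := by exact_mod_cast (by omega : 2 ≤ b)
    have hc : (0 : ℝ) < Fintype.card (U × A) := by
      rw [Fintype.card_prod, hU, hA]; positivity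
    have hAR : (0 : ℝ) < Fintype.card A := by exact_mod_cast hApos
    have hsum : ∑ ω, p ω = 1 := by
      have := sum_law hw fun _ => 1
      simp only [mul_one, sum_const, card_univ, nsmul_eq_mul] at this
      rw [this]; field_simp
    have key := hqmain (Ω × Fin b) (fun x => p x.1 / b)
      (fun x => asm (w x.1).1 (w x.1).2 (τ (w x.1).1) x.2) (fun x k => Y x.1 (x.2 * b ^ i + k))
      (fun x => div_nonneg (hp _) hbR.le) ?_ ?_
    rotate_left
    · intro a
      rw [Pr_prod]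
      have h1 : ∀ t : Fin b, Pr p {ω | (ω, t) ∈ {x : Ω × Fin b |
          asm (w x.1).1 (w x.1).2 (τ (w x.1).1) x.2 = a}} = 1 / Fintype.card A := by
        intro t
        have h2 := Pr_law hw fun x : U × A => asm x.1 x.2 (τ x.1) t = a
        have h3 : (((univ.filter fun x : U × A => asm x.1 x.2 (τ x.1) t = a).card : ℝ)) *
            Fintype.card A = Fintype.card (U × A) := by exact_mod_cast hsingle t t.2 a
        refine h2.trans ?_
        field_simp
        exact h3
      simp only [h1, sum_const, card_univ, Fintype.card_fin, nsmul_eq_mul]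
      field_simp
    · intro k hk hki Bk
      have h1 := hgood k hk (by omega) Bk
      have h2 : b ^ (i + 1 - k - 1) = b * b ^ (i - k - 1) := by
        rw [← pow_succ']; congr 1; omega
      have h3 : b ^ i = b ^ (i - k - 1) * b ^ (k + 1) := by
        rw [← pow_add]; congr 1; omega
      have h2' : (b : ℝ) ^ (i + 1 - k - 1) = b * b ^ (i - k - 1) := by exact_mod_cast h2
      rw [h2, sum_range_mul', h2', sum_comm] at h1
      simp only [Pr_prod]
      rw [← sum_div, div_le_iff₀ hbR]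
      refine le_trans (le_of_eq ?_) (h1.trans (le_of_eq (by ring)))
      refine sum_congr rfl fun s _ => ?_
      rw [sum_range (n := b)]
      refine sum_congr rfl fun t _ => ?_
      congr 1
      ext ω
      have : seg (fun k => Y ω (t * b ^ i + k)) (s * b ^ (k + 1)) (b ^ (k + 1)) =
          seg (Y ω) ((t * b ^ (i - k - 1) + s) * b ^ (k + 1)) (b ^ (k + 1)) := by
        funext j
        simp only [seg]
        congr 1
        rw [h3]; ring
      simp only [Set.mem_ofPred_eq, this]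
    -- rewrite the two sides of `key`
    have hL1 : ∑ x : Ω × Fin b, p x.1 / b * (-Real.logb 2
        (q (asm (w x.1).1 (w x.1).2 (τ (w x.1).1) x.2)
          (seg (fun k => Y x.1 (x.2 * b ^ i + k)) 0 (b ^ i)))) =
        (∑ ω, p ω * ∑ t : Fin b, (-Real.logb 2 (q (asm (w ω).1 (w ω).2 (τ (w ω).1) t)
          (iblk b i (seg (Y ω) 0 (b ^ (i + 1))) t)))) / b := by
      rw [Fintype.sum_prod_type, sum_div]
      refine sum_congr rfl fun ω _ => ?_
      rw [mul_sum, sum_div]
      refine sum_congr rfl fun t _ => ?_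
      have : seg (fun k => Y ω (t * b ^ i + k)) 0 (b ^ i) =
          iblk b i (seg (Y ω) 0 (b ^ (i + 1))) t := by
        funext j; simp [seg, iblk]
      rw [this]; ring
    have hR1 : ∑ t ∈ range (b ^ i), Pr (fun x : Ω × Fin b => p x.1 / b)
        {x | Y x.1 (x.2 * b ^ i + t) ≠ nm (asm (w x.1).1 (w x.1).2 (τ (w x.1).1) x.2) t} =
        (∑ j ∈ range (b ^ (i + 1)), Pr p {ω | Y ω j ≠
          nm (asm (w ω).1 (w ω).2 (τ (w ω).1) (j / b ^ i)) (j % b ^ i)}) / b := by
      simp only [Pr_prod]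
      rw [← sum_div, pow_succ', sum_range_mul', sum_comm, sum_range (n := b)]
      congr 1
      refine sum_congr rfl fun t _ => sum_congr rfl fun j hj => ?_
      have hj' := mem_range.1 hj
      have e1 : (t * b ^ i + j) / b ^ i = t := by
        rw [add_comm, Nat.add_mul_div_right _ _ hbpos, Nat.div_eq_of_lt hj', zero_add]
      have e2 : (t * b ^ i + j) % b ^ i = j := by
        rw [add_comm, Nat.add_mul_mod_self_right, Nat.mod_eq_of_lt hj']
      simp only [Set.mem_ofPred_eq, e1, e2]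
    rw [hL1, hR1, div_le_iff₀ hbR] at key
    set cond : Set Ω := {ω | (w ω).1 ∈ L q ν' ∧ seg (Y ω) 0 (b ^ (i + 1)) ∉ B q ν'} with hcond
    have hpt : ∀ ω, p ω * (-Real.logb 2 (q' (q, ν') (w ω) (seg (Y ω) 0 (b ^ (i + 1))))) =
        p ω + p ω * (∑ t : Fin b, (-Real.logb 2 (q (asm (w ω).1 (w ω).2 (τ (w ω).1) t)
          (iblk b i (seg (Y ω) 0 (b ^ (i + 1))) t)))) -
          (g * (b : ℝ) ^ (i + 1)) * cond.indicator p ω := by
      intro ω
      have hq0 : ∀ t : Fin b, q (asm (w ω).1 (w ω).2 (τ (w ω).1) t)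
          (iblk b i (seg (Y ω) 0 (b ^ (i + 1))) t) ≠ 0 := fun t => ((h𝓠 q hq).1 _ _).ne'
      have hprod : (∏ t : Fin b, q (asm (w ω).1 (w ω).2 (τ (w ω).1) t)
          (iblk b i (seg (Y ω) 0 (b ^ (i + 1))) t)) ≠ 0 := prod_ne_zero_iff.2 fun t _ => hq0 t
      have hhalf : Real.logb 2 (1 / 2) = -1 := by
        rw [one_div, Real.logb_inv, Real.logb_self_eq_one (by norm_num)]
      simp only [q']
      by_cases h : ω ∈ cond
      · have h' : (w ω).1 ∈ L q ν' ∧ seg (Y ω) 0 (b ^ (i + 1)) ∉ B q ν' := h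
        rw [if_pos h', Set.indicator_of_mem h,
          Real.logb_mul (mul_ne_zero (by norm_num) hprod) hΓpos.ne',
          Real.logb_mul (by norm_num) hprod, Real.logb_prod _ _ fun t _ => hq0 t, hhalf, hΓ,
          Real.logb_pow, Real.logb_self_eq_one (by norm_num), sum_neg_distrib]
        push_cast
        ring
      · have h' : ¬ ((w ω).1 ∈ L q ν' ∧ seg (Y ω) 0 (b ^ (i + 1)) ∉ B q ν') := h
        rw [if_neg h', Set.indicator_of_notMem h, mul_one,
          Real.logb_mul (by norm_num) hprod, Real.logb_prod _ _ fun t _ => hq0 t, hhalf,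
          sum_neg_distrib]
        ring
    simp only [hpt, sum_sub_distrib, sum_add_distrib, hsum, ← mul_sum]
    have hgain : 5 / 8 * ((Good.filter (· < i + 1)).card : ℝ) ≤
        5 / 8 * (Good.filter (· < i)).card + ∑ ω, cond.indicator p ω := by
      by_cases hiG : i ∈ Good
      · have e1 : Good.filter (· < i + 1) = insert i (Good.filter (· < i)) := by
          ext k
          simp only [mem_filter, mem_insert]
          constructor
          · rintro ⟨h1, h2⟩
            by_cases h : k = i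
            · exact Or.inl h
            · exact Or.inr ⟨h1, by omega⟩
          · rintro (rfl | ⟨h1, h2⟩)
            exacts [⟨hiG, by omega⟩, ⟨h1, by omega⟩]
        rw [e1, card_insert_of_notMem (by simp)]
        have hν'' : ν' = ν i := by rw [hν', if_pos hiG]
        have a1 : Pr p {ω | (w ω).1 ∉ L q ν'} ≤ 1 / 16 := by
          rw [Pr_law hw fun x : U × A => x.1 ∉ L q ν']
          have e2 : (univ.filter fun x : U × A => x.1 ∉ L q ν') = (L q ν')ᶜ ×ˢ univ := by
            ext x; simp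
          have e3 : (16 * ((L q ν')ᶜ).card : ℝ) ≤ Fintype.card U := by
            exact_mod_cast hL q hq ν' hν'mem
          rw [e2, card_product, card_univ, Fintype.card_prod]
          rw [Fintype.card_prod] at hc
          push_cast at hc ⊢
          rw [one_div_mul_eq_div, div_le_div_iff₀ hc (by norm_num)]
          nlinarith
        have a2 : Pr p {ω | seg (Y ω) 0 (b ^ (i + 1)) ∈ B q ν'} ≤ 1 / 4 + 1 / 16 := by
          have h1 := hgood i hiG (by omega) (B q ν')
          rw [show i + 1 - i - 1 = 0 by omega, pow_zero, pow_zero, sum_range_one, zero_mul,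
            one_mul, ← hν''] at h1
          refine h1.trans ?_
          have h2 := hB q hq ν' hν'mem
          have h3 := (hGood i hiG).2
          have h4 : K i * ∑ y ∈ B q ν', ν' y ≤ K i * (3 / Γ) := mul_le_mul_of_nonneg_left h2 h3.1
          have h5 : K i * (3 / Γ) ≤ 1 / 16 := by
            rw [← mul_div_assoc, div_le_div_iff₀ hΓpos (by norm_num)]
            linarith [h3.2]
          linarith
        have a3 : ∑ ω, p ω ≤ ∑ ω, cond.indicator p ω + Pr p {ω | (w ω).1 ∉ L q ν'} +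
            Pr p {ω | seg (Y ω) 0 (b ^ (i + 1)) ∈ B q ν'} := by
          rw [Pr, Pr, ← sum_add_distrib, ← sum_add_distrib]
          refine sum_le_sum fun ω _ => ?_
          have := hp ω
          simp only [hcond, Set.indicator_apply, Set.mem_ofPred_eq]
          split_ifs <;> first | linarith | tauto
        push_cast
        linarith
      · have e1 : Good.filter (· < i + 1) = Good.filter (· < i) := by
          ext k
          simp only [mem_filter]
          constructor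
          · rintro ⟨h1, h2⟩
            have : k ≠ i := fun h => hiG (h ▸ h1)
            exact ⟨h1, by omega⟩
          · rintro ⟨h1, h2⟩
            exact ⟨h1, by omega⟩
        rw [e1]
        have := Pr_nonneg hp cond
        rw [Pr] at this
        linarith
    have hgb : (0 : ℝ) ≤ g * (b : ℝ) ^ (i + 1) := by positivity
    have hgain' := mul_le_mul_of_nonneg_left hgain hgb
    have e4 : (2 * (b : ℝ) ^ i - 1 + 4 * M * g * ((∑ j ∈ range (b ^ (i + 1)), Pr p {ω | Y ω j ≠
          nm (asm (w ω).1 (w ω).2 (τ (w ω).1) (j / b ^ i)) (j % b ^ i)}) / b) -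
        5 / 8 * g * (b : ℝ) ^ i * (Good.filter (· < i)).card) * b =
        2 * (b : ℝ) ^ (i + 1) - b + 4 * M * g * (∑ j ∈ range (b ^ (i + 1)), Pr p {ω | Y ω j ≠
          nm (asm (w ω).1 (w ω).2 (τ (w ω).1) (j / b ^ i)) (j % b ^ i)}) -
        5 / 8 * g * (b : ℝ) ^ (i + 1) * (Good.filter (· < i)).card := by
      field_simp
      ring
    rw [e4] at key
    nlinarith

theorem inner_code {W : Type} [Fintype W] [DecidableEq W] (M g b : ℕ)
    (hW : Fintype.card W = 2 ^ (4 * M * g))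
    (hb : 8 ≤ b) (hM : b ≤ M) (hg : 2 ≤ g)
    (𝓕 : (i : ℕ) → Finset ((Fin (b ^ (i + 1)) → W) → ℝ))
    (h𝓕 : ∀ i, ∀ ν ∈ 𝓕 i, (∀ y, 0 ≤ ν y) ∧ ∑ y, ν y ≤ 1)
    (hcard : ∀ i, ((𝓕 i).card : ℝ) ≤ Real.exp (Real.exp (4 * M * g * b ^ (i + 1) / 12))) :
    ∃ nm : Fin (2 ^ (2 * g * M * b ^ M)) → ℕ → W,
      (∀ t < b ^ M, Balanced fun w => nm w t) ∧
      (∀ t, t + b ^ (M - 1) < b ^ M → Balanced fun w => (nm w t, nm w (t + b ^ (M - 1)))) ∧
      ∀ (Ω : Type) [Fintype Ω] (p : Ω → ℝ) (w : Ω → Fin (2 ^ (2 * g * M * b ^ M)))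
        (Y : Ω → ℕ → W) (Good : Finset ℕ) (ν : (i : ℕ) → (Fin (b ^ (i + 1)) → W) → ℝ)
        (K : ℕ → ℝ),
        (∀ ω, 0 ≤ p ω) →
        (∀ a, ∑ ω with w ω = a, p ω = 1 / 2 ^ (2 * g * M * b ^ M)) →
        (∑ t ∈ Finset.range (b ^ M), ∑ ω with Y ω t ≠ nm (w ω) t, p ω ≤ (b : ℝ) ^ M / 50) →
        Good ⊆ Finset.range M → M ≤ 2 * Good.card →
        (∀ i ∈ Good, ν i ∈ 𝓕 i ∧ 0 ≤ K i ∧ 48 * K i ≤ 2 ^ (g * b ^ (i + 1)) ∧
          ∀ B : Finset (Fin (b ^ (i + 1)) → W),
            ∑ s ∈ Finset.range (b ^ (M - i - 1)),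
              ∑ ω with (fun t : Fin (b ^ (i + 1)) => Y ω (s * b ^ (i + 1) + t)) ∈ B, p ω ≤
              (b : ℝ) ^ (M - i - 1) * (1 / 4 + K i * ∑ y ∈ B, ν i y)) →
        False := by
  have hinv : ∀ i ≤ M, InnerInv W M g b 𝓕 i := by
    intro i
    induction i with
    | zero => intro _; exact innerInv_zero M g b hW 𝓕
    | succ i ih =>
      intro hi
      exact innerInv_succ M g b hb hM hg 𝓕 h𝓕 hcard i hi (ih (by omega))
  obtain ⟨A, _, _, nm, 𝓠, hA, hbal, hpair, -, h𝓠, hmain⟩ := hinv M le_rfl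
  have hA' : Fintype.card A = 2 ^ (2 * g * M * b ^ M) := by
    rw [hA]; congr 1; rw [show 2 * M - M = M by omega]; ring
  let e : A ≃ Fin (2 ^ (2 * g * M * b ^ M)) := Fintype.equivFinOfCardEq hA'
  have hApos : 0 < Fintype.card A := by rw [hA]; positivity
  refine ⟨fun w t => nm (e.symm w) t, fun t ht => ?_, fun t ht => ?_, ?_⟩
  · exact balanced_comp (g := fun a => nm a t) (hbal t ht) (balanced_equiv e.symm) hApos
  · exact balanced_comp (g := fun a => (nm a t, nm a (t + b ^ (M - 1))))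
      (hpair t (by omega) ht) (balanced_equiv e.symm) hApos
  intro Ω _ p w Y Good ν K hp hw herr hsub hcardG hG
  obtain ⟨q, hq, hqmain⟩ := hmain Good ν K fun k hk => ⟨(hG k hk).1, (hG k hk).2.1, (hG k hk).2.2.1⟩
  have key := hqmain Ω p (fun ω => e.symm (w ω)) Y hp ?_ ?_
  rotate_left
  · intro a
    have := hw (e a)
    rw [Pr_eq_filter] at this
    rw [hA']
    push_cast
    rw [← this]
    congr 1
    ext ω
    simp only [Set.mem_ofPred_eq, Equiv.symm_apply_eq]
  · intro k hk _ B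
    have := (hG k hk).2.2.2 B
    simp only [Pr_eq_filter] at this
    exact this
  simp only [Pr_eq_filter] at herr
  have h0 : 0 ≤ ∑ ω, p ω * (-Real.logb 2 (q (e.symm (w ω)) (seg (Y ω) 0 (b ^ M)))) := by
    refine sum_nonneg fun ω _ => mul_nonneg (hp ω) (neg_nonneg.2 ?_)
    refine Real.logb_nonpos (by norm_num) ((h𝓠 q hq).1 _ _).le ?_
    exact (single_le_sum (f := fun a => q a (seg (Y ω) 0 (b ^ M)))
      (fun a _ => ((h𝓠 q hq).1 _ _).le) (mem_univ _)).trans ((h𝓠 q hq).2 _)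
  have e1 : Good.filter (· < M) = Good :=
    filter_true_of_mem fun k hk => mem_range.1 (hsub hk)
  rw [e1] at key
  have hG' : (M : ℝ) ≤ 2 * Good.card := by exact_mod_cast hcardG
  have hM' : (8 : ℝ) ≤ M := by exact_mod_cast hb.trans hM
  have hg' : (2 : ℝ) ≤ g := by exact_mod_cast hg
  have hbM : (0 : ℝ) < (b : ℝ) ^ M := by
    have : (0 : ℝ) < b := by exact_mod_cast (by omega : 0 < b)
    positivity
  have hMg : (16 : ℝ) ≤ M * g := by nlinarith
  have h1 := mul_le_mul_of_nonneg_left herr (by positivity : (0 : ℝ) ≤ 4 * M * g)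
  have h2 := mul_le_mul_of_nonneg_left hG' (by positivity : (0 : ℝ) ≤ g * (b : ℝ) ^ M)
  have h3 := mul_le_mul_of_nonneg_left hMg hbM.le
  nlinarith

end Crest.Agent.R133
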