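import Crest.Agent.R133.Bal

/-! Row 133: one level of the hierarchical code. -/

set_option autoImplicit false

namespace Crest.Agent.R133

open Finset

/-- Chernoff bound and union bound: a table that is good for a whole family. -/
theorem table_lemma {U O ι : Type*} [Fintype U] [DecidableEq U] [Fintype O] [Nonempty O]
    (𝓒 : Finset ι) (Z : ι → U → O → ℝ) (τ0 : ℝ) (hτ0 : 0 < τ0)
    (hZ0 : ∀ c ∈ 𝓒, ∀ u a, 0 ≤ Z c u a) (hZ1 : ∀ c ∈ 𝓒, ∀ u a, Z c u a ≤ τ0)
    (hsum : ∀ c ∈ 𝓒, ∑ u, ∑ a, Z c u a ≤ 1)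
    (hcard : (𝓒.card : ℝ) < Real.exp (1 / (Fintype.card O * τ0))) :
    ∃ τ : U → O, ∀ c ∈ 𝓒, ∑ u, Z c u (τ u) ≤ 3 / Fintype.card O := by
  classical
  by_contra hcon
  push Not at hcon
  have hO : (0 : ℝ) < Fintype.card O := by exact_mod_cast Fintype.card_pos
  set o : ℝ := (Fintype.card O : ℝ) with ho
  set μ : ℝ := 1 / (o * τ0) with hμ
  have key : ∀ c ∈ 𝓒, ∑ τ : U → O, Real.exp ((∑ u, Z c u (τ u)) / τ0) ≤
      o ^ Fintype.card U * Real.exp (2 * μ) := by
    intro c hc
    have h1 : ∑ τ : U → O, Real.exp ((∑ u, Z c u (τ u)) / τ0) =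
        ∏ u, ∑ a, Real.exp (Z c u a / τ0) := by
      rw [Finset.prod_univ_sum, Fintype.piFinset_univ]
      refine sum_congr rfl fun τ _ => ?_
      rw [sum_div, Real.exp_sum]
    have h2 : ∀ u, ∑ a, Real.exp (Z c u a / τ0) ≤
        o * Real.exp (2 * (∑ a, Z c u a) / (o * τ0)) := by
      intro u
      calc ∑ a, Real.exp (Z c u a / τ0) ≤ ∑ a, (1 + 2 * (Z c u a / τ0)) := by
            refine sum_le_sum fun a _ => ?_
            have h0 : 0 ≤ Z c u a / τ0 := div_nonneg (hZ0 c hc u a) hτ0.le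
            have h1 : Z c u a / τ0 ≤ 1 := (div_le_one hτ0).2 (hZ1 c hc u a)
            have := Real.abs_exp_sub_one_le (x := Z c u a / τ0) (by rwa [abs_of_nonneg h0])
            rw [abs_of_nonneg h0] at this
            linarith [(abs_le.1 this).2]
        _ = o * (2 * (∑ a, Z c u a) / (o * τ0) + 1) := by
            rw [sum_add_distrib, ← mul_sum, ← sum_div]
            simp only [sum_const, card_univ, nsmul_eq_mul, mul_one, ← ho]
            field_simp
            ring
        _ ≤ _ := by gcongr; exact Real.add_one_le_exp _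
    rw [h1]
    calc ∏ u, ∑ a, Real.exp (Z c u a / τ0)
        ≤ ∏ u, o * Real.exp (2 * (∑ a, Z c u a) / (o * τ0)) :=
          prod_le_prod (fun u _ => sum_nonneg fun a _ => (Real.exp_pos _).le) fun u _ => h2 u
      _ = o ^ Fintype.card U * Real.exp (2 * (∑ u, ∑ a, Z c u a) / (o * τ0)) := by
          rw [prod_mul_distrib, prod_const, card_univ, ← Real.exp_sum, ← sum_div, ← mul_sum]
      _ ≤ _ := by
          gcongr
          rw [hμ, mul_one_div]
          gcongr
          linarith [hsum c hc]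
  have h3 : ∀ τ : U → O, (1 : ℝ) ≤
      ∑ c ∈ 𝓒, Real.exp ((∑ u, Z c u (τ u)) / τ0) * Real.exp (-(3 * μ)) := by
    intro τ
    obtain ⟨c, hc, hlt⟩ := hcon τ
    refine le_trans ?_ (single_le_sum (f := fun c =>
      Real.exp ((∑ u, Z c u (τ u)) / τ0) * Real.exp (-(3 * μ))) (fun c _ => by positivity) hc)
    rw [← Real.exp_add]
    refine Real.one_le_exp ?_
    have : 3 * μ = 3 / o / τ0 := by rw [hμ]; field_simp
    rw [this]
    have := div_le_div_of_nonneg_right hlt.le hτ0.le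
    linarith
  have h4 : o ^ Fintype.card U ≤ 𝓒.card * (o ^ Fintype.card U * Real.exp (-μ)) := by
    calc o ^ Fintype.card U = ∑ _τ : U → O, (1 : ℝ) := by
          simp [ho]
      _ ≤ ∑ τ : U → O, ∑ c ∈ 𝓒, Real.exp ((∑ u, Z c u (τ u)) / τ0) * Real.exp (-(3 * μ)) :=
          sum_le_sum fun τ _ => h3 τ
      _ = ∑ c ∈ 𝓒, (∑ τ : U → O, Real.exp ((∑ u, Z c u (τ u)) / τ0)) * Real.exp (-(3 * μ)) := by
          rw [sum_comm]; simp only [sum_mul]
      _ ≤ ∑ _c ∈ 𝓒, o ^ Fintype.card U * Real.exp (-μ) := by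
          refine sum_le_sum fun c hc => ?_
          calc _ ≤ (o ^ Fintype.card U * Real.exp (2 * μ)) * Real.exp (-(3 * μ)) := by
                gcongr; exact key c hc
            _ = _ := by rw [mul_assoc, ← Real.exp_add]; congr 2; ring
      _ = _ := by rw [sum_const, nsmul_eq_mul]
  have h5 : (0 : ℝ) < o ^ Fintype.card U * Real.exp (-μ) := by positivity
  have h6 : (𝓒.card : ℝ) * (o ^ Fintype.card U * Real.exp (-μ)) <
      Real.exp μ * (o ^ Fintype.card U * Real.exp (-μ)) := mul_lt_mul_of_pos_right hcard h5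
  have h7 : Real.exp μ * (o ^ Fintype.card U * Real.exp (-μ)) = o ^ Fintype.card U := by
    rw [Real.exp_neg]; field_simp
  linarith

/-- The combinatorial cell: `b` blocks, a part of the last block is a part of the first block
translated by an offset. -/
theorem exists_cell {A : Type} [Fintype A] [DecidableEq A] (f o b : ℕ)
    (hA : Fintype.card A = 2 ^ f) (ho : o ≤ f) (hb : 3 ≤ b) :
    ∃ (U O : Type) (_ : Fintype U) (_ : DecidableEq U) (_ : Fintype O)
      (asm : U → A → O → ℕ → A),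
      Fintype.card U = 2 ^ ((b - 1) * f - o) ∧ Fintype.card O = 2 ^ o ∧
      Function.Injective (fun x : U × A × O => fun t : Fin b => asm x.1 x.2.1 x.2.2 t) ∧
      ∀ τ : U → O, ∀ t, t + 1 < b →
        Balanced fun x : U × A => (asm x.1 x.2 (τ x.1) t, asm x.1 x.2 (τ x.1) (t + 1)) := by
  obtain ⟨b', rfl⟩ : ∃ b', b = b' + 2 := ⟨b - 2, by omega⟩
  obtain ⟨v, rfl⟩ : ∃ v, f = o + v := ⟨f - o, by omega⟩
  have hne : NeZero (2 ^ o) := ⟨by positivity⟩
  let e : A ≃ ZMod (2 ^ o) × Fin (2 ^ v) :=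
    Fintype.equivOfCardEq (by rw [hA, Fintype.card_prod, ZMod.card, Fintype.card_fin, pow_add])
  let asm : Fin (2 ^ v) × (Fin b' → A) → A → ZMod (2 ^ o) → ℕ → A := fun u r a t =>
    if t = 0 then e.symm ((e r).1, u.1) else
      if h : t - 1 < b' then u.2 ⟨t - 1, h⟩ else e.symm ((e r).1 + a, (e r).2)
  have asm0 : ∀ u r a, asm u r a 0 = e.symm ((e r).1, u.1) := fun u r a => by simp [asm]
  have asm1 : ∀ u r a (j : Fin b'), asm u r a (j + 1) = u.2 j := fun u r a j => by simp [asm]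
  have asm2 : ∀ u r a, asm u r a (b' + 1) = e.symm ((e r).1 + a, (e r).2) := fun u r a => by
    simp [asm]
  have hcU : Fintype.card (Fin (2 ^ v) × (Fin b' → A)) = 2 ^ v * (2 ^ (o + v)) ^ b' := by
    rw [Fintype.card_prod, Fintype.card_fin, Fintype.card_fun, Fintype.card_fin, hA]
  have hpos : 0 < Fintype.card ((Fin (2 ^ v) × (Fin b' → A)) × A) := by
    rw [Fintype.card_prod, hcU, hA]; positivity
  have hcard : Fintype.card ((Fin (2 ^ v) × (Fin b' → A)) × A) =
      Fintype.card (Fin (b' + 1) → A) * Fintype.card (Fin (2 ^ v)) := by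
    rw [Fintype.card_prod, hcU, Fintype.card_fun, Fintype.card_fin, Fintype.card_fin, hA]
    ring
  have hposA : 0 < Fintype.card (Fin (b' + 1) → A) := by
    rw [Fintype.card_fun, hA]; positivity
  refine ⟨Fin (2 ^ v) × (Fin b' → A), ZMod (2 ^ o), inferInstance, inferInstance, inferInstance,
    asm, ?_, ZMod.card _, ?_, ?_⟩
  · rw [hcU, ← pow_mul, ← pow_add]
    congr 1
    rw [show b' + 2 - 1 = b' + 1 by omega]
    have : (b' + 1) * (o + v) = o + (v + (o + v) * b') := by ring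
    omega
  · rintro ⟨u, r, a⟩ ⟨u', r', a'⟩ h
    have h0 := congrFun h ⟨0, by omega⟩
    have h2 := congrFun h ⟨b' + 1, by omega⟩
    simp only [asm0, asm2, EmbeddingLike.apply_eq_iff_eq, Prod.mk.injEq] at h0 h2
    have h1 : u.2 = u'.2 := funext fun j => by
      have := congrFun h ⟨j + 1, by omega⟩
      simpa only [asm1] using this
    have hr : r = r' := e.injective (Prod.ext h0.1 h2.2)
    have ha : a = a' := by
      have := h2.1
      rw [h0.1] at this
      exact add_left_cancel this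
    rw [Prod.ext h0.2 h1, hr, ha]
  · intro τ t ht
    by_cases htb : t < b'
    · have P1 : Balanced fun x : (Fin (2 ^ v) × (Fin b' → A)) × A =>
          fun j : Fin (b' + 1) => asm x.1 x.2 (τ x.1) j := by
        refine balanced_of_injective (fun x => (e x.2).2) ?_ hcard hpos
        rintro ⟨u, r⟩ ⟨u', r'⟩ h
        simp only [Prod.mk.injEq] at h
        have h0 := congrFun h.1 ⟨0, by omega⟩
        simp only [asm0, EmbeddingLike.apply_eq_iff_eq, Prod.mk.injEq] at h0
        have h1 : u.2 = u'.2 := funext fun j => by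
          have := congrFun h.1 ⟨j + 1, by omega⟩
          simpa only [asm1] using this
        rw [Prod.ext h0.2 h1, e.injective (Prod.ext h0.1 h.2)]
      exact balanced_comp (balanced_eval_pair (α := A) (i := (⟨t, by omega⟩ : Fin (b' + 1)))
        (j := ⟨t + 1, by omega⟩) (by simp)) P1 hposA
    · have htb' : t = b' := by omega
      have P2 : Balanced fun x : (Fin (2 ^ v) × (Fin b' → A)) × A =>
          fun j : Fin (b' + 1) => asm x.1 x.2 (τ x.1) (j + 1) := by
        refine balanced_of_injective (fun x => x.1.1) ?_ hcard hpos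
        rintro ⟨u, r⟩ ⟨u', r'⟩ h
        simp only [Prod.mk.injEq] at h
        have h2 := congrFun h.1 ⟨b', by omega⟩
        simp only [asm2, EmbeddingLike.apply_eq_iff_eq, Prod.mk.injEq] at h2
        have h1 : u.2 = u'.2 := funext fun j => by
          have := congrFun h.1 ⟨j, by omega⟩
          simpa only [asm1] using this
        have hu : u = u' := Prod.ext h.2 h1
        subst hu
        rw [e.injective (Prod.ext (add_right_cancel h2.1) h2.2)]
      have := balanced_comp (balanced_eval_pair (α := A) (i := (⟨t - 1, by omega⟩ : Fin (b' + 1)))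
        (j := ⟨t, by omega⟩) (by simp; omega)) P2 hposA
      refine this.congr fun x => ?_
      simp only
      rw [show t - 1 + 1 = t by omega]

/-- One level: the table, the light set and the exceptional set. -/
theorem step_lemma {A S S' U O : Type*} [Fintype A] [Fintype S'] [Fintype U] [DecidableEq U]
    [DecidableEq S'] [Fintype O] [Nonempty O] [Nonempty U] (b : ℕ) (asm : U → A → O → ℕ → A)
    (hinj : Function.Injective (fun x : U × A × O => fun t : Fin b => asm x.1 x.2.1 x.2.2 t))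
    (blk : S' → Fin b → S) (𝓠 : Finset (A → S → ℝ))
    (h𝓠 : ∀ q ∈ 𝓠, (∀ a y, 0 < q a y) ∧ ∀ y, ∑ a, q a y ≤ 1)
    (𝓝 : Finset (S' → ℝ)) (h𝓝 : ∀ ν ∈ 𝓝, (∀ y, 0 ≤ ν y) ∧ ∑ y, ν y ≤ 1)
    (Γ : ℝ) (hΓ : 0 < Γ) (hO : (Fintype.card O : ℝ) = Γ ^ 2)
    (hcard : (𝓠.card * 𝓝.card : ℝ) < Real.exp (Fintype.card U / (16 * Fintype.card O))) :
    ∃ τ : U → O, ∀ q ∈ 𝓠, ∀ ν ∈ 𝓝, ∃ (L : Finset U) (B : Finset S'),
      16 * (Lᶜ).card ≤ Fintype.card U ∧ ∑ y ∈ B, ν y ≤ 3 / Γ ∧
      ∀ y, ∑ x : U × A, (1 / 2) * (∏ t : Fin b, q (asm x.1 x.2 (τ x.1) t) (blk y t)) *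
        (if x.1 ∈ L ∧ y ∉ B then Γ else 1) ≤ 1 := by
  classical
  have hU : (0 : ℝ) < Fintype.card U := by exact_mod_cast Fintype.card_pos
  set τ0 : ℝ := 16 / Fintype.card U with hτ0
  have hτ0pos : 0 < τ0 := by positivity
  -- the product weight
  let Q : (A → S → ℝ) → U → A → O → S' → ℝ := fun q u r a y =>
    ∏ t : Fin b, q (asm u r a t) (blk y t)
  have hQ0 : ∀ q ∈ 𝓠, ∀ u r a y, 0 < Q q u r a y := fun q hq u r a y =>
    prod_pos fun t _ => (h𝓠 q hq).1 _ _
  have hQ1 : ∀ q ∈ 𝓠, ∀ y, ∑ u, ∑ r, ∑ a, Q q u r a y ≤ 1 := by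
    intro q hq y
    have h1 : ∑ u, ∑ r, ∑ a, Q q u r a y = ∑ x : U × A × O, Q q x.1 x.2.1 x.2.2 y := by
      simp only [Fintype.sum_prod_type]
    have h2 : ∑ x : U × A × O, Q q x.1 x.2.1 x.2.2 y ≤
        ∑ z : Fin b → A, ∏ t : Fin b, q (z t) (blk y t) := by
      rw [← sum_image (s := univ) (g := fun x : U × A × O => fun t : Fin b =>
        asm x.1 x.2.1 x.2.2 t) (f := fun z : Fin b → A => ∏ t : Fin b, q (z t) (blk y t))
        (fun x _ x' _ h => hinj h)]
      exact sum_le_sum_of_subset_of_nonneg (subset_univ _) fun z _ _ =>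
        prod_nonneg fun t _ => ((h𝓠 q hq).1 _ _).le
    have h3 : ∑ z : Fin b → A, ∏ t : Fin b, q (z t) (blk y t) = ∏ t : Fin b, ∑ a, q a (blk y t) := by
      rw [Finset.prod_univ_sum, Fintype.piFinset_univ]
    rw [h1]
    refine h2.trans (h3.le.trans ?_)
    exact prod_le_one (fun t _ => sum_nonneg fun a _ => ((h𝓠 q hq).1 _ _).le)
      fun t _ => (h𝓠 q hq).2 _
  let z : (A → S → ℝ) × (S' → ℝ) → U → O → ℝ := fun c u a => ∑ y, c.2 y * ∑ r, Q c.1 u r a y
  let R : (A → S → ℝ) × (S' → ℝ) → U → ℝ := fun c u => ∑ a, z c u a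
  have hz0 : ∀ c ∈ 𝓠 ×ˢ 𝓝, ∀ u a, 0 ≤ z c u a := fun c hc u a =>
    sum_nonneg fun y _ => mul_nonneg ((h𝓝 _ (mem_product.1 hc).2).1 y)
      (sum_nonneg fun r _ => (hQ0 _ (mem_product.1 hc).1 _ _ _ _).le)
  have hR : ∀ c ∈ 𝓠 ×ˢ 𝓝, ∑ u, R c u ≤ 1 := by
    intro c hc
    calc ∑ u, R c u = ∑ y, c.2 y * ∑ u, ∑ r, ∑ a, Q c.1 u r a y := by
          simp only [R, z, mul_sum]
          rw [sum_comm' (t' := univ) (s' := fun _ => univ) (by simp)]
          rw [show (∑ a : O, ∑ u : U, ∑ y : S', ∑ r : A, c.2 y * Q c.1 u r a y) =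
            ∑ a : O, ∑ y : S', ∑ u : U, ∑ r : A, c.2 y * Q c.1 u r a y from
            sum_congr rfl fun a _ => sum_comm, sum_comm]
          refine sum_congr rfl fun y _ => ?_
          rw [sum_comm]
          exact sum_congr rfl fun u _ => sum_comm
      _ ≤ ∑ y, c.2 y * 1 := sum_le_sum fun y _ => mul_le_mul_of_nonneg_left
          (hQ1 _ (mem_product.1 hc).1 y) ((h𝓝 _ (mem_product.1 hc).2).1 y)
      _ ≤ 1 := by simpa using (h𝓝 _ (mem_product.1 hc).2).2
  obtain ⟨τ, hτ⟩ := table_lemma (𝓠 ×ˢ 𝓝) (fun c u a => if R c u ≤ τ0 then z c u a else 0) τ0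
    hτ0pos (fun c hc u a => by split_ifs; exacts [hz0 c hc u a, le_rfl])
    (fun c hc u a => by
      split_ifs with h
      · exact (single_le_sum (f := fun a => z c u a) (fun a _ => hz0 c hc u a)
          (mem_univ a)).trans h
      · exact hτ0pos.le)
    (fun c hc => by
      refine le_trans (sum_le_sum fun u _ => sum_le_sum fun a _ => ?_) (hR c hc)
      split_ifs; exacts [le_rfl, hz0 c hc u a])
    (by
      rw [card_product, Nat.cast_mul]
      refine hcard.trans_le (le_of_eq ?_)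
      congr 1
      rw [hτ0]; field_simp)
  refine ⟨τ, fun q hq ν hν => ?_⟩
  have hc : (q, ν) ∈ 𝓠 ×ˢ 𝓝 := mem_product.2 ⟨hq, hν⟩
  let L : Finset U := univ.filter fun u => R (q, ν) u ≤ τ0
  let Zy : S' → ℝ := fun y => ∑ u ∈ L, ∑ r, Q q u r (τ u) y
  have hZy0 : ∀ y, 0 ≤ Zy y := fun y =>
    sum_nonneg fun u _ => sum_nonneg fun r _ => (hQ0 q hq _ _ _ _).le
  refine ⟨L, univ.filter fun y => 1 / Γ < Zy y, ?_, ?_, ?_⟩
  · have h1 : ((Lᶜ).card : ℝ) * τ0 ≤ 1 := by
      calc ((Lᶜ).card : ℝ) * τ0 = ∑ _u ∈ Lᶜ, τ0 := by rw [sum_const, nsmul_eq_mul]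
        _ ≤ ∑ u ∈ Lᶜ, R (q, ν) u := sum_le_sum fun u hu => by
            have : ¬ R (q, ν) u ≤ τ0 := by simpa [L] using hu
            exact (not_le.1 this).le
        _ ≤ ∑ u, R (q, ν) u := sum_le_sum_of_subset_of_nonneg (subset_univ _)
            fun u _ _ => sum_nonneg fun a _ => hz0 _ hc u a
        _ ≤ 1 := hR _ hc
    rw [hτ0, ← mul_div_assoc, div_le_one hU] at h1
    have : (16 * (Lᶜ).card : ℝ) ≤ Fintype.card U := by linarith
    exact_mod_cast this
  · have h1 : ∑ y, ν y * Zy y ≤ 3 / Γ ^ 2 := by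
      have := hτ _ hc
      rw [hO, ← sum_filter] at this
      refine le_trans (le_of_eq ?_) this
      simp only [Zy, z, mul_sum]
      rw [sum_comm]
    have h2 : (∑ y ∈ univ.filter fun y => 1 / Γ < Zy y, ν y) * (1 / Γ) ≤ ∑ y, ν y * Zy y := by
      rw [sum_mul]
      refine le_trans (sum_le_sum fun y hy => ?_) (sum_le_sum_of_subset_of_nonneg (subset_univ
        (univ.filter fun y => 1 / Γ < Zy y)) fun y _ _ => mul_nonneg ((h𝓝 ν hν).1 y) (hZy0 y))
      exact mul_le_mul_of_nonneg_left (mem_filter.1 hy).2.le ((h𝓝 ν hν).1 y)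
    have h3 := h2.trans h1
    rw [mul_one_div, div_le_iff₀ hΓ] at h3
    refine h3.trans (le_of_eq ?_)
    field_simp
  · intro y
    have h1 : ∑ u, ∑ r, Q q u r (τ u) y ≤ 1 := by
      refine le_trans (sum_le_sum fun u _ => sum_le_sum fun r _ => ?_) (hQ1 q hq y)
      exact single_le_sum (f := fun a => Q q u r a y) (fun a _ => (hQ0 q hq _ _ _ _).le)
        (mem_univ _)
    by_cases hy : 1 / Γ < Zy y
    · have : y ∈ univ.filter fun y => 1 / Γ < Zy y := by simpa using hy
      simp only [this, not_true_eq_false, and_false, if_false, mul_one, ← mul_sum,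
        Fintype.sum_prod_type]
      have h2 : ∑ u, ∑ r, Q q u r (τ u) y ≤ 1 := h1
      simp only [Q] at h2
      linarith
    · have : y ∉ univ.filter fun y => 1 / Γ < Zy y := by simpa using hy
      simp only [this, not_false_eq_true, and_true, Fintype.sum_prod_type]
      have h2 : Γ * Zy y ≤ 1 := by
        rw [not_lt, le_div_iff₀ hΓ] at hy; linarith
      calc ∑ u, ∑ r, 1 / 2 * Q q u r (τ u) y * (if u ∈ L then Γ else 1)
          ≤ ∑ u, (1 / 2 * ∑ r, Q q u r (τ u) y +
              1 / 2 * Γ * if u ∈ L then ∑ r, Q q u r (τ u) y else 0) := by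
            refine sum_le_sum fun u _ => ?_
            have h0 : 0 ≤ ∑ r, Q q u r (τ u) y := sum_nonneg fun r _ => (hQ0 q hq _ _ _ _).le
            rw [← sum_mul, ← mul_sum]
            split_ifs
            · nlinarith
            · linarith
        _ = 1 / 2 * ∑ u, ∑ r, Q q u r (τ u) y + 1 / 2 * (Γ * Zy y) := by
            rw [sum_add_distrib, ← mul_sum, ← mul_sum, ← sum_filter, filter_mem_eq_inter,
              univ_inter, mul_assoc]
        _ ≤ 1 := by linarith

end Crest.Agent.R133
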