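import Crest.Agent.R133.Defs

/-! Row 133: an atomless Borel probability measure on a standard Borel space is standard. -/

set_option autoImplicit false

open MeasureTheory Set Metric Filter Crest.AnalysisR
open scoped ENNReal Topology

namespace Crest.Agent.R133

open ProbabilityTheory

/-- The distribution function of an atomless probability measure is continuous. -/
theorem continuous_cdf (κ : Measure ℝ) [IsProbabilityMeasure κ] [NullSingletonClass κ] :
    Continuous (cdf κ) := by
  refine continuous_iff_continuousAt.2 fun x => ?_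
  rw [(cdf κ).mono.continuousAt_iff_leftLim_eq_rightLim, (cdf κ).rightLim_eq]
  have h := (cdf κ).measure_singleton x
  rw [measure_cdf, measure_singleton, eq_comm, ENNReal.ofReal_eq_zero] at h
  exact le_antisymm ((cdf κ).mono.leftLim_le le_rfl) (by linarith)

/-- The probability integral transform. -/
theorem measure_cdf_le (κ : Measure ℝ) [IsProbabilityMeasure κ] [NullSingletonClass κ] {t : ℝ}
    (h1 : t ≤ 1) : κ {x | cdf κ x ≤ t} = ENNReal.ofReal t := by
  rcases h1.eq_or_lt with rfl | h1
  · simp [cdf_le_one]
  rcases {x | cdf κ x ≤ t}.eq_empty_or_nonempty with h | h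
  · have : t ≤ 0 := ge_of_tendsto' (tendsto_cdf_atBot κ) fun x =>
      (not_le.1 fun hx => (h ▸ hx : x ∈ (∅ : Set ℝ))).le
    rw [h, measure_empty, ENNReal.ofReal_eq_zero.2 this]
  obtain ⟨b, hb⟩ := eventually_atTop.1 ((tendsto_cdf_atTop κ).eventually (lt_mem_nhds h1))
  have hbdd : BddAbove {x | cdf κ x ≤ t} :=
    ⟨b, fun x hx => le_of_not_ge fun h => absurd (hb x h) (not_lt.2 hx)⟩
  have hs := (isClosed_le (continuous_cdf κ) continuous_const).csSup_mem h hbdd
  set s := sSup {x | cdf κ x ≤ t}
  have e : {x | cdf κ x ≤ t} = Iic s :=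
    Set.ext fun x => ⟨fun hx => le_csSup hbdd hx, fun hx => (monotone_cdf κ hx).trans hs⟩
  rw [e, ← ofReal_cdf]
  congr 1
  refine le_antisymm hs (le_of_not_gt fun hlt => ?_)
  have h2 : ∀ᶠ x in 𝓝[>] s, cdf κ x < t :=
    mem_nhdsWithin_of_mem_nhds ((continuous_cdf κ).continuousAt.eventually (gt_mem_nhds hlt))
  obtain ⟨x, hx, hx'⟩ := (h2.and self_mem_nhdsWithin).exists
  exact absurd (le_csSup hbdd hx.le) (not_le.2 hx')

/-- A measure-preserving map to the unit interval that is injective on a conull set. -/
theorem isStandardProbability_of_injOn {X : Type*} [MeasurableSpace X] [StandardBorelSpace X]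
    (μ : Measure X) [IsProbabilityMeasure μ] {F : X → unitInterval} (hF : Measurable F)
    (hμ : μ.map F = volume) {X₀ : Set X} (h₀ : MeasurableSet X₀) (h₁ : μ X₀ᶜ = 0)
    (hi : InjOn F X₀) : IsStandardProbability μ := by
  have hne : Nonempty X₀ := by
    rcases X₀.eq_empty_or_nonempty with h | h
    · simp [h] at h₁
    · exact h.to_subtype
  have := h₀.standardBorel
  have he : MeasurableEmbedding fun x : X₀ => F x :=
    (hF.comp measurable_subtype_coe).measurableEmbedding fun x y h => Subtype.ext (hi x.2 y.2 h)
  have hY := h₀.image_of_measurable_injOn hF hi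
  refine ⟨X₀, F '' X₀, F, fun y => he.invFun y, h₀, hY, h₁, ?_, hF,
    measurable_subtype_coe.comp he.measurable_invFun, hi.bijOn_image,
    fun x hx => congrArg Subtype.val (he.leftInverse_invFun ⟨x, hx⟩), hμ⟩
  rw [← hμ, Measure.map_apply hF hY.compl]
  exact measure_mono_null (fun x hx hx' => hx (mem_image_of_mem F hx')) h₁

theorem isStandardProbability_of_noAtoms {X : Type*} [MeasurableSpace X] [StandardBorelSpace X]
    (μ : Measure X) [IsProbabilityMeasure μ] [NullSingletonClass μ] : IsStandardProbability μ := by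
  have he := measurableEmbedding_embeddingReal X
  set e := embeddingReal X
  set κ := μ.map e with hκ
  have : IsProbabilityMeasure κ := Measure.isProbabilityMeasure_map he.measurable.aemeasurable
  have : NullSingletonClass κ := ⟨fun x => by
    rw [hκ, he.map_apply]
    exact (subsingleton_singleton.preimage he.injective).measure_zero μ⟩
  let F : ℝ → unitInterval := fun x => ⟨cdf κ x, cdf_nonneg κ x, cdf_le_one κ x⟩
  have hF : Measurable F := ((continuous_cdf κ).subtype_mk _).measurable
  have hmap : κ.map F = volume := by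
    have := Measure.isProbabilityMeasure_map (μ := κ) hF.aemeasurable
    refine Measure.ext_of_Iic _ _ fun t => ?_
    rw [Measure.map_apply hF measurableSet_Iic, unitInterval.volume_Iic, ← measure_cdf_le κ t.2.2]
    rfl
  have hS : MeasurableSet (⋃ q : ℚ, Ioi (q : ℝ) ∩ F ⁻¹' {F q}) :=
    MeasurableSet.iUnion fun q => measurableSet_Ioi.inter (hF (measurableSet_singleton _))
  refine isStandardProbability_of_injOn μ (hF.comp he.measurable)
    (by rw [← Measure.map_map hF he.measurable, hmap])
    (X₀ := e ⁻¹' (⋃ q : ℚ, Ioi (q : ℝ) ∩ F ⁻¹' {F q})ᶜ) (he.measurable hS.compl) ?_ ?_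
  · rw [preimage_compl, compl_compl, ← he.map_apply]
    refine measure_iUnion_null fun q => measure_mono_null inter_subset_right ?_
    rw [← Measure.map_apply hF (measurableSet_singleton _), hmap, measure_singleton]
  · have key : ∀ x y : ℝ, y ∉ (⋃ q : ℚ, Ioi (q : ℝ) ∩ F ⁻¹' {F q}) → F x = F y → y ≤ x := by
      intro x y hy h
      refine le_of_not_gt fun hxy => hy ?_
      obtain ⟨q, h1, h2⟩ := exists_rat_btwn hxy
      refine mem_iUnion.2 ⟨q, h2, Subtype.ext (le_antisymm ?_ (monotone_cdf κ h2.le))⟩
      exact (congrArg Subtype.val h).symm.le.trans (monotone_cdf κ h1.le)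
    exact fun x hx y hy h => he.injective (le_antisymm (key _ _ hx h.symm) (key _ _ hy h))

end Crest.Agent.R133
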