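import Crest.Agent.R133.Defs

/-! Row 133: the tower system has zero entropy. -/

set_option autoImplicit false

open MeasureTheory Set Metric Filter Crest.AnalysisR
open scoped ENNReal Topology

namespace Crest.Agent.R133

namespace TowerEntropy

variable {X : Type*} [MeasurableSpace X] {μ : Measure X} [IsProbabilityMeasure μ]

theorem integral_comp {α : Type*} [Fintype α] {ξ : X → α} (hξ : ∀ a, MeasurableSet (ξ ⁻¹' {a}))
    (f : α → ℝ) : Integrable (fun x => f (ξ x)) μ ∧
      ∫ x, f (ξ x) ∂μ = ∑ a, μ.real (ξ ⁻¹' {a}) * f a := by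
  classical
  have e : (fun x => f (ξ x)) = fun x => ∑ a, (ξ ⁻¹' {a}).indicator (fun _ => f a) x := by
    funext x
    rw [Finset.sum_eq_single (ξ x) (fun a _ ha => indicator_of_notMem (by simpa using ha.symm) _)
      (by simp), indicator_of_mem (by simp)]
  have hi : ∀ a, Integrable ((ξ ⁻¹' {a}).indicator fun _ => f a) μ := fun a =>
    (integrable_const _).indicator (hξ a)
  rw [e]
  refine ⟨integrable_finsetSum _ fun a _ => hi a, ?_⟩
  rw [integral_finsetSum _ fun a _ => hi a]
  exact Finset.sum_congr rfl fun a _ => by rw [integral_indicator_const _ (hξ a), smul_eq_mul]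

theorem entropy_nonneg {α : Type*} [Fintype α] (ξ : X → α) : 0 ≤ labelEntropy μ ξ :=
  Finset.sum_nonneg fun _ _ => Real.negMulLog_nonneg ENNReal.toReal_nonneg measureReal_le_one

/-- Gibbs' inequality. -/
theorem gibbs {α : Type*} [Fintype α] {ξ : X → α} (hξ : ∀ a, MeasurableSet (ξ ⁻¹' {a}))
    {q : α → ℝ} (hq : ∀ a, 0 < q a) (hs : ∑ a, q a ≤ 1) {g : X → ℝ} (hg : Integrable g μ)
    (hle : ∀ x, -Real.log (q (ξ x)) ≤ g x) : labelEntropy μ ξ ≤ ∫ x, g x ∂μ := by
  obtain ⟨h1, h2⟩ := integral_comp (μ := μ) hξ fun a => -Real.log (q a)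
  have h3 := (integral_comp (μ := μ) hξ fun _ => 1).2
  simp only [integral_const, probReal_univ, smul_eq_mul, mul_one] at h3
  have h4 := integral_mono h1 hg hle
  have h5 : ∀ a, Real.negMulLog (μ.real (ξ ⁻¹' {a})) ≤
      μ.real (ξ ⁻¹' {a}) * -Real.log (q a) + q a - μ.real (ξ ⁻¹' {a}) := fun a => by
    rcases (measureReal_nonneg (μ := μ) (s := ξ ⁻¹' {a})).eq_or_lt with h | h
    · rw [← h]; simpa using (hq a).le
    · generalize μ.real (ξ ⁻¹' {a}) = p at h
      have h6 := Real.log_le_sub_one_of_pos (div_pos (hq a) h)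
      rw [Real.log_div (hq a).ne' h.ne'] at h6
      have h7 := mul_le_mul_of_nonneg_left h6 h.le
      rw [mul_sub p (q a / p), mul_div_cancel₀ _ h.ne'] at h7
      unfold Real.negMulLog
      linarith
  have h8 := Finset.sum_le_sum (s := Finset.univ) fun a _ => h5 a
  rw [Finset.sum_sub_distrib, Finset.sum_add_distrib, ← h2, ← h3] at h8
  change ∑ a, Real.negMulLog (μ.real (ξ ⁻¹' {a})) ≤ _
  linarith

/-- Entropy of names that are close to names from a finite list. -/
theorem names_le {T : X → X} (hT : MeasurePreserving T μ μ) {m : ℕ} (hm : 0 < m)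
    {P P' : X → Fin m} (hP : Measurable P) (hP' : Measurable P') (n : ℕ) {S : Type} [Fintype S]
    [Nonempty S] (name : S → Fin n → Fin m) (hname : ∀ x, ∃ s, ∀ k : Fin n, name s k = P' (T^[k] x))
    {ε : ℝ} (h0 : 0 < ε) (h1 : ε < 1) :
    labelEntropy μ (fun x : X => fun j : Fin n => P (T^[(j : ℕ)] x)) ≤
      Real.log (Fintype.card S) + n * -Real.log (1 - ε) +
        n * (μ.real {x | P x ≠ P' x} * Real.log (m / ε)) := by
  classical
  have hm' : (0 : ℝ) < m := by exact_mod_cast hm
  have hS : (0 : ℝ) < Fintype.card S := by exact_mod_cast Fintype.card_pos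
  set κ : Fin m → Fin m → ℝ := fun a' a => (if a = a' then 1 - ε else 0) + ε / m with hκ
  have κ0 : ∀ a' a, 0 < κ a' a := fun a' a => by
    simp only [hκ]
    split_ifs
    · have : 0 < 1 - ε := by linarith
      positivity
    · positivity
  have κ1 : ∀ a', ∑ a, κ a' a = 1 := fun a' => by
    simp only [hκ, Finset.sum_add_distrib, Finset.sum_ite_eq', Finset.mem_univ, if_true,
      Finset.sum_const, Finset.card_univ, Fintype.card_fin, nsmul_eq_mul]
    field_simp
    ring
  have hE : MeasurableSet {x | P x ≠ P' x} := (measurableSet_eq_fun hP hP').compl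
  have hEk : ∀ k : ℕ, MeasurableSet (T^[k] ⁻¹' {x | P x ≠ P' x}) := fun k =>
    (hT.iterate k).measurable hE
  have hi : ∀ k : ℕ, Integrable ((T^[k] ⁻¹' {x | P x ≠ P' x}).indicator
      fun _ => Real.log (m / ε)) μ := fun k => (integrable_const _).indicator (hEk k)
  have hξ : Measurable fun x : X => fun j : Fin n => P (T^[(j : ℕ)] x) :=
    measurable_pi_lambda _ fun j => hP.comp (hT.iterate j).measurable
  refine (gibbs (q := fun y => (Fintype.card S : ℝ)⁻¹ * ∑ s, ∏ k, κ (name s k) (y k))
    (g := fun x => Real.log (Fintype.card S) + n * -Real.log (1 - ε) +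
      ∑ k : Fin n, (T^[k] ⁻¹' {x | P x ≠ P' x}).indicator (fun _ => Real.log (m / ε)) x)
    (fun y => hξ (measurableSet_singleton y))
    (fun y => mul_pos (by positivity) (Finset.sum_pos
      (fun s _ => Finset.prod_pos fun k _ => κ0 _ _) Finset.univ_nonempty)) ?_
    ((integrable_const _).add (integrable_finsetSum _ fun k _ => hi k)) fun x => ?_).trans
    (le_of_eq ?_)
  · rw [← Finset.mul_sum, Finset.sum_comm]
    have : ∀ s, ∑ y : Fin n → Fin m, ∏ k, κ (name s k) (y k) = 1 := fun s => by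
      rw [← Fintype.piFinset_univ, ← Finset.prod_univ_sum]
      simp only [κ1, Finset.prod_const_one]
    simp only [this, Finset.sum_const, Finset.card_univ, nsmul_eq_mul, mul_one]
    rw [inv_mul_cancel₀ hS.ne']
  · obtain ⟨s, hs⟩ := hname x
    have e1 := Finset.single_le_sum (f := fun s => ∏ k : Fin n, κ (name s k) (P (T^[k] x)))
      (fun s _ => (Finset.prod_pos fun k _ => κ0 _ _).le) (Finset.mem_univ s)
    have e0 : 0 < ∏ k : Fin n, κ (name s k) (P (T^[k] x)) := Finset.prod_pos fun k _ => κ0 _ _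
    have e2 := Real.log_le_log e0 e1
    rw [Real.log_prod fun k _ => (κ0 _ _).ne'] at e2
    rw [Real.log_mul (by positivity) (e0.trans_le e1).ne', Real.log_inv]
    have e3 : ∀ k : Fin n, -Real.log (κ (name s k) (P (T^[k] x))) ≤ -Real.log (1 - ε) +
        (T^[k] ⁻¹' {x | P x ≠ P' x}).indicator (fun _ => Real.log (m / ε)) x := fun k => by
      rw [hs k]
      by_cases hk : P (T^[k] x) = P' (T^[k] x)
      · rw [indicator_of_notMem (by simpa using hk), add_zero, neg_le_neg_iff]
        refine Real.log_le_log (by linarith) ?_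
        simp only [hκ, if_pos hk, le_add_iff_nonneg_right]
        positivity
      · rw [indicator_of_mem (by simpa using hk)]
        simp only [hκ, if_neg hk, zero_add]
        rw [← Real.log_inv, inv_div]
        have := Real.log_nonpos (show 0 ≤ 1 - ε by linarith) (by linarith)
        linarith
    have e4 := Finset.sum_le_sum (s := Finset.univ) fun k _ => e3 k
    rw [Finset.sum_add_distrib, Finset.sum_neg_distrib, Finset.sum_const, Finset.card_univ,
      Fintype.card_fin, nsmul_eq_mul] at e4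
    linarith
  · rw [integral_add (integrable_const _) (integrable_finsetSum _ fun (k : Fin n) _ => hi k),
      integral_finsetSum _ fun (k : Fin n) _ => hi k]
    simp only [integral_const, probReal_univ, smul_eq_mul, one_mul,
      integral_indicator_const _ (hEk _), (hT.iterate _).measureReal_preimage hE.nullMeasurableSet,
      Finset.sum_const, Finset.card_univ, Fintype.card_fin, nsmul_eq_mul]

variable {T : X → X} {c N : ℕ → ℕ} {sub : ∀ l, Fin (c (l + 1)) → ℕ → Fin (c l)}
  {wd : ∀ l, X → Fin (c l)} {pos : ℕ → X → ℕ}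

omit [IsProbabilityMeasure μ] in
theorem pos_iterate (h : IsTowerSys μ T c N sub wd pos) (l : ℕ) (x : X) (k : ℕ) :
    pos l (T^[k] x) = (pos l x + k) % len N l := by
  induction k with
  | zero => exact (Nat.mod_eq_of_lt (h.pos_lt l x)).symm
  | succ k ih => rw [Function.iterate_succ_apply', h.step_pos, ih, Nat.mod_add_mod, Nat.add_assoc]

omit [IsProbabilityMeasure μ] in
theorem wd_iterate (h : IsTowerSys μ T c N sub wd pos) (l : ℕ) (x : X) (k : ℕ) :
    wd l (T^[k] x) = wd l (T^[(pos l x + k) / len N l * len N l - pos l x] x) := by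
  induction k with
  | zero => rw [Nat.add_zero, Nat.div_eq_of_lt (h.pos_lt l x)]; simp
  | succ k ih =>
    by_cases hd : len N l ∣ pos l x + k + 1
    · rw [← Nat.add_assoc, Nat.div_mul_cancel hd, Nat.add_assoc, Nat.add_sub_cancel_left]
    · rw [← Nat.add_assoc, Nat.succ_div_of_not_dvd hd, ← ih, Function.iterate_succ_apply']
      refine h.step_wd l _ ?_
      rw [pos_iterate h]
      have h1 : (pos l x + k) % len N l < len N l :=
        Nat.mod_lt _ (lt_of_le_of_lt (Nat.zero_le _) (h.pos_lt l x))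
      by_contra h2
      apply hd
      have h3 := Nat.div_add_mod (pos l x + k) (len N l)
      exact ⟨(pos l x + k) / len N l + 1, by rw [Nat.mul_succ]; omega⟩

theorem exists_approx (h : IsTowerSys μ T c N sub wd pos) {m : ℕ} (hm : 0 < m) {P : X → Fin m}
    (hP : Measurable P) {δ : ℝ} (hδ : 0 < δ) : ∀ᶠ l in atTop,
      ∃ φ : Fin (c l) × ℕ → Fin m, μ.real {x | P x ≠ φ (wd l x, pos l x)} ≤ m * δ := by
  classical
  have h1 := eventually_all.2 fun a : Fin m =>
    h.approx (P ⁻¹' {a}) (hP (measurableSet_singleton a)) (ENNReal.ofReal δ) (by simpa using hδ)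
  filter_upwards [h1] with l hl
  choose B hB using hl
  refine ⟨fun p => if hp : ∃ a, p ∈ B a then hp.choose else ⟨0, hm⟩, ?_⟩
  calc _ ≤ μ.real (⋃ a, symmDiff (P ⁻¹' {a}) {x | (wd l x, pos l x) ∈ B a}) := by
        refine measureReal_mono fun x hx => ?_
        simp only [mem_ofPred_eq] at hx
        by_cases hp : ∃ a, (wd l x, pos l x) ∈ B a
        · rw [dif_pos hp] at hx
          exact mem_iUnion.2 ⟨hp.choose, Or.inr ⟨hp.choose_spec, hx⟩⟩
        · exact mem_iUnion.2 ⟨P x, Or.inl ⟨rfl, fun h => hp ⟨_, h⟩⟩⟩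
    _ ≤ ∑ a, μ.real (symmDiff (P ⁻¹' {a}) {x | (wd l x, pos l x) ∈ B a}) :=
        measureReal_iUnion_fintype_le _
    _ ≤ ∑ _a : Fin m, δ := Finset.sum_le_sum fun a _ =>
        ENNReal.toReal_le_of_le_ofReal hδ.le (hB a)
    _ = m * δ := by simp

end TowerEntropy

open TowerEntropy in
theorem IsTowerSys.hasZeroEntropy {X : Type*} [MeasurableSpace X] {μ : Measure X}
    [IsProbabilityMeasure μ] {T : X → X} {c N : ℕ → ℕ}
    {sub : ∀ l, Fin (c (l + 1)) → ℕ → Fin (c l)} {wd : ∀ l, X → Fin (c l)} {pos : ℕ → X → ℕ}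
    (h : IsTowerSys μ T c N sub wd pos) (hT : MeasurePreserving T μ μ)
    (hc : ∀ l, 0 < c l) (hN : ∀ l, 2 ≤ N l)
    (hrate : Tendsto (fun l => Real.log (c l) / (len N l : ℝ)) atTop (𝓝 0)) :
    HasZeroEntropy μ T := by
  intro m P hP
  obtain ⟨x₀⟩ := nonempty_of_isProbabilityMeasure μ
  have hm : 0 < m := Fin.pos (P x₀)
  have hm' : (1 : ℝ) ≤ m := by exact_mod_cast hm
  refine tendsto_order.2 ⟨fun η hη => Eventually.of_forall fun n =>
    hη.trans_le (div_nonneg (entropy_nonneg _) (Nat.cast_nonneg _)), fun η hη => ?_⟩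
  obtain ⟨ε, h0, h1, hε⟩ : ∃ ε : ℝ, 0 < ε ∧ ε < 1 ∧ -Real.log (1 - ε) = η / 4 :=
    ⟨1 - Real.exp (-(η / 4)), sub_pos.2 (Real.exp_lt_one_iff.2 (by linarith)),
      by linarith [Real.exp_pos (-(η / 4))], by simp⟩
  have hlog : 0 < Real.log (m / ε) := Real.log_pos (by rw [lt_div_iff₀ h0]; linarith)
  obtain ⟨l, ⟨φ, hφ⟩, hl⟩ := ((exists_approx h hm hP (δ := η / 4 / (m * Real.log (m / ε)))
    (by positivity)).and (hrate.eventually_lt_const (show (0 : ℝ) < η / 4 by positivity))).exists
  have hlen := len_pos hN l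
  have hlen' : (0 : ℝ) < len N l := by exact_mod_cast hlen
  have hlc : 0 ≤ Real.log (c l) := Real.log_natCast_nonneg _
  have hE : μ.real {x | P x ≠ φ (wd l x, pos l x)} * Real.log (m / ε) ≤ η / 4 := by
    refine (mul_le_mul_of_nonneg_right hφ hlog.le).trans (le_of_eq ?_)
    field_simp
  have hlim := (tendsto_const_div_atTop_nhds_zero_nat
    (Real.log (len N l) + 2 * Real.log (c l))).eventually_lt_const
    (show (0 : ℝ) < η / 4 by positivity)
  filter_upwards [hlim, eventually_gt_atTop 0] with n hn hn0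
  have hn' : (0 : ℝ) < n := by exact_mod_cast hn0
  have : Nonempty (Fin (len N l) × (Fin (n / len N l + 2) → Fin (c l))) :=
    ⟨⟨0, hlen⟩, fun _ => ⟨0, hc l⟩⟩
  have hlt : ∀ (p : Fin (len N l)) (k : Fin n), ((p : ℕ) + k) / len N l < n / len N l + 2 :=
    fun p k => by
      have h2 : ((p : ℕ) + k) / len N l ≤ (n + len N l) / len N l :=
        Nat.div_le_div_right (by omega)
      rw [Nat.add_div_right _ hlen] at h2
      omega
  have key := names_le hT hm hP (P' := fun x => φ (wd l x, pos l x))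
    ((measurable_of_countable φ).comp ((h.meas_wd l).prodMk (h.meas_pos l))) n
    (S := Fin (len N l) × (Fin (n / len N l + 2) → Fin (c l)))
    (fun s k => φ (s.2 ⟨_, hlt s.1 k⟩, ((s.1 : ℕ) + k) % len N l))
    (fun x => ⟨(⟨pos l x, h.pos_lt l x⟩, fun j => wd l (T^[j * len N l - pos l x] x)), fun k => by
      simp only [pos_iterate h]
      rw [wd_iterate h l x k]⟩) h0 h1
  have hcard : Real.log (Fintype.card (Fin (len N l) × (Fin (n / len N l + 2) → Fin (c l)))) ≤
      Real.log (len N l) + 2 * Real.log (c l) + n * (Real.log (c l) / len N l) := by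
    have hc' : (0 : ℝ) < c l := by exact_mod_cast hc l
    simp only [Fintype.card_prod, Fintype.card_fun, Fintype.card_fin]
    push_cast
    rw [Real.log_mul hlen'.ne' (by positivity), Real.log_pow]
    have h2 : ((n / len N l : ℕ) : ℝ) ≤ n / len N l := Nat.cast_div_le
    have h3 := mul_le_mul_of_nonneg_right h2 hlc
    have h4 : (n : ℝ) / len N l * Real.log (c l) = n * (Real.log (c l) / len N l) := by ring
    push_cast
    linarith
  rw [div_lt_iff₀ hn'] at hn ⊢
  rw [hε] at key
  have e1 := mul_le_mul_of_nonneg_left hE hn'.le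
  have e2 := mul_le_mul_of_nonneg_left hl.le hn'.le
  linarith

end Crest.Agent.R133
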