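import Crest.Agent.R133.Defs

/-! Row 133: ergodicity of the tower system. -/

set_option autoImplicit false

open MeasureTheory Set Metric Filter Crest.AnalysisR
open scoped ENNReal Topology

namespace Crest.Agent.R133

namespace Erg

theorem sum_real_fiber {X β : Type*} [MeasurableSpace X] (μ : Measure X) [IsFiniteMeasure μ]
    (D : Set X) (s : Finset β) {f : X → β} (hf : ∀ y, MeasurableSet (f ⁻¹' {y})) :
    ∑ b ∈ s, μ.real (f ⁻¹' {b} ∩ D) = μ.real (f ⁻¹' s ∩ D) := by
  have h := sum_measureReal_preimage_singleton (μ := μ.restrict D) s (f := f) (fun y _ => hf y)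
  have hs : MeasurableSet (f ⁻¹' (s : Set β)) := by
    have : f ⁻¹' (s : Set β) = ⋃ b ∈ s, f ⁻¹' {b} := by
      ext x; simp
    rw [this]
    exact Finset.measurableSet_biUnion s fun b _ => hf b
  rw [measureReal_restrict_apply hs] at h
  rw [← h]
  exact Finset.sum_congr rfl fun b _ => (measureReal_restrict_apply (hf b)).symm

theorem balanced_card {α β : Type*} [Fintype α] [Fintype β] [DecidableEq β] {f : α → β}
    (hf : Balanced f) (s : Finset β) :
    (Finset.univ.filter fun x => f x ∈ s).card * Fintype.card β = s.card * Fintype.card α := by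
  rw [← Finset.sum_card_fiberwise_eq_card_filter, Finset.sum_mul,
    Finset.sum_congr rfl fun y _ => hf y]
  simp

variable {X : Type*} [MeasurableSpace X] {μ : Measure X} {T : X → X} {c N : ℕ → ℕ}
  {sub : ∀ l, Fin (c (l + 1)) → ℕ → Fin (c l)} {wd : ∀ l, X → Fin (c l)} {pos : ℕ → X → ℕ}

theorem real_cells [IsFiniteMeasure μ] (h : IsTowerSys μ T c N sub wd pos) (l : ℕ)
    (W : Finset (Fin (c l))) {k : ℕ} (hk : k < len N l) :
    μ.real (wd l ⁻¹' W ∩ pos l ⁻¹' {k}) = W.card / ((c l : ℝ) * len N l) := by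
  rw [← sum_real_fiber μ _ W (fun y => h.meas_wd l (measurableSet_singleton y))]
  have : ∀ w ∈ W, μ.real (wd l ⁻¹' {w} ∩ pos l ⁻¹' {k}) = ((c l : ℝ) * len N l)⁻¹ := by
    intro w _
    have h1 := h.law l w k hk
    have h2 : (wd l ⁻¹' {w} ∩ pos l ⁻¹' {k}) = {x | wd l x = w ∧ pos l x = k} := rfl
    rw [h2, measureReal_def, h1, ENNReal.toReal_inv, ENNReal.toReal_natCast]
    push_cast; rfl
  rw [Finset.sum_congr rfl this, Finset.sum_const, nsmul_eq_mul, div_eq_mul_inv]

theorem iter (h : IsTowerSys μ T c N sub wd pos) (l : ℕ) (x : X) (m : ℕ)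
    (hm : pos l x + m < len N l) :
    wd l (T^[m] x) = wd l x ∧ pos l (T^[m] x) = pos l x + m := by
  induction m with
  | zero => simp
  | succ m ih =>
    obtain ⟨h1, h2⟩ := ih (by omega)
    rw [Function.iterate_succ_apply']
    refine ⟨?_, ?_⟩
    · rw [h.step_wd l _ (by omega), h1]
    · rw [h.step_pos, h2, Nat.mod_eq_of_lt (by omega)]; omega

theorem real_inv_level [IsFiniteMeasure μ] (h : IsTowerSys μ T c N sub wd pos)
    (hT : MeasurePreserving T μ μ) {A : Set X} (hA : MeasurableSet A) (hinv : T ⁻¹' A = A)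
    (l : ℕ) {k : ℕ} (hk : k < len N l) :
    μ.real (pos l ⁻¹' {k} ∩ A) = μ.real A / len N l := by
  have h0 : ∀ k, k < len N l → μ.real (pos l ⁻¹' {k} ∩ A) = μ.real (pos l ⁻¹' {0} ∩ A) := by
    intro k
    induction k with
    | zero => intro _; rfl
    | succ k ih =>
      intro hk
      rw [← ih (by omega)]
      have hm : MeasurableSet (pos l ⁻¹' {k + 1} ∩ A) :=
        (h.meas_pos l (measurableSet_singleton _)).inter hA
      rw [← hT.measureReal_preimage hm.nullMeasurableSet, preimage_inter, hinv]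
      congr 2
      ext x
      simp only [mem_preimage, mem_singleton_iff, h.step_pos]
      have hx := h.pos_lt l x
      constructor
      · intro he
        by_cases h1 : pos l x + 1 < len N l
        · rw [Nat.mod_eq_of_lt h1] at he; omega
        · have h2 : pos l x + 1 = len N l := by omega
          rw [h2, Nat.mod_self] at he; omega
      · intro he
        rw [he, Nat.mod_eq_of_lt hk]
  have h1 := sum_real_fiber μ A (Finset.range (len N l)) (f := pos l)
    (fun y => h.meas_pos l (measurableSet_singleton y))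
  have h2 : pos l ⁻¹' (Finset.range (len N l) : Set ℕ) ∩ A = A := by
    ext x; simp [h.pos_lt]
  rw [h2, Finset.sum_congr rfl fun k hk => h0 k (Finset.mem_range.1 hk), Finset.sum_const,
    Finset.card_range, nsmul_eq_mul] at h1
  have hn : (0 : ℝ) < len N l := by exact_mod_cast (by omega : 0 < len N l)
  rw [h0 k hk, ← h1]
  field_simp

theorem key [IsProbabilityMeasure μ] (h : IsTowerSys μ T c N sub wd pos)
    (hT : MeasurePreserving T μ μ) (hc : ∀ l, 0 < c l) (hN : ∀ l, 2 ≤ N l)
    (hpair : ∀ l, ∃ r, 2 * r ≤ N l ∧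
      ∀ t, t + r < N l → Balanced fun w => (sub l w t, sub l w (t + r)))
    {A : Set X} (hA : MeasurableSet A) (hinv : T ⁻¹' A = A) (l : ℕ) (B : Set (Fin (c l) × ℕ)) :
    μ.real A * (1 - μ.real A) ≤ 5 * μ.real (symmDiff A {x | (wd l x, pos l x) ∈ B}) := by
  classical
  set n := len N l with hn
  set A' : Set X := {x | (wd l x, pos l x) ∈ B} with hA'def
  set e := μ.real (symmDiff A A') with he
  set a := μ.real A with ha
  have hn0 : 0 < n := len_pos hN l
  have hnR : (0 : ℝ) < n := by exact_mod_cast hn0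
  have hcR : (0 : ℝ) < c l := by exact_mod_cast hc l
  have hcR' : (0 : ℝ) < c (l + 1) := by exact_mod_cast hc (l + 1)
  have hNR : (0 : ℝ) < N l := by exact_mod_cast (by have := hN l; omega : 0 < N l)
  have hA' : MeasurableSet A' :=
    ((h.meas_wd l).prodMk (h.meas_pos l)) (MeasurableSet.of_discrete (s := B))
  let W : ℕ → Finset (Fin (c l)) := fun k => Finset.univ.filter fun w => (w, k) ∈ B
  let β : ℕ → ℝ := fun k => (W k).card / c l
  have hβ0 : ∀ k, 0 ≤ β k := fun k => by positivity
  have hβ1 : ∀ k, β k ≤ 1 := fun k => by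
    have : (W k).card ≤ c l := by simpa using Finset.card_le_univ (W k)
    rw [div_le_one hcR]; exact_mod_cast this
  have ha0 : 0 ≤ a := measureReal_nonneg
  have ha1 : a ≤ 1 := measureReal_le_one
  -- step (1)
  have h2 : ∀ k, k < n → μ.real (pos l ⁻¹' {k} ∩ A') = β k / n := by
    intro k hk
    have : pos l ⁻¹' {k} ∩ A' = wd l ⁻¹' (W k) ∩ pos l ⁻¹' {k} := by
      ext x
      simp only [hA'def, W, mem_inter_iff, mem_preimage, mem_singleton_iff, mem_ofPred_eq,
        Finset.coe_filter, Finset.mem_univ, true_and]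
      constructor
      · rintro ⟨rfl, h2⟩; exact ⟨h2, rfl⟩
      · rintro ⟨h2, rfl⟩; exact ⟨rfl, h2⟩
    rw [this, real_cells h l _ hk, div_div]
  have h4 : ∑ k ∈ Finset.range n, |a - β k| / n ≤ e := by
    calc ∑ k ∈ Finset.range n, |a - β k| / n
        ≤ ∑ k ∈ Finset.range n, μ.real (pos l ⁻¹' {k} ∩ symmDiff A A') := by
          refine Finset.sum_le_sum fun k hk => ?_
          have hk := Finset.mem_range.1 hk
          have hm : MeasurableSet (pos l ⁻¹' {k}) := h.meas_pos l (measurableSet_singleton _)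
          have := abs_measureReal_sub_le_measureReal_symmDiff (μ := μ)
            (hm.inter hA).nullMeasurableSet (hm.inter hA').nullMeasurableSet
          rw [real_inv_level h hT hA hinv l hk, h2 k hk, ← inter_symmDiff_distrib_left,
            ← sub_div, abs_div, abs_of_pos hnR] at this
          exact this
      _ = _ := sum_real_fiber μ _ _ (fun y => h.meas_pos l (measurableSet_singleton y))
      _ ≤ e := measureReal_mono inter_subset_right
  -- step (2)
  obtain ⟨r, hr, hbal⟩ := hpair l
  set D : Set X := A' ∩ T^[r * n] ⁻¹' A'ᶜ with hD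
  have hDe : μ.real D ≤ 2 * e := by
    have hinv' : T^[r * n] ⁻¹' A = A := Function.IsFixedPt.preimage_iterate hinv _
    have hsub : D ⊆ symmDiff A A' ∪ T^[r * n] ⁻¹' symmDiff A A' := by
      rintro x ⟨hx1, hx2⟩
      by_cases hx : x ∈ A
      · right
        have : T^[r * n] x ∈ A := by rw [← hinv'] at hx; exact hx
        exact Or.inl ⟨this, hx2⟩
      · left; exact Or.inr ⟨hx1, hx⟩
    calc μ.real D ≤ _ := measureReal_mono hsub
      _ ≤ _ := measureReal_union_le _ _
      _ = 2 * e := by
        rw [(hT.iterate (r * n)).measureReal_preimage (hA.symmDiff hA').nullMeasurableSet]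
        ring
  let g : X → ℕ × ℕ := fun x => (pos (l + 1) x / n, pos (l + 1) x % n)
  have hg : Measurable g :=
    (Measurable.of_discrete (f := fun p : ℕ => (p / n, p % n))).comp (h.meas_pos (l + 1))
  have h5 : ∀ t k, t + r < N l → k < n →
      β k * (1 - β k) / (N l * n) ≤ μ.real (g ⁻¹' {(t, k)} ∩ D) := by
    intro t k ht hk
    let V : Finset (Fin (c (l + 1))) :=
      Finset.univ.filter fun w => (sub l w t, sub l w (t + r)) ∈ W k ×ˢ (W k)ᶜ
    have hV := balanced_card (hbal t ht) (W k ×ˢ (W k)ᶜ)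
    have hlen : len N (l + 1) = N l * n := rfl
    have hlt : (t + r) * n + k < N l * n := by
      calc (t + r) * n + k < (t + r + 1) * n := by nlinarith
        _ ≤ N l * n := Nat.mul_le_mul_right _ ht
    have hp : t * n + k < len N (l + 1) := by rw [hlen]; nlinarith [Nat.zero_le (r * n)]
    have hμ := real_cells h (l + 1) V hp
    have hsub : wd (l + 1) ⁻¹' V ∩ pos (l + 1) ⁻¹' {t * n + k} ⊆ g ⁻¹' {(t, k)} ∩ D := by
      rintro x ⟨hx1, hx2⟩
      have hx2 : pos (l + 1) x = t * n + k := hx2
      have hx1 : sub l (wd (l + 1) x) t ∈ W k ∧ sub l (wd (l + 1) x) (t + r) ∉ W k := by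
        simpa [V] using hx1
      have hdiv : ∀ s, (s * n + k) / n = s := fun s => by
        rw [add_comm, Nat.add_mul_div_right _ _ hn0, Nat.div_eq_of_lt hk, zero_add]
      have hmod : ∀ s, (s * n + k) % n = k := fun s => by
        rw [add_comm, Nat.add_mul_mod_self_right, Nat.mod_eq_of_lt hk]
      obtain ⟨hi1, hi2⟩ := iter h (l + 1) x (r * n) (by rw [hx2, hlen]; nlinarith)
      have hi2 : pos (l + 1) (T^[r * n] x) = (t + r) * n + k := by rw [hi2, hx2]; ring
      refine ⟨?_, ?_, ?_⟩
      · show (pos (l + 1) x / n, pos (l + 1) x % n) = (t, k)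
        rw [hx2, hdiv, hmod]
      · show (wd l x, pos l x) ∈ B
        rw [h.compat_wd l, h.compat_pos l, ← hn, hx2, hdiv, hmod]
        simpa [W] using hx1.1
      · show (wd l (T^[r * n] x), pos l (T^[r * n] x)) ∉ B
        rw [h.compat_wd l, h.compat_pos l, ← hn, hi1, hi2, hdiv, hmod]
        simpa [W] using hx1.2
    refine le_trans (le_of_eq ?_) (measureReal_mono hsub)
    rw [hμ, hlen]
    have hW : (W k).card ≤ c l := by simpa using Finset.card_le_univ (W k)
    have hV' : (V.card : ℝ) * (c l * c l) = (W k).card * (c l - (W k).card) * c (l + 1) := by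
      rw [Finset.card_product, Finset.card_compl, Fintype.card_prod] at hV
      simp only [Fintype.card_fin] at hV
      rw [← Nat.cast_sub hW]
      exact_mod_cast hV
    have : (V.card : ℝ) = β k * (1 - β k) * c (l + 1) := by
      simp only [β]
      field_simp
      linarith
    rw [this]
    push_cast
    field_simp
  have h6 : ∑ k ∈ Finset.range n, β k * (1 - β k) / n ≤ 4 * e := by
    have hs := sum_real_fiber μ D (Finset.range (N l - r) ×ˢ Finset.range n) (f := g)
      (fun y => hg (measurableSet_singleton y))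
    have hle : ∑ p ∈ Finset.range (N l - r) ×ˢ Finset.range n, β p.2 * (1 - β p.2) / (N l * n)
        ≤ 2 * e := by
      refine le_trans (Finset.sum_le_sum fun p hp => ?_)
        (hs.le.trans ((measureReal_mono inter_subset_right).trans hDe))
      rw [Finset.mem_product, Finset.mem_range, Finset.mem_range] at hp
      exact h5 p.1 p.2 (by omega) hp.2
    rw [Finset.sum_product] at hle
    simp only [Finset.sum_const, Finset.card_range, nsmul_eq_mul] at hle
    have hS0 : 0 ≤ ∑ k ∈ Finset.range n, β k * (1 - β k) / n :=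
      Finset.sum_nonneg fun k _ => div_nonneg (mul_nonneg (hβ0 k) (sub_nonneg.2 (hβ1 k))) hnR.le
    have hS : ∑ k ∈ Finset.range n, β k * (1 - β k) / (N l * n)
        = (∑ k ∈ Finset.range n, β k * (1 - β k) / n) / N l := by
      rw [Finset.sum_div]
      exact Finset.sum_congr rfl fun k _ => by rw [div_div, mul_comm (n : ℝ)]
    rw [hS, ← mul_div_assoc, div_le_iff₀ hNR] at hle
    have hr' : (N l : ℝ) ≤ 2 * ((N l - r : ℕ) : ℝ) := by exact_mod_cast (by omega : N l ≤ 2 * (N l - r))
    have : (∑ k ∈ Finset.range n, β k * (1 - β k) / n) * N l ≤ 4 * e * N l := by nlinarith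
    exact le_of_mul_le_mul_right this hNR
  calc a * (1 - a) = ∑ _k ∈ Finset.range n, a * (1 - a) / n := by
        rw [Finset.sum_const, Finset.card_range, nsmul_eq_mul]; field_simp
    _ ≤ ∑ k ∈ Finset.range n, (β k * (1 - β k) / n + |a - β k| / n) := by
        refine Finset.sum_le_sum fun k _ => ?_
        rw [← add_div]
        refine div_le_div_of_nonneg_right ?_ hnR.le
        have := hβ0 k
        have := hβ1 k
        rcases abs_cases (a - β k) with ⟨h1, h2⟩ | ⟨h1, h2⟩ <;> rw [h1] <;> nlinarith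
    _ ≤ 4 * e + e := by rw [Finset.sum_add_distrib]; exact add_le_add h6 h4
    _ = 5 * e := by ring

end Erg

theorem IsTowerSys.ergodic {X : Type*} [MeasurableSpace X] {μ : Measure X}
    [IsProbabilityMeasure μ] {T : X → X} {c N : ℕ → ℕ}
    {sub : ∀ l, Fin (c (l + 1)) → ℕ → Fin (c l)} {wd : ∀ l, X → Fin (c l)} {pos : ℕ → X → ℕ}
    (h : IsTowerSys μ T c N sub wd pos) (hT : MeasurePreserving T μ μ)
    (hc : ∀ l, 0 < c l) (hN : ∀ l, 2 ≤ N l)
    (hpair : ∀ l, ∃ r, 2 * r ≤ N l ∧
      ∀ t, t + r < N l → Balanced fun w => (sub l w t, sub l w (t + r))) :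
    Ergodic T μ := by
  refine ⟨hT, ⟨fun A hA hinv => ?_⟩⟩
  have h0 : μ.real A * (1 - μ.real A) ≤ 0 := by
    refine le_of_forall_pos_le_add fun ε hε => ?_
    obtain ⟨l, B, hB⟩ := (h.approx A hA (ENNReal.ofReal (ε / 5)) (by simpa using hε)).exists
    have h1 := Erg.key h hT hc hN hpair hA hinv l B
    have h2 : μ.real (symmDiff A {x | (wd l x, pos l x) ∈ B}) ≤ ε / 5 :=
      ENNReal.toReal_le_of_le_ofReal (by positivity) hB
    linarith
  have ha0 : 0 ≤ μ.real A := measureReal_nonneg
  have ha1 : μ.real A ≤ 1 := measureReal_le_one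
  have h1 : μ.real A * (1 - μ.real A) = 0 :=
    le_antisymm h0 (mul_nonneg ha0 (sub_nonneg.2 ha1))
  rw [eventuallyConst_set']
  rcases mul_eq_zero.1 h1 with h2 | h2
  · left
    rw [ae_eq_empty]
    exact (measureReal_eq_zero_iff).1 h2
  · right
    rw [ae_eq_univ, ← measureReal_eq_zero_iff, probReal_compl_eq_one_sub hA]
    exact h2

end Crest.Agent.R133
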