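import Crest.Agent.R133.TowerExistsAux

/-! Row 133: construction of the adic (cutting and stacking) system. -/

set_option autoImplicit false

open MeasureTheory Set Metric Filter Crest.AnalysisR
open scoped ENNReal Topology

namespace Crest.Agent.R133

namespace Adic

theorem exists_equiv_of_balanced {α β : Type} [Fintype α] [Fintype β] [DecidableEq β] {f : α → β}
    (hf : Balanced f) (hβ : 0 < Fintype.card β) :
    ∃ e : α ≃ β × Fin (Fintype.card α / Fintype.card β), ∀ x, (e x).1 = f x := by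
  have hcard : ∀ y, Fintype.card {x // f x = y} = Fintype.card α / Fintype.card β := fun y => by
    rw [Fintype.card_subtype, ← hf y, Nat.mul_div_cancel _ hβ]
  exact ⟨(Equiv.sigmaFiberEquiv f).symm.trans ((Equiv.sigmaCongrRight fun y =>
    Fintype.equivFinOfCardEq (hcard y)).trans (Equiv.sigmaEquivProd _ _)), fun x => rfl⟩

theorem val_finRotate {n : ℕ} (i : Fin n) : (finRotate n i : ℕ) = (i + 1) % n := by
  cases n with
  | zero => exact i.elim0
  | succ n =>
    rw [coe_finRotate]
    split_ifs with h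
    · simp [h]
    · have := Fin.val_lt_last h
      rw [Nat.mod_eq_of_lt (by omega)]

variable (c N v : ℕ → ℕ)

/-- the levels -/
abbrev YY (l : ℕ) : Type := Fin (c l) × Fin (len N l)
/-- the digits -/
abbrev DD (l : ℕ) : Type := Fin (N l) × Fin (v l)

variable {c N v}

/-- stacking -/
def th (e : ∀ l, Fin (N l) → (Fin (c (l + 1)) ≃ Fin (c l) × Fin (v l))) (l : ℕ) :
    YY c N l × DD N v l ≃ YY c N (l + 1) where
  toFun p := ((e l p.2.1).symm (p.1.1, p.2.2), finProdFinEquiv (p.2.1, p.1.2))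
  invFun z :=
    (((e l (finProdFinEquiv.symm z.2).1 z.1).1, (finProdFinEquiv.symm z.2).2),
      ((finProdFinEquiv.symm z.2).1, (e l (finProdFinEquiv.symm z.2).1 z.1).2))
  left_inv p := by
    simp only [Equiv.symm_apply_apply, Equiv.apply_symm_apply]
  right_inv z := by
    simp only [Prod.mk.eta, Equiv.symm_apply_apply]
    exact Prod.ext rfl (finProdFinEquiv.apply_symm_apply z.2)

variable (e : ∀ l, Fin (N l) → (Fin (c (l + 1)) ≃ Fin (c l) × Fin (v l)))

theorem th_fst (l : ℕ) (a : YY c N l) (b : DD N v l) :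
    (th e l (a, b)).1 = (e l b.1).symm (a.1, b.2) := rfl

theorem th_snd (l : ℕ) (a : YY c N l) (b : DD N v l) :
    ((th e l (a, b)).2 : ℕ) = a.2 + len N l * b.1 := rfl

variable (c N) in
/-- the successor on a level -/
def sc (l : ℕ) : YY c N l ≃ YY c N l := Equiv.prodCongr (Equiv.refl _) (finRotate _)

theorem sc_fst (l : ℕ) (a : YY c N l) : (sc c N l a).1 = a.1 := rfl

theorem sc_snd (l : ℕ) (a : YY c N l) : ((sc c N l a).2 : ℕ) = (a.2 + 1) % len N l :=
  val_finRotate _

variable (c N) in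
/-- not on the top -/
def up (l : ℕ) : Set (YY c N l) := {a | (a.2 : ℕ) + 1 < len N l}

variable (c N) in
/-- not on the bottom -/
def dn (l : ℕ) : Set (YY c N l) := {a | 0 < (a.2 : ℕ)}

theorem sc_mem_dn {l : ℕ} {a : YY c N l} : sc c N l a ∈ dn c N l ↔ a ∈ up c N l := by
  have := a.2.2
  simp only [dn, up, mem_ofPred_eq, sc_snd]
  constructor
  · intro h
    by_contra h'
    have : (a.2 : ℕ) + 1 = len N l := by omega
    rw [this, Nat.mod_self] at h
    exact lt_irrefl _ h
  · intro h
    rw [Nat.mod_eq_of_lt h]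
    omega

theorem compat_up : Compat (th e) (fun l => sc c N l) (up c N) := by
  intro l a ha b
  have ha' : (a.2 : ℕ) + 1 < len N l := ha
  have h1 : ((th e l (a, b)).2 : ℕ) + 1 < len N (l + 1) := by
    rw [th_snd, len_succ]
    have hb : (b.1 : ℕ) + 1 ≤ N l := b.1.2
    have := Nat.mul_le_mul_right (len N l) hb
    nlinarith
  refine ⟨h1, Prod.ext rfl (Fin.ext ?_)⟩
  rw [sc_snd, Nat.mod_eq_of_lt h1, th_snd, th_snd, sc_snd, Nat.mod_eq_of_lt ha']
  ring

theorem compat_dn : Compat (th e) (fun l => (sc c N l).symm) (dn c N) := by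
  intro l a ha b
  obtain ⟨a', rfl⟩ := (sc c N l).surjective a
  obtain ⟨h1, h2⟩ := compat_up e l a' (sc_mem_dn.1 ha) b
  simp only at h2
  rw [← h2]
  exact ⟨sc_mem_dn.2 h1, by simp⟩

/-- replace all the first components of the digits -/
def setD (t : ∀ l, Fin (N l)) (x : YY c N 0 × ∀ l, DD N v l) : YY c N 0 × ∀ l, DD N v l :=
  (x.1, fun l => (t l, (x.2 l).2))

theorem measurable_setD (t : ∀ l, Fin (N l)) : Measurable (setD (c := c) (v := v) t) :=
  measurable_fst.prodMk (measurable_pi_lambda _ fun l =>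
    measurable_const.prodMk (measurable_snd.comp ((measurable_pi_apply l).comp measurable_snd)))

theorem setD_setD {t t' : ∀ l, Fin (N l)} {x : YY c N 0 × ∀ l, DD N v l}
    (h : ∀ l, (x.2 l).1 = t l) : setD t (setD t' x) = x :=
  Prod.ext rfl (funext fun l => Prod.ext (h l).symm rfl)

theorem pos_succ (l : ℕ) (x : YY c N 0 × ∀ l, DD N v l) :
    ((yy (th e) (l + 1) x).2 : ℕ) = (yy (th e) l x).2 + len N l * (x.2 l).1 := rfl

theorem notMem_dn_iff (hN : ∀ l, 2 ≤ N l) (x : YY c N 0 × ∀ l, DD N v l) :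
    (∀ l, yy (th e) l x ∉ dn c N l) ↔ ∀ l, ((x.2 l).1 : ℕ) = 0 := by
  simp only [dn, mem_ofPred_eq, not_lt, Nat.le_zero]
  constructor
  · intro h l
    have h1 := h (l + 1)
    rw [pos_succ, h l, zero_add] at h1
    exact (Nat.mul_eq_zero.1 h1).resolve_left (len_pos hN l).ne'
  · intro h l
    induction l with
    | zero => exact Nat.lt_one_iff.1 (yy (th e) 0 x).2.2
    | succ l ih => rw [pos_succ, ih, h l]; rfl

theorem notMem_up_iff (hN : ∀ l, 2 ≤ N l) (x : YY c N 0 × ∀ l, DD N v l) :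
    (∀ l, yy (th e) l x ∉ up c N l) ↔ ∀ l, ((x.2 l).1 : ℕ) + 1 = N l := by
  have h0 : ∀ l, yy (th e) l x ∉ up c N l ↔ ((yy (th e) l x).2 : ℕ) + 1 = len N l := fun l => by
    have := (yy (th e) l x).2.2
    simp only [up, mem_ofPred_eq, not_lt]
    omega
  simp only [h0]
  constructor
  · intro h l
    have h1 := h (l + 1)
    have h2 := h l
    rw [pos_succ, len_succ] at h1
    refine Nat.eq_of_mul_eq_mul_right (len_pos hN l) ?_
    rw [← h1]
    nlinarith
  · intro h l
    induction l with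
    | zero =>
      have := Nat.lt_one_iff.1 (yy (th e) 0 x).2.2
      rw [this]
      rfl
    | succ l ih =>
      have h1 := h l
      rw [pos_succ, len_succ]
      calc _ = (((yy (th e) l x).2 : ℕ) + 1) + len N l * (x.2 l).1 := by ring
        _ = (((x.2 l).1 : ℕ) + 1) * len N l := by rw [ih]; ring
        _ = _ := by rw [h1]

/-- the lowest digits -/
def bot' (hN : ∀ l, 2 ≤ N l) (l : ℕ) : Fin (N l) := ⟨0, by have := hN l; omega⟩
/-- the highest digits -/
def top' (hN : ∀ l, 2 ≤ N l) (l : ℕ) : Fin (N l) := ⟨N l - 1, by have := hN l; omega⟩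

/-- the adic transformation -/
noncomputable def adic (hN : ∀ l, 2 ≤ N l) :
    (YY c N 0 × ∀ l, DD N v l) ≃ᵐ (YY c N 0 × ∀ l, DD N v l) where
  toFun := glue (th e) (fun l => sc c N l) (up c N) (setD (bot' hN))
  invFun := glue (th e) (fun l => (sc c N l).symm) (dn c N) (setD (top' hN))
  left_inv x := by
    by_cases h : ∃ l, yy (th e) l x ∈ up c N l
    · obtain ⟨l, hl⟩ := h
      rw [(compat_up e).glue_eq hl, (compat_dn e).glue_eq (L := l)
        (by rw [yy_lift]; exact sc_mem_dn.2 hl)]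
      exact lift_lift _ _ (by simp)
    · rw [glue_eq_sp (not_exists.1 h), glue_eq_sp ((notMem_dn_iff e hN _).2 fun l => rfl)]
      refine setD_setD fun l => Fin.ext ?_
      have := (notMem_up_iff e hN x).1 (not_exists.1 h) l
      simp only [top']
      omega
  right_inv x := by
    by_cases h : ∃ l, yy (th e) l x ∈ dn c N l
    · obtain ⟨l, hl⟩ := h
      rw [(compat_dn e).glue_eq hl, (compat_up e).glue_eq (L := l)
        (by rw [yy_lift]; exact sc_mem_dn.1 (by simpa using hl))]
      exact lift_lift _ _ (by simp)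
    · rw [glue_eq_sp (not_exists.1 h), glue_eq_sp ((notMem_up_iff e hN _).2 fun l => by
        have := hN l
        simp only [setD, top']
        omega)]
      exact setD_setD fun l => Fin.ext ((notMem_dn_iff e hN x).1 (not_exists.1 h) l)
  measurable_toFun := (compat_up e).measurable_glue (measurable_setD _)
  measurable_invFun := (compat_dn e).measurable_glue (measurable_setD _)

theorem yy_adic (hN : ∀ l, 2 ≤ N l) {l : ℕ} {x : YY c N 0 × ∀ l, DD N v l}
    (h : yy (th e) l x ∈ up c N l) : yy (th e) l (adic e hN x) = sc c N l (yy (th e) l x) := by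
  change yy (th e) l (glue (th e) (fun l => sc c N l) (up c N) (setD (bot' hN)) x) = _
  rw [(compat_up e).glue_eq h, yy_lift]

theorem len_dvd {l L : ℕ} (h : l ≤ L) : len N l ∣ len N L := by
  induction L, h using Nat.le_induction with
  | base => exact dvd_rfl
  | succ K _ ih => exact ih.mul_left _

theorem pos_mod_succ (l : ℕ) (x : YY c N 0 × ∀ l, DD N v l) :
    ((yy (th e) l x).2 : ℕ) = (yy (th e) (l + 1) x).2 % len N l := by
  rw [pos_succ, Nat.add_mul_mod_self_left, Nat.mod_eq_of_lt (yy (th e) l x).2.2]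

theorem pos_mod {l L : ℕ} (h : l ≤ L) (x : YY c N 0 × ∀ l, DD N v l) :
    ((yy (th e) l x).2 : ℕ) = (yy (th e) L x).2 % len N l := by
  induction L, h using Nat.le_induction with
  | base => exact (Nat.mod_eq_of_lt (yy (th e) l x).2.2).symm
  | succ K hK ih => rw [ih, pos_mod_succ, Nat.mod_mod_of_dvd _ (len_dvd hK)]

theorem pos_adic (hN : ∀ l, 2 ≤ N l) (l : ℕ) (x : YY c N 0 × ∀ l, DD N v l) :
    ((yy (th e) l (adic e hN x)).2 : ℕ) = ((yy (th e) l x).2 + 1) % len N l := by
  by_cases h : ∃ L, yy (th e) L x ∈ up c N L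
  · obtain ⟨L, hL⟩ := h
    have h1 := ((compat_up e).le (le_max_left L l) hL).1
    have hl := le_max_right L l
    rw [pos_mod e hl, pos_mod e hl x, yy_adic e hN h1, sc_snd, Nat.mod_mod_of_dvd _ (len_dvd hl),
      Nat.mod_add_mod]
  · have h1 : adic e hN x = setD (bot' hN) x := by
      change glue (th e) (fun l => sc c N l) (up c N) (setD (bot' hN)) x = _
      exact glue_eq_sp (not_exists.1 h)
    have h2 := (notMem_dn_iff e hN (setD (bot' hN) x)).2 (fun l => rfl) l
    have h3 := not_exists.1 h l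
    have h4 := (yy (th e) l x).2.2
    simp only [dn, up, mem_ofPred_eq, not_lt, Nat.le_zero] at h2 h3
    have h5 : ((yy (th e) l x).2 : ℕ) + 1 = len N l := by omega
    rw [h1, h2, h5, Nat.mod_self]

theorem tendsto_inv_len (hN : ∀ l, 2 ≤ N l) :
    Tendsto (fun l => ((len N l : ℕ) : ℝ≥0∞)⁻¹) atTop (𝓝 0) := by
  refine ENNReal.tendsto_inv_nat_nhds_zero.comp ?_
  exact tendsto_atTop_mono (two_pow_le_len hN) (tendsto_pow_atTop_atTop_of_one_lt one_lt_two)

end Adic

open Adic in
theorem exists_towerSys (c N : ℕ → ℕ) (sub : ∀ l, Fin (c (l + 1)) → ℕ → Fin (c l))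
    (hc : ∀ l, 0 < c l) (hN : ∀ l, 2 ≤ N l)
    (hbal : ∀ l, ∀ t < N l, Balanced fun w => sub l w t) :
    ∃ (X : Type) (_ : MeasurableSpace X) (_ : StandardBorelSpace X) (μ : Measure X)
      (T : X ≃ᵐ X) (wd : ∀ l, X → Fin (c l)) (pos : ℕ → X → ℕ),
      IsProbabilityMeasure μ ∧ NullSingletonClass μ ∧ MeasurePreserving T μ μ ∧
        IsTowerSys μ T c N sub wd pos := by
  choose e he using fun (l : ℕ) (t : Fin (N l)) =>
    exists_equiv_of_balanced (hbal l t t.2) (by simpa using hc l)
  set v : ℕ → ℕ := fun l => Fintype.card (Fin (c (l + 1))) / Fintype.card (Fin (c l)) with hv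
  have : Nonempty (YY c N 0) := ⟨(⟨0, hc 0⟩, ⟨0, Nat.one_pos⟩)⟩
  have : ∀ l, Nonempty (DD N v l) := fun l =>
    ⟨(bot' hN l, (e l (bot' hN l) ⟨0, hc _⟩).2)⟩
  have hlaw : ∀ l z, mu (YY c N) (DD N v) (yy (th e) l ⁻¹' {z}) =
      ((c l * len N l : ℕ) : ℝ≥0∞)⁻¹ := fun l z => by
    rw [mu_yy]
    simp
  have hlev : ∀ l (k : Fin (len N l)), mu (YY c N) (DD N v) (yy (th e) l ⁻¹' {a | a.2 = k}) ≤
      ((len N l : ℕ) : ℝ≥0∞)⁻¹ := fun l k => by
    have h1 : yy (th e) l ⁻¹' {a | a.2 = k} = ⋃ w : Fin (c l), yy (th e) l ⁻¹' {(w, k)} := by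
      ext x
      simp [Prod.ext_iff]
    rw [h1]
    refine (measure_iUnion_fintype_le _ _).trans (le_of_eq ?_)
    simp only [hlaw, Finset.sum_const, Finset.card_univ, Fintype.card_fin, nsmul_eq_mul,
      Nat.cast_mul]
    rw [ENNReal.mul_inv (Or.inl (by simpa using (hc l).ne')) (Or.inl (by simp)), ← mul_assoc,
      ENNReal.mul_inv_cancel (by simpa using (hc l).ne') (by simp), one_mul]
  refine ⟨YY c N 0 × ∀ l, DD N v l, inferInstance, inferInstance, mu (YY c N) (DD N v),
    adic e hN, fun l x => (yy (th e) l x).1, fun l x => (yy (th e) l x).2, inferInstance,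
    ⟨fun x => ?_⟩, ?_, ?_⟩
  · refine le_antisymm (ge_of_tendsto' (tendsto_inv_len hN) fun l => ?_) zero_le
    refine (measure_mono ?_).trans (hlev l (yy (th e) l x).2)
    rintro _ rfl
    rfl
  · refine measurePreserving_of_perm (th e) (adic e hN).measurable (sc c N) (up c N)
      (fun L x hx => yy_adic e hN hx) ?_
    refine tendsto_of_tendsto_of_tendsto_of_le_of_le tendsto_const_nhds (tendsto_inv_len hN)
      (fun _ => zero_le) fun l => ?_
    refine (measure_mono fun x hx => ?_).trans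
      (hlev l ⟨len N l - 1, by have := len_pos hN l; omega⟩)
    have := (yy (th e) l x).2.2
    simp only [up, mem_preimage, mem_compl_iff, mem_ofPred_eq, not_lt] at hx ⊢
    exact Fin.ext (by simp only; omega)
  · refine ⟨fun l => measurable_fst.comp (measurable_yy _ l),
      fun l => (Measurable.of_discrete (f := fun a : YY c N l => (a.2 : ℕ))).comp
        (measurable_yy _ l), fun l x => (yy (th e) l x).2.2, fun l w k hk => ?_,
      pos_adic e hN, fun l x hx => ?_, fun l x => ?_, pos_mod_succ e, fun A hA ε hε => ?_⟩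
    · rw [← hlaw l (w, ⟨k, hk⟩)]
      congr 1
      ext x
      simp [Prod.ext_iff, Fin.ext_iff]
    · rw [yy_adic e hN hx, sc_fst]
    · have h1 : ((yy (th e) (l + 1) x).2 : ℕ) / len N l = (x.2 l).1 := by
        rw [pos_succ, Nat.add_mul_div_left _ _ (len_pos hN l),
          Nat.div_eq_of_lt (yy (th e) l x).2.2, zero_add]
      rw [h1, ← he l (x.2 l).1, yy_succ, th_fst, Equiv.apply_symm_apply]
    · filter_upwards [approx (th e) hA hε] with l ⟨B, hB⟩
      refine ⟨(fun a : YY c N l => (a.1, (a.2 : ℕ))) '' B, ?_⟩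
      convert hB using 3
      ext x
      simp only [mem_image, mem_ofPred_eq, mem_preimage, Prod.mk.injEq]
      constructor
      · rintro ⟨a, ha, h1, h2⟩
        rwa [← Prod.ext h1 (Fin.ext h2)]
      · exact fun h => ⟨_, h, rfl, rfl⟩

end Crest.Agent.R133
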