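import Crest.Agent.R133.Stage
import Crest.Agent.R133.Standard
import Crest.Agent.R133.TowerExists
import Crest.Agent.R133.TowerErgodic
import Crest.Agent.R133.TowerEntropy
import Crest.Agent.R133.Flat

/-! Row 133: assembling the tower. -/

set_option autoImplicit false

open MeasureTheory Set Metric Filter Crest.AnalysisR
open scoped ENNReal Topology Manifold ContDiff

namespace Crest.Agent.R133

theorem balanced_id {α : Type*} [Fintype α] [DecidableEq α] : Balanced fun x : α => x := by
  intro y
  simp [Finset.filter_eq']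

/-- State of the construction: words with `f` bits, of length `n`, with balanced names. -/
structure St where
  f : ℕ
  n : ℕ
  name : Fin (2 ^ f) → ℕ → Fin (2 ^ 8)
  hn : 0 < n
  hbal : ∀ k < n, Balanced fun w => name w k

/-- The data produced by one stage. -/
structure StepData (j : ℕ) (s : St) where
  f' : ℕ
  N : ℕ
  sub : Fin (2 ^ f') → ℕ → Fin (2 ^ s.f)
  hN : 2 ≤ N
  hf : f' ≤ N
  bal : ∀ t < N, Balanced fun w => sub w t
  pair : ∃ r, 2 * r ≤ N ∧ ∀ t, t + r < N → Balanced fun w => (sub w t, sub w (t + r))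
  kill : ∀ (X : Type) [MeasurableSpace X] (μ : Measure X) [IsProbabilityMeasure μ] (T : X → X)
      (P : X → Fin (2 ^ 8)) (wd : X → Fin (2 ^ f')) (pos : X → ℕ),
      MeasurePreserving T μ μ → Measurable wd → Measurable pos →
      (∀ w, μ {x | wd x = w ∧ pos x = 0} = ((2 ^ f' * (N * s.n) : ℕ) : ℝ≥0∞)⁻¹) →
      (∀ x, pos x + 1 < N * s.n → wd (T x) = wd x ∧ pos (T x) = pos x + 1) →
      (∀ x, P x = s.name (sub (wd x) (pos x / s.n)) (pos x % s.n)) →
      ¬ HasFlatModel μ T P (1 / 200) (j.unpair.1 + 1) ((j.unpair.2 + 1 : ℕ) : ℝ)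

theorem nonempty_stepData (j : ℕ) (s : St) : Nonempty (StepData j s) := by
  obtain ⟨f', N, sub, h1, h2, h3, h4, h5⟩ :=
    stage j.unpair.1 (j.unpair.2 + 1) s.f s.n (by omega) s.hn s.name s.hbal
  exact ⟨⟨f', N, sub, h1, h2, h3, h4, h5⟩⟩

noncomputable def stepData (j : ℕ) (s : St) : StepData j s := (nonempty_stepData j s).some

noncomputable def nextSt (j : ℕ) (s : St) : St where
  f := (stepData j s).f'
  n := (stepData j s).N * s.n
  name := fun w k => s.name ((stepData j s).sub w (k / s.n)) (k % s.n)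
  hn := Nat.mul_pos (by have := (stepData j s).hN; omega) s.hn
  hbal := fun k hk => by
    have h1 : k / s.n < (stepData j s).N := (Nat.div_lt_iff_lt_mul s.hn).2 hk
    have h2 : k % s.n < s.n := Nat.mod_lt _ s.hn
    exact balanced_comp (g := fun w => s.name w (k % s.n))
      (f := fun w => (stepData j s).sub w (k / s.n))
      (s.hbal _ h2) ((stepData j s).bal _ h1) (by rw [Fintype.card_fin]; positivity)

noncomputable def st : ℕ → St
  | 0 => ⟨8, 1, fun w _ => w, Nat.one_pos, fun _ _ => balanced_id⟩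
  | j + 1 => nextSt j (st j)

theorem st_anchor : type_of% @st.eq_def := @st.eq_def
theorem st_anchor1 : type_of% @st.eq_1 := @st.eq_1
theorem st_anchor2 : type_of% @st.eq_2 := @st.eq_2

noncomputable def cc (l : ℕ) : ℕ := 2 ^ (st l).f
noncomputable def NN (l : ℕ) : ℕ := (stepData l (st l)).N
noncomputable def ssub (l : ℕ) : Fin (cc (l + 1)) → ℕ → Fin (cc l) := (stepData l (st l)).sub

theorem len_NN (l : ℕ) : len NN l = (st l).n := by
  induction l with
  | zero => rfl
  | succ l ih => rw [len_succ, ih]; rfl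

theorem hasFlatModel_of_conj {X M : Type*} [MeasurableSpace X] [MeasurableSpace M]
    {μ : Measure X} {T : X → X} {ν : Measure M} {S : M → M} {q : ℕ} {P : X → Fin q}
    {γ : ℝ} {d : ℕ} {C : ℝ} {X₀ : Set X} {F : X → M} {G : M → X}
    (hX₀ : μ X₀ᶜ = 0) (hF : Measurable F) (hGF : ∀ x ∈ X₀, G (F x) = x) (hmap : μ.map F = ν)
    (hconj : ∀ x ∈ X₀, F (T x) = S (F x))
    (h : HasFlatModel ν S (fun m => P (G m)) γ d C) : HasFlatModel μ T P γ d C := by
  obtain ⟨ι, G', D, lab, hι, hD, hlab, hDn, hdens, hae, herr, hreg⟩ := h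
  have hle : ∀ s : Set M, μ (F ⁻¹' s) ≤ ν s := fun s => by
    rw [← hmap]; exact Measure.le_map_apply hF.aemeasurable s
  have hX : ∀ᵐ x ∂μ, x ∈ X₀ := by
    rw [ae_iff]; exact hX₀
  refine ⟨fun x => ι (F x), G', D, lab, hι.comp hF, hD.comp hF, hlab.comp hF, hDn, ?_, ?_, ?_, ?_⟩
  · intro A hA
    exact (hle (ι ⁻¹' A)).trans (hdens A hA)
  · have h1 : ∀ᵐ x ∂μ, ι (S (F x)) = G' (ι (F x)) := by
      rw [ae_iff] at hae ⊢
      exact le_antisymm ((hle _).trans hae.le) (zero_le)
    filter_upwards [h1, hX] with x h1 hx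
    rw [hconj x hx, h1]
  · refine le_trans ?_ ((hle _).trans herr)
    refine measure_mono_ae ?_
    filter_upwards [hX] with x hx h
    have h' : lab (ι (F x)) ≠ P x := h
    show lab (ι (F x)) ≠ P (G (F x))
    rwa [hGF x hx]
  · intro ρ h0 h1
    exact (hle _).trans (hreg ρ h0 h1)

theorem main_result :
    ∃ (X : Type) (_ : MeasurableSpace X) (μ : Measure X) (T : X ≃ᵐ X),
      IsProbabilityMeasure μ ∧ IsStandardProbability μ ∧ MeasurePreserving T μ μ ∧
      Ergodic T μ ∧ HasZeroEntropy μ T ∧ NoSmoothPositiveVolumeModel μ T := by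
  have hc : ∀ l, 0 < cc l := fun l => by unfold cc; positivity
  have hN : ∀ l, 2 ≤ NN l := fun l => (stepData l (st l)).hN
  obtain ⟨X, mX, sX, μ, T, wd, pos, hprob, hna, hT, htow⟩ :=
    exists_towerSys cc NN ssub hc hN (fun l => (stepData l (st l)).bal)
  have hrate : Tendsto (fun l => Real.log (cc l) / (len NN l : ℝ)) atTop (𝓝 0) := by
    rw [← tendsto_add_atTop_iff_nat 1]
    have hlim : Tendsto (fun l : ℕ => (1 / 2 : ℝ) ^ l) atTop (𝓝 0) :=
      tendsto_pow_atTop_nhds_zero_of_lt_one (by norm_num) (by norm_num)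
    refine squeeze_zero (fun l => div_nonneg (Real.log_nonneg ?_) (Nat.cast_nonneg _)) ?_ hlim
    · exact_mod_cast hc (l + 1)
    · intro l
      have h1 : ((stepData l (st l)).f' : ℝ) ≤ NN l := by exact_mod_cast (stepData l (st l)).hf
      have h2 : (2 : ℝ) ^ l ≤ len NN l := by exact_mod_cast two_pow_le_len hN l
      have h3 : Real.log (cc (l + 1)) = (stepData l (st l)).f' * Real.log 2 := by
        have : cc (l + 1) = 2 ^ (stepData l (st l)).f' := rfl
        rw [this]; push_cast; rw [Real.log_pow]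
      have h4 : Real.log 2 ≤ 1 := by
        have := Real.log_two_lt_d9; linarith
      have h5 : (0 : ℝ) < NN l := by have := hN l; exact_mod_cast (by omega : 0 < NN l)
      have h6 : (0 : ℝ) < 2 ^ l := by positivity
      rw [h3, len_succ]
      push_cast
      rw [div_le_iff₀ (by nlinarith), one_div_pow]
      have h7 : (0 : ℝ) ≤ (stepData l (st l)).f' := Nat.cast_nonneg _
      calc ((stepData l (st l)).f' : ℝ) * Real.log 2 ≤ NN l * 1 :=
            mul_le_mul h1 h4 (Real.log_nonneg (by norm_num)) h5.le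
        _ = 1 / 2 ^ l * (NN l * 2 ^ l) := by field_simp
        _ ≤ 1 / 2 ^ l * (NN l * len NN l) := by gcongr
  -- the labelling
  let P : X → Fin (2 ^ 8) := wd 0
  have hP : Measurable P := htow.meas_wd 0
  have hname : ∀ l x, P x = (st l).name (wd l x) (pos l x) := by
    intro l
    induction l with
    | zero => intro x; rfl
    | succ l ih =>
      intro x
      rw [ih x, htow.compat_wd l x, htow.compat_pos l x, len_NN]
      rfl
  have hkill : ∀ (d C : ℕ), 1 ≤ C → ¬ HasFlatModel μ T P (1 / 200) (d + 1) C := by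
    intro d C hC
    have key := (stepData (Nat.pair d (C - 1)) (st (Nat.pair d (C - 1)))).kill X μ T P
      (wd (Nat.pair d (C - 1) + 1)) (pos (Nat.pair d (C - 1) + 1)) hT (htow.meas_wd _)
      (htow.meas_pos _) ?_ ?_ ?_
    · simpa only [Nat.unpair_pair, Nat.sub_add_cancel hC] using key
    · intro w
      have := htow.law (Nat.pair d (C - 1) + 1) w 0 (len_pos hN _)
      rw [len_succ, len_NN] at this
      exact this
    · intro x hx
      have hx' : pos (Nat.pair d (C - 1) + 1) x + 1 < len NN (Nat.pair d (C - 1) + 1) := by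
        rw [len_succ, len_NN]; exact hx
      exact ⟨htow.step_wd _ x hx', by rw [htow.step_pos, Nat.mod_eq_of_lt hx']⟩
    · intro x
      exact hname (Nat.pair d (C - 1) + 1) x
  refine ⟨X, mX, μ, T, hprob, isStandardProbability_of_noAtoms μ, hT,
    htow.ergodic hT hc hN (fun l => (stepData l (st l)).pair),
    htow.hasZeroEntropy hT hc hN hrate, ?_, ?_⟩
  · intro d M _ _ _ _ _ _ _ ν S hν hdens _ hconj
    obtain ⟨X₀, M₀, F, G, -, -, hX₀, -, -, -, hF, hG, -, hGF, hmap, hc⟩ := hconj
    cases d with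
    | zero =>
      have : DiscreteTopology M := by
        rw [discreteTopology_iff_isOpen_singleton]
        intro m
        have h1 : (chartAt (EuclideanSpace ℝ (Fin 0)) m).source = {m} := by
          refine Set.eq_singleton_iff_unique_mem.2 ⟨mem_chart_source _ m, fun y hy => ?_⟩
          exact (chartAt (EuclideanSpace ℝ (Fin 0)) m).injOn hy (mem_chart_source _ m)
            (Subsingleton.elim _ _)
        rw [← h1]
        exact (chartAt (EuclideanSpace ℝ (Fin 0)) m).open_source
      have : Finite M := finite_of_compact_of_discrete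
      have hfin : X₀.Finite := by
        refine (Set.finite_range G).subset fun x hx => ⟨F x, hGF x hx⟩
      have h0 : μ X₀ = 0 := hfin.measure_zero μ
      have h1 : μ univ ≤ μ X₀ + μ X₀ᶜ := by
        rw [← Set.union_compl_self X₀]; exact measure_union_le _ _
      rw [h0, hX₀] at h1
      simp at h1
    | succ d =>
      obtain ⟨C, hC, hflat⟩ := hasFlatModel_of_manifold (𝓡 (d + 1))
        (fun y _ ρ _ => by simp) ν hdens S S.contMDiff (fun m => P (G m)) (hP.comp hG)
        (γ := 1 / 200) (by norm_num)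
      exact hkill d C hC (hasFlatModel_of_conj hX₀ hF hGF hmap hc hflat)
  · intro d M _ _ _ _ _ _ _ ν S hν hdens _ hconj
    obtain ⟨X₀, M₀, F, G, -, -, hX₀, -, -, -, hF, hG, -, hGF, hmap, hc⟩ := hconj
    obtain ⟨C, hC, hflat⟩ := hasFlatModel_of_manifold (𝓡∂ (d + 1))
      (fun y hy ρ hρ z hz => by
        rw [range_modelWithCornersEuclideanHalfSpace] at hy ⊢
        have hy' : 0 ≤ y 0 := hy
        have h1 : |z 0 - y 0| ≤ ‖z - y‖ := by
          simpa using PiLp.norm_apply_le (z - y) 0
        rw [mem_ball_iff_norm] at hz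
        rw [abs_of_nonneg hy'] at hρ
        have := (abs_le.1 h1).1
        show 0 ≤ z 0
        linarith) ν hdens S S.contMDiff (fun m => P (G m)) (hP.comp hG)
      (γ := 1 / 200) (by norm_num)
    exact hkill d C hC (hasFlatModel_of_conj hX₀ hF hGF hmap hc hflat)

end Crest.Agent.R133
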