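import Crest.Agent.R133.Defs

/-! Row 133: a balanced outer code with Hamming-separated names. -/

set_option autoImplicit false

open MeasureTheory Set Metric Filter Crest.AnalysisR
open scoped ENNReal Topology

namespace Crest.Agent.R133

namespace OuterAux

lemma bal_equiv {α α' β : Type*} [Fintype α] [Fintype α'] [Fintype β] [DecidableEq β]
    {g : α → β} (hg : Balanced g) (e : α' ≃ α) : Balanced fun x => g (e x) := by
  intro y
  rw [Fintype.card_congr e, ← hg y]
  congr 1
  exact Finset.card_equiv e fun x => by simp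

lemma bal_fst {α γ β : Type*} [Fintype α] [Fintype γ] [Fintype β] [DecidableEq β]
    {g : α → β} (hg : Balanced g) : Balanced fun x : α × γ => g x.1 := by
  intro y
  have : (Finset.univ.filter fun x : α × γ => g x.1 = y) =
      (Finset.univ.filter fun x => g x = y) ×ˢ Finset.univ := by
    ext x; simp
  rw [this, Finset.card_product, Fintype.card_prod, ← hg y, Finset.card_univ]
  ring

lemma bal_id {α : Type*} [Fintype α] [DecidableEq α] : Balanced fun x : α => x := by
  intro y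
  rw [Finset.filter_eq', if_pos (Finset.mem_univ y), Finset.card_singleton, one_mul]

lemma card_filter_range_mul (P : ℕ → ℕ → Prop) [∀ t j, Decidable (P t j)] {n : ℕ} (hn : 0 < n)
    (m : ℕ) : ((Finset.range (m * n)).filter fun k => P (k / n) (k % n)).card =
      ∑ t ∈ Finset.range m, ((Finset.range n).filter fun j => P t j).card := by
  simp only [Finset.card_filter]
  induction m with
  | zero => simp
  | succ m ih =>
    rw [Nat.succ_mul, Finset.sum_range_add, ih, Finset.sum_range_succ]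
    congr 1
    refine Finset.sum_congr rfl fun j hj => ?_
    have hj' := Finset.mem_range.1 hj
    have h1 : (m * n + j) / n = m := by
      rw [add_comm, Nat.add_mul_div_right _ _ hn, Nat.div_eq_of_lt hj', zero_add]
    have h2 : (m * n + j) % n = j := by
      rw [add_comm, Nat.add_mul_mod_self_right, Nat.mod_eq_of_lt hj']
    simp only [h1, h2]

/-- averaging a two-point function over a random permutation -/
lemma perm_avg {W : Type*} [Fintype W] [DecidableEq W] (F : W → W → ℝ) (hF : ∀ u v, 0 ≤ F u v)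
    {K : ℝ} (hK : ∀ u, ∑ v, F u v ≤ K) {w w' : W} (hw : w ≠ w') :
    ((Fintype.card W : ℝ) - 1) * ∑ π : Equiv.Perm W, F (π w) (π w') ≤
      Fintype.card (Equiv.Perm W) * K := by
  have h1 : ∀ u ∈ Finset.univ.erase w, ∑ π : Equiv.Perm W, F (π w) (π w') =
      ∑ π : Equiv.Perm W, F (π w) (π u) := by
    intro u hu
    have hu' : w ≠ u := (Finset.ne_of_mem_erase hu).symm
    rw [← Equiv.sum_comp (Equiv.mulRight (Equiv.swap w' u))]
    refine Finset.sum_congr rfl fun π _ => ?_
    simp [Equiv.swap_apply_of_ne_of_ne hw hu']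
  have h2 : ((Finset.univ.erase w).card : ℝ) = (Fintype.card W : ℝ) - 1 := by
    rw [Finset.card_erase_of_mem (Finset.mem_univ w), Finset.card_univ,
      Nat.cast_sub (Fintype.card_pos_iff.2 ⟨w⟩), Nat.cast_one]
  calc ((Fintype.card W : ℝ) - 1) * ∑ π : Equiv.Perm W, F (π w) (π w')
      = ∑ u ∈ Finset.univ.erase w, ∑ π : Equiv.Perm W, F (π w) (π u) := by
        rw [← Finset.sum_congr rfl h1, Finset.sum_const, nsmul_eq_mul, h2]
    _ ≤ ∑ u, ∑ π : Equiv.Perm W, F (π w) (π u) :=
        Finset.sum_le_sum_of_subset_of_nonneg (Finset.subset_univ _) fun u _ _ =>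
          Finset.sum_nonneg fun π _ => hF _ _
    _ = ∑ π : Equiv.Perm W, ∑ u, F (π w) u := by
        rw [Finset.sum_comm]
        exact Finset.sum_congr rfl fun π _ => Equiv.sum_comp π (F (π w))
    _ ≤ ∑ _π : Equiv.Perm W, K := Finset.sum_le_sum fun π _ => hK _
    _ = _ := by rw [Finset.sum_const, nsmul_eq_mul, Finset.card_univ]

/-- the probabilistic core -/
lemma exists_perms {m : ℕ} (hm : 1 ≤ m) (x : Fin (2 ^ m) → Fin (2 ^ m) → ℝ)
    (hx0 : ∀ u v, 0 ≤ x u v) (hx1 : ∀ u v, x u v ≤ 1) (hK : ∀ u, ∑ v, x u v ≤ 2 ^ m / 256) :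
    ∃ π : Fin m → Equiv.Perm (Fin (2 ^ m)), ∀ w w', w ≠ w' →
      2 * ∑ t, x (π t w) (π t w') ≤ m := by
  obtain ⟨N, hN⟩ : ∃ N : ℝ, N = (Fintype.card (Equiv.Perm (Fin (2 ^ m))) : ℝ) := ⟨_, rfl⟩
  have hN0 : 0 ≤ N := hN ▸ Nat.cast_nonneg _
  have hM : (2 : ℝ) ≤ 2 ^ m := by
    simpa using pow_le_pow_right₀ (show (1 : ℝ) ≤ 2 by norm_num) hm
  have h1 : ∀ w w', w ≠ w' →
      ∑ π : Equiv.Perm (Fin (2 ^ m)), (1 + x (π w) (π w') * 255) ≤ 3 * N := by
    intro w w' hw
    have h := perm_avg x hx0 hK hw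
    rw [Fintype.card_fin, Nat.cast_pow, Nat.cast_ofNat, ← hN] at h
    have hS : 0 ≤ ∑ π : Equiv.Perm (Fin (2 ^ m)), x (π w) (π w') :=
      Finset.sum_nonneg fun π _ => hx0 _ _
    rw [Finset.sum_add_distrib, Finset.sum_const, nsmul_eq_mul, Finset.card_univ, ← hN,
      ← Finset.sum_mul]
    have h3 : ∑ π : Equiv.Perm (Fin (2 ^ m)), x (π w) (π w') ≤ N / 128 := by
      refine le_of_mul_le_mul_left (h.trans ?_) (by linarith : (0 : ℝ) < 2 ^ m - 1)
      nlinarith
    linarith
  let D : Finset (Fin (2 ^ m) × Fin (2 ^ m)) := Finset.univ.filter fun p => p.1 ≠ p.2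
  have hD : (D.card : ℝ) ≤ 4 ^ m := by
    have : D.card ≤ 4 ^ m := (Finset.card_le_univ D).trans (by
      rw [Fintype.card_prod, Fintype.card_fin, ← mul_pow]; exact le_rfl)
    exact_mod_cast this
  have h2 : ∑ π : Fin m → Equiv.Perm (Fin (2 ^ m)),
      ∑ p ∈ D, ∏ t, (1 + x (π t p.1) (π t p.2) * 255) ≤
      ∑ _π : Fin m → Equiv.Perm (Fin (2 ^ m)), (12 : ℝ) ^ m := by
    rw [Finset.sum_comm, Finset.sum_const, nsmul_eq_mul, Finset.card_univ, Fintype.card_fun,
      Fintype.card_fin, Nat.cast_pow, ← hN]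
    have h4 : ∀ p ∈ D, ∑ π : Fin m → Equiv.Perm (Fin (2 ^ m)),
        ∏ t, (1 + x (π t p.1) (π t p.2) * 255) ≤ (3 * N) ^ m := by
      intro p hp
      have h5 := Finset.prod_univ_sum (fun _ : Fin m => (Finset.univ : Finset (Equiv.Perm
        (Fin (2 ^ m))))) fun _ π => 1 + x (π p.1) (π p.2) * 255
      rw [Fintype.piFinset_univ] at h5
      rw [← h5, Finset.prod_const, Finset.card_univ, Fintype.card_fin]
      refine pow_le_pow_left₀ (Finset.sum_nonneg fun π _ => ?_)
        (h1 _ _ (Finset.mem_filter.1 hp).2) m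
      have := hx0 (π p.1) (π p.2)
      positivity
    refine (Finset.sum_le_card_nsmul _ _ _ h4).trans ?_
    rw [nsmul_eq_mul]
    calc (D.card : ℝ) * (3 * N) ^ m ≤ 4 ^ m * (3 * N) ^ m := by gcongr
      _ = N ^ m * 12 ^ m := by rw [← mul_pow, ← mul_pow]; congr 1; ring
  obtain ⟨π, -, hπ⟩ := Finset.exists_le_of_sum_le Finset.univ_nonempty h2
  refine ⟨π, fun w w' hw => ?_⟩
  have h6 : ∏ t, (1 + x (π t w) (π t w') * 255) ≤ 12 ^ m := by
    refine le_trans ?_ hπ
    refine Finset.single_le_sum (f := fun p : Fin (2 ^ m) × Fin (2 ^ m) =>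
      ∏ t, (1 + x (π t p.1) (π t p.2) * 255)) (fun p _ => Finset.prod_nonneg fun t _ => ?_)
      (show (w, w') ∈ D from Finset.mem_filter.2 ⟨Finset.mem_univ _, hw⟩)
    have := hx0 (π t p.1) (π t p.2)
    positivity
  have h7 : (256 : ℝ) ^ (∑ t, x (π t w) (π t w')) ≤ ∏ t, (1 + x (π t w) (π t w') * 255) := by
    rw [Real.rpow_sum_of_pos (by norm_num)]
    refine Finset.prod_le_prod (fun t _ => by positivity) fun t _ => ?_
    have := rpow_one_add_le_one_add_mul_self (s := 255) (by norm_num) (hx0 (π t w) (π t w'))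
      (hx1 (π t w) (π t w'))
    rwa [show (1 : ℝ) + 255 = 256 by norm_num] at this
  have h8 : (12 : ℝ) ^ m ≤ (256 : ℝ) ^ ((m : ℝ) / 2) := by
    have : (256 : ℝ) ^ ((m : ℝ) / 2) = 16 ^ m := by
      rw [show (256 : ℝ) = 16 ^ (2 : ℝ) by norm_num, ← Real.rpow_mul (by norm_num),
        mul_div_cancel₀ _ (two_ne_zero), Real.rpow_natCast]
    rw [this]
    gcongr
    norm_num
  have h9 := (Real.rpow_le_rpow_left_iff (by norm_num : (1 : ℝ) < 256)).1 (h7.trans (h6.trans h8))
  linarith

end OuterAux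

open OuterAux in
theorem outer_code {A Λ : Type*} [Fintype A] [DecidableEq A] [Fintype Λ] [DecidableEq Λ]
    (f n m : ℕ) (hA : Fintype.card A = 2 ^ f) (hΛ : 256 ≤ Fintype.card Λ) (hn : 0 < n)
    (hfm : f ≤ m) (hm : 1 ≤ m) (name : A → ℕ → Λ)
    (hbal : ∀ k < n, Balanced fun a => name a k) :
    ∃ ψ : Fin (2 ^ m) → ℕ → A, (∀ t < m, Balanced fun w => ψ w t) ∧
      ∀ w w', w ≠ w' →
        2 * ((Finset.range (m * n)).filter fun k =>
          name (ψ w (k / n)) (k % n) = name (ψ w' (k / n)) (k % n)).card ≤ m * n := by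
  have hcard : Fintype.card (Fin (2 ^ m)) = Fintype.card (A × Fin (2 ^ (m - f))) := by
    rw [Fintype.card_prod, Fintype.card_fin, Fintype.card_fin, hA, ← pow_add,
      Nat.add_sub_cancel' hfm]
  let e := Fintype.equivOfCardEq hcard
  let cnt : Fin (2 ^ m) → Fin (2 ^ m) → ℕ := fun u v =>
    ((Finset.range n).filter fun j => name (e u).1 j = name (e v).1 j).card
  have hn' : (0 : ℝ) < n := by exact_mod_cast hn
  have hK : ∀ u, ∑ v, (cnt u v : ℝ) / n ≤ 2 ^ m / 256 := by
    intro u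
    have h1 : ∑ v, cnt u v = ∑ j ∈ Finset.range n,
        (Finset.univ.filter fun v => name (e v).1 j = name (e u).1 j).card := by
      simp only [cnt, Finset.card_filter]
      rw [Finset.sum_comm]
      exact Finset.sum_congr rfl fun j _ => Finset.sum_congr rfl fun v _ => by
        simp only [eq_comm]
    have h2 : ∀ j ∈ Finset.range n,
        (Finset.univ.filter fun v => name (e v).1 j = name (e u).1 j).card * 256 ≤ 2 ^ m := by
      intro j hj
      have h3 := bal_equiv (bal_fst (γ := Fin (2 ^ (m - f))) (hbal j (Finset.mem_range.1 hj))) e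
        (name (e u).1 j)
      rw [Fintype.card_fin] at h3
      exact (Nat.mul_le_mul_left _ hΛ).trans h3.le
    have h4 : (∑ v, cnt u v) * 256 ≤ n * 2 ^ m := by
      rw [h1, Finset.sum_mul]
      simpa using Finset.sum_le_card_nsmul _ _ _ h2
    have h5 : (∑ v, (cnt u v : ℝ)) * 256 ≤ n * 2 ^ m := by exact_mod_cast h4
    rw [← Finset.sum_div, div_le_div_iff₀ hn' (by norm_num)]
    linarith
  obtain ⟨π, hπ⟩ := exists_perms hm (fun u v => (cnt u v : ℝ) / n) (fun u v => by positivity)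
    (fun u v => by
      rw [div_le_one hn']
      exact_mod_cast (Finset.card_filter_le _ _).trans (Finset.card_range n).le) hK
  refine ⟨fun w t => if h : t < m then (e (π ⟨t, h⟩ w)).1 else (e w).1, fun t ht => ?_,
    fun w w' hw => ?_⟩
  · simp only [dif_pos ht]
    exact bal_equiv (bal_equiv (bal_fst (γ := Fin (2 ^ (m - f))) bal_id) e) (π ⟨t, ht⟩)
  · have h1 := card_filter_range_mul (fun t j =>
      name (if h : t < m then (e (π ⟨t, h⟩ w)).1 else (e w).1) j =
        name (if h : t < m then (e (π ⟨t, h⟩ w')).1 else (e w').1) j) hn m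
    rw [h1, Finset.sum_range]
    simp only [Fin.is_lt, dif_pos, Fin.eta]
    have h2 := hπ w w' hw
    rw [← Finset.sum_div, ← mul_div_assoc, div_le_iff₀ hn'] at h2
    exact_mod_cast h2

end Crest.Agent.R133
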