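import Crest.Agent.R133.Bal

/-! Row 133: from a flat model and a Rokhlin tower to the finite data of the coding argument. -/

set_option autoImplicit false

open MeasureTheory Set Metric Filter
open scoped ENNReal Topology

namespace Crest.Agent.R133

theorem sum_measureReal_le {X ι κ : Type*} [MeasurableSpace X] (ν : Measure X) [IsFiniteMeasure ν]
    (s : Finset ι) (t : Finset κ) (A : ι → Set X) (B : κ → Set X) (a : ι → ℝ) (b : κ → ℝ)
    (hA : ∀ i ∈ s, MeasurableSet (A i)) (hB : ∀ j ∈ t, MeasurableSet (B j))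
    (h : ∀ᵐ x ∂ν, ∑ i ∈ s, (A i).indicator (fun _ => a i) x ≤
      ∑ j ∈ t, (B j).indicator (fun _ => b j) x) :
    ∑ i ∈ s, a i * ν.real (A i) ≤ ∑ j ∈ t, b j * ν.real (B j) := by
  have h1 : ∑ i ∈ s, a i * ν.real (A i) = ∫ x, ∑ i ∈ s, (A i).indicator (fun _ => a i) x ∂ν := by
    rw [integral_finsetSum _ fun i hi => (integrable_const _).indicator (hA i hi)]
    refine Finset.sum_congr rfl fun i hi => ?_
    rw [integral_indicator_const _ (hA i hi), smul_eq_mul, mul_comm]
  have h2 : ∑ j ∈ t, b j * ν.real (B j) = ∫ x, ∑ j ∈ t, (B j).indicator (fun _ => b j) x ∂ν := by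
    rw [integral_finsetSum _ fun i hi => (integrable_const _).indicator (hB i hi)]
    refine Finset.sum_congr rfl fun i hi => ?_
    rw [integral_indicator_const _ (hB i hi), smul_eq_mul, mul_comm]
  rw [h1, h2]
  exact integral_mono_ae
    (integrable_finsetSum _ fun i hi => (integrable_const _).indicator (hA i hi))
    (integrable_finsetSum _ fun i hi => (integrable_const _).indicator (hB i hi)) h

theorem tower_iter {X β : Type*} {T : X → X} {wd : X → β} {pos : X → ℕ} {H : ℕ}
    (hstep : ∀ x, pos x + 1 < H → wd (T x) = wd x ∧ pos (T x) = pos x + 1)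
    {x : X} (hx : pos x = 0) : ∀ k < H, wd (T^[k] x) = wd x ∧ pos (T^[k] x) = k := by
  intro k
  induction k with
  | zero => intro _; exact ⟨rfl, hx⟩
  | succ k ih =>
    intro hk
    obtain ⟨h1, h2⟩ := ih (by omega)
    obtain ⟨h3, h4⟩ := hstep (T^[k] x) (by omega)
    rw [Function.iterate_succ_apply', h3, h4, h1, h2]
    exact ⟨rfl, rfl⟩

theorem rokhlin_le {X β : Type*} [MeasurableSpace X] {μ : Measure X} [IsFiniteMeasure μ]
    {T : X → X} (hT : MeasurePreserving T μ μ) {wd : X → β} {pos : X → ℕ} (hpos : Measurable pos)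
    {H : ℕ} (hstep : ∀ x, pos x + 1 < H → wd (T x) = wd x ∧ pos (T x) = pos x + 1)
    {ι : Type*} (s : Finset ι) (τ : ι → ℕ) (hτ : ∀ i ∈ s, τ i < H) (hinj : Set.InjOn τ s)
    (A : Set X) :
    ∑ i ∈ s, (μ.restrict {x | pos x = 0}).real (T^[τ i] ⁻¹' A) ≤ μ.real A := by
  have hZ : ∀ k, MeasurableSet {x | pos x = k} := fun k => hpos (measurableSet_singleton k)
  have h1 : ∀ i ∈ s, (μ.restrict {x | pos x = 0}).real (T^[τ i] ⁻¹' A) ≤
      μ.real (toMeasurable μ A ∩ {x | pos x = τ i}) := by
    intro i hi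
    have hm : MeasurableSet (toMeasurable μ A ∩ {x | pos x = τ i}) :=
      (measurableSet_toMeasurable μ A).inter (hZ _)
    rw [← (hT.iterate (τ i)).measureReal_preimage hm.nullMeasurableSet,
      measureReal_restrict_apply' (hZ 0)]
    refine measureReal_mono fun x hx => ⟨subset_toMeasurable μ A hx.1, ?_⟩
    exact (tower_iter hstep hx.2 _ (hτ i hi)).2
  refine (Finset.sum_le_sum h1).trans ?_
  rw [← measureReal_biUnion_finset (fun i hi j hj hij => ?_)
    fun i _ => (measurableSet_toMeasurable μ A).inter (hZ _)]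
  · refine (measureReal_mono (s₂ := toMeasurable μ A) ?_).trans (le_of_eq ?_)
    · exact iUnion₂_subset fun i _ => inter_subset_left
    · simp only [Measure.real, measure_toMeasurable]
  · refine Set.disjoint_left.2 fun x hx hx' => hij (hinj hi hj ?_)
    exact hx.2.symm.trans hx'.2

/-- Nearest word decoding. -/
noncomputable def dec {W Λ : Type*} [Inhabited W] [DecidableEq Λ] (name : W → ℕ → Λ) (n : ℕ)
    (y : Fin n → Λ) : W :=
  open Classical in
  if h : ∃ w, 4 * (Finset.univ.filter fun k : Fin n => y k ≠ name w k).card < n then h.choose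
  else default

theorem dec_eq {W Λ : Type*} [Inhabited W] [DecidableEq Λ] {name : W → ℕ → Λ} {n : ℕ}
    (hsep : ∀ w w', w ≠ w' →
      2 * ((Finset.range n).filter fun k => name w k = name w' k).card ≤ n)
    {y : Fin n → Λ} {w : W}
    (h : 4 * (Finset.univ.filter fun k : Fin n => y k ≠ name w k).card < n) :
    dec name n y = w := by
  have hex : ∃ w, 4 * (Finset.univ.filter fun k : Fin n => y k ≠ name w k).card < n := ⟨w, h⟩
  rw [dec, dif_pos hex]
  by_contra hne
  have h1 := hex.choose_spec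
  have h2 := hsep _ _ hne
  set w' := hex.choose
  have h3 : ((Finset.range n).filter fun k => name w' k = name w k).card =
      (Finset.univ.filter fun k : Fin n => name w' k = name w k).card := by
    rw [Finset.card_filter, Finset.card_filter, Finset.sum_range]
  have h4 : (Finset.univ : Finset (Fin n)) ⊆
      (Finset.univ.filter fun k : Fin n => name w' k = name w k) ∪
      ((Finset.univ.filter fun k : Fin n => y k ≠ name w' k) ∪
        (Finset.univ.filter fun k : Fin n => y k ≠ name w k)) := by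
    intro k _
    simp only [Finset.mem_union, Finset.mem_filter, Finset.mem_univ, true_and]
    by_cases a1 : y k = name w' k
    · by_cases a2 : y k = name w k
      · exact Or.inl (a1.symm.trans a2)
      · exact Or.inr (Or.inr a2)
    · exact Or.inr (Or.inl a1)
  have h5 := (Finset.card_le_card h4).trans ((Finset.card_union_le _ _).trans
    (Nat.add_le_add_left (Finset.card_union_le _ _) _))
  rw [Finset.card_univ, Fintype.card_fin] at h5
  omega

theorem blkidx_lt {n r : ℕ} (t : Fin r) (k : Fin n) : t * n + k < n * r := by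
  have h1 : (t + 1) * n ≤ r * n := Nat.mul_le_mul_right _ t.2
  have h2 := k.2
  rw [Nat.succ_mul] at h1
  rw [mul_comm n r]
  omega

/-- Blockwise decoding. -/
noncomputable def decAll {W Λ : Type*} [Inhabited W] [DecidableEq Λ] (name : W → ℕ → Λ)
    (n r : ℕ) (y : Fin (n * r) → Λ) : Fin r → W :=
  fun t => dec name n fun k => y ⟨t * n + k, blkidx_lt t k⟩

/-- Push-forward of a weight function. -/
noncomputable def pushW {α β : Type*} [Fintype α] [DecidableEq β] (f : α → β) (ν : α → ℝ) :
    β → ℝ := fun y => ∑ x with f x = y, ν x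

theorem sum_pushW {α β : Type*} [Fintype α] [DecidableEq β] (f : α → β) (ν : α → ℝ)
    (B : Finset β) : ∑ y ∈ B, pushW f ν y = ∑ x with f x ∈ B, ν x := by
  simp only [pushW]
  exact Finset.sum_fiberwise_eq_sum_filter Finset.univ B f ν

open Classical in
theorem stage_core {W : Type} [Fintype W] [DecidableEq W] [Inhabited W] {c q dd n b M : ℕ}
    (hc : 0 < c) (hn : 0 < n) (hb : 0 < b) (name : W → ℕ → Fin q)
    (hsep : ∀ w w', w ≠ w' →
      2 * ((Finset.range n).filter fun k => name w k = name w' k).card ≤ n)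
    (nm : Fin c → ℕ → W) {C θ CT : ℝ} (hC : 0 ≤ C) (hθ : 0 < θ) (hCT : 0 ≤ CT) (ρ σ : ℕ → ℝ)
    (𝒢 : (i : ℕ) → Set (Fin (n * b ^ (i + 1)) → E dd →L[ℝ] E dd))
    (h𝒢c : ∀ i, IsClosed (𝒢 i)) (h𝒢r : ∀ i, ∀ D ∈ 𝒢 i, HasRightInv D (σ i))
    (h𝒢s : ∀ D : ℕ → E dd →L[ℝ] E dd, (∀ k, ‖D k‖ ≤ C) →
        θ * ∑ i ∈ Finset.range M, (b : ℝ) ^ (i + 1) *
          (((Finset.range (b ^ (M - i - 1))).filter fun s =>
            (fun k : Fin (n * b ^ (i + 1)) => D (s * (n * b ^ (i + 1)) + k)) ∉ 𝒢 i).card : ℝ) ≤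
          (b : ℝ) ^ M * (dd * Real.log (1 + C ^ 2)))
    (hM : 16 * (dd * Real.log (1 + C ^ 2)) ≤ θ * M)
    (hρ : ∀ i, 0 < ρ i ∧ ρ i ≤ 1 ∧ (n * (b : ℝ) ^ (i + 1)) * (C * √(ρ i)) ≤ 1 / 8)
    (𝓕 : (i : ℕ) → Finset ((Fin (n * b ^ (i + 1)) → Fin q) → ℝ))
    (h𝓕 : ∀ i, ∀ ν ∈ 𝓕 i, ∀ y, 0 ≤ ν y)
    (htube : ∀ i (G : E dd → E dd) (D : E dd → E dd →L[ℝ] E dd) (lab : E dd → Fin q),
      (∀ x, ‖D x‖ ≤ C) → ∃ ν ∈ 𝓕 i, ∀ B : Finset (Fin (n * b ^ (i + 1)) → Fin q),
        volume {x : E dd | (∀ k < n * b ^ (i + 1), RegAt G D lab C (ρ i) (G^[k] x)) ∧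
          HasRightInv (fun k : Fin (n * b ^ (i + 1)) => D (G^[k] x)) (σ i) ∧
          (fun k : Fin (n * b ^ (i + 1)) => lab (G^[k] x)) ∈ B} ≤
        ENNReal.ofReal (CT * ∑ y ∈ B, ν y))
    {X : Type} [MeasurableSpace X] (μ : Measure X) [IsProbabilityMeasure μ] (T : X → X)
    (P : X → Fin q) (wd : X → Fin c) (pos : X → ℕ) (hT : MeasurePreserving T μ μ)
    (hwd : Measurable wd) (hpos : Measurable pos)
    (hlaw : ∀ w, μ {x | wd x = w ∧ pos x = 0} = ((c * (n * b ^ M) : ℕ) : ℝ≥0∞)⁻¹)
    (hstep : ∀ x, pos x + 1 < n * b ^ M → wd (T x) = wd x ∧ pos (T x) = pos x + 1)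
    (hP : ∀ x, pos x < n * b ^ M → P x = name (nm (wd x) (pos x / n)) (pos x % n))
    (hflat : HasFlatModel μ T P (1 / 200) dd C) :
    ∃ (Ω : Type) (_ : Fintype Ω) (p : Ω → ℝ) (w : Ω → Fin c) (Y : Ω → ℕ → W) (Good : Finset ℕ)
      (ν : (i : ℕ) → (Fin (b ^ (i + 1)) → W) → ℝ),
      (∀ ω, 0 ≤ p ω) ∧ (∀ a, ∑ ω with w ω = a, p ω = 1 / c) ∧
      (∑ t ∈ Finset.range (b ^ M), ∑ ω with Y ω t ≠ nm (w ω) t, p ω ≤ (b : ℝ) ^ M / 50) ∧
      Good ⊆ Finset.range M ∧ M ≤ 2 * Good.card ∧
      ∀ i ∈ Good, ν i ∈ (𝓕 i).image (pushW (decAll name n (b ^ (i + 1)))) ∧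
        ∀ B : Finset (Fin (b ^ (i + 1)) → W),
          ∑ s ∈ Finset.range (b ^ (M - i - 1)),
            ∑ ω with (fun t : Fin (b ^ (i + 1)) => Y ω (s * b ^ (i + 1) + t)) ∈ B, p ω ≤
            (b : ℝ) ^ (M - i - 1) *
              (1 / 4 + (n * (b : ℝ) ^ (i + 1) * C * CT) * ∑ y ∈ B, ν i y) := by
  obtain ⟨ι, G, D, lab, hι, hD, hlab, hDn, hdens, hae, herr, hreg⟩ := hflat
  choose ν0 hν0 hν0' using fun i => htube i G D lab hDn
  let _ : MeasurableSpace W := ⊤
  have hTm : ∀ k, Measurable T^[k] := fun k => (hT.iterate k).measurable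
  have hZ : MeasurableSet {x | pos x = 0} := hpos (measurableSet_singleton 0)
  set μZ := μ.restrict {x | pos x = 0} with hμZ
  set H : ℝ := n * (b : ℝ) ^ M with hH
  have hnR : (0 : ℝ) < n := by exact_mod_cast hn
  have hbR : (0 : ℝ) < b := by exact_mod_cast hb
  have hcR : (0 : ℝ) < c := by exact_mod_cast hc
  have hHpos : 0 < H := by positivity
  let Yx : X → ℕ → W := fun x t => dec name n fun k : Fin n => lab (ι (T^[t * n + k] x))
  have hYx : ∀ t, Measurable fun x => Yx x t := fun t =>
    (measurable_of_countable (dec name n)).comp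
      (measurable_pi_lambda _ fun k => hlab.comp (hTm _))
  let π : X → Fin c × (Fin (b ^ M) → W) := fun x => (wd x, fun t => Yx x t)
  have hπ : Measurable π := hwd.prodMk (measurable_pi_lambda _ fun t => hYx t)
  let p : Fin c × (Fin (b ^ M) → W) → ℝ := fun ω => H * μZ.real (π ⁻¹' {ω})
  let Y : Fin c × (Fin (b ^ M) → W) → ℕ → W := fun ω t =>
    if h : t < b ^ M then ω.2 ⟨t, h⟩ else default
  have hY : ∀ x t, t < b ^ M → Y (π x) t = Yx x t := fun x t ht => by simp [Y, π, ht]
  have hconv : ∀ (e : Fin c × (Fin (b ^ M) → W) → Prop) [DecidablePred e],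
      ∑ ω with e ω, p ω = H * μZ.real {x | e (π x)} := by
    intro e _
    simp only [p]
    rw [← Finset.mul_sum, sum_measureReal_preimage_singleton _
      fun ω _ => hπ (measurableSet_singleton ω)]
    congr 2
    ext x
    simp
  have hlaw' : ∀ a, H * μZ.real {x | wd x = a} = 1 / c := by
    intro a
    rw [hμZ, measureReal_restrict_apply' hZ]
    have : {x | wd x = a} ∩ {x | pos x = 0} = {x | wd x = a ∧ pos x = 0} := rfl
    rw [this, Measure.real, hlaw a, ENNReal.toReal_inv, ENNReal.toReal_natCast, hH]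
    push_cast
    field_simp
  have hmass : H * μZ.real univ = 1 := by
    rw [← preimage_univ (f := wd), ← Finset.coe_univ, ← sum_measureReal_preimage_singleton _
      fun a _ => hwd (measurableSet_singleton a), Finset.mul_sum]
    have : ∀ a, H * μZ.real (wd ⁻¹' {a}) = 1 / c := hlaw'
    simp only [this, Finset.sum_const, Finset.card_univ, Fintype.card_fin, nsmul_eq_mul]
    field_simp
  have hZae : ∀ᵐ x ∂μZ, pos x = 0 := ae_restrict_mem hZ
  -- bad blocks
  let bad : ℕ → ℕ → Set X := fun i s =>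
    {x | (fun k : Fin (n * b ^ (i + 1)) => D (ι (T^[s * (n * b ^ (i + 1)) + k] x))) ∉ 𝒢 i}
  have hbad : ∀ i s, MeasurableSet (bad i s) := fun i s =>
    (measurable_pi_lambda _ fun k => hD.comp (hTm _)) (h𝒢c i).measurableSet.compl
  let β : ℕ → ℝ := fun i => ∑ s ∈ Finset.range (b ^ (M - i - 1)), H * μZ.real (bad i s)
  have hβ0 : ∀ i, 0 ≤ β i := fun i => Finset.sum_nonneg fun s _ => by positivity
  have hβ : θ * ∑ i ∈ Finset.range M, (b : ℝ) ^ (i + 1) * β i ≤
      (b : ℝ) ^ M * (dd * Real.log (1 + C ^ 2)) := by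
    have := sum_measureReal_le μZ ((Finset.range M).sigma fun i => Finset.range (b ^ (M - i - 1)))
      ({()} : Finset Unit) (fun z => bad z.1 z.2) (fun _ => univ)
      (fun z => θ * (b : ℝ) ^ (z.1 + 1)) (fun _ => (b : ℝ) ^ M * (dd * Real.log (1 + C ^ 2)))
      (fun z _ => hbad _ _) (fun _ _ => MeasurableSet.univ) (Eventually.of_forall fun x => by
        rw [Finset.sum_singleton, indicator_univ, Finset.sum_sigma]
        refine le_trans (le_of_eq ?_) (h𝒢s (fun k => D (ι (T^[k] x))) fun k => hDn _)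
        rw [Finset.mul_sum]
        refine Finset.sum_congr rfl fun i _ => ?_
        rw [Finset.card_filter, ← mul_assoc]
        push_cast
        rw [Finset.mul_sum]
        refine Finset.sum_congr rfl fun s _ => ?_
        simp only [bad, indicator_apply, mem_ofPred_eq]
        split_ifs <;> simp)
    rw [Finset.sum_singleton, Finset.sum_sigma] at this
    have h2 := mul_le_mul_of_nonneg_left this hHpos.le
    rw [mul_left_comm H, hmass, mul_one] at h2
    refine le_trans (le_of_eq ?_) h2
    simp only [β, Finset.mul_sum]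
    refine Finset.sum_congr rfl fun i _ => Finset.sum_congr rfl fun s _ => by ring
  refine ⟨_, inferInstance, p, Prod.fst, Y,
    (Finset.range M).filter fun i => β i ≤ (b : ℝ) ^ (M - i - 1) / 8,
    fun i => pushW (decAll name n (b ^ (i + 1))) (ν0 i), fun ω => by positivity, fun a => ?_, ?_,
    Finset.filter_subset _ _, ?_, ?_⟩
  · rw [hconv]; exact hlaw' a
  · -- decoding errors
    set Err := toMeasurable μ {x | lab (ι x) ≠ P x} with hErr
    have hErrm : MeasurableSet Err := measurableSet_toMeasurable _ _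
    have h1 : ∀ t ∈ Finset.range (b ^ M),
        (n / 4 : ℝ) * μZ.real {x | Y (π x) t ≠ nm (π x).1 t} ≤
          ∑ k ∈ Finset.range n, μZ.real (T^[t * n + k] ⁻¹' Err) := by
      intro t ht
      have ht' := Finset.mem_range.1 ht
      have := sum_measureReal_le μZ ({()} : Finset Unit) (Finset.range n)
        (fun _ => {x | Y (π x) t ≠ nm (π x).1 t}) (fun k => T^[t * n + k] ⁻¹' Err)
        (fun _ => (n / 4 : ℝ)) (fun _ => 1)
        (fun _ _ => hπ (MeasurableSet.of_discrete (s := {ω | Y ω t ≠ nm ω.1 t})))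
        (fun k _ => hTm _ hErrm) (by
          filter_upwards [hZae] with x hx
          rw [Finset.sum_singleton]
          by_cases h : Y (π x) t ≠ nm (π x).1 t
          · rw [indicator_of_mem (s := {x | Y (π x) t ≠ nm (π x).1 t}) h]
            rw [hY x t ht'] at h
            have h2 : ¬ 4 * (Finset.univ.filter fun k : Fin n =>
                lab (ι (T^[t * n + k] x)) ≠ name (nm (wd x) t) k).card < n :=
              fun h' => h (dec_eq hsep h')
            have h3 : (n / 4 : ℝ) ≤ (Finset.univ.filter fun k : Fin n =>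
                lab (ι (T^[t * n + k] x)) ≠ name (nm (wd x) t) k).card := by
              have : (n : ℝ) ≤ 4 * (Finset.univ.filter fun k : Fin n =>
                lab (ι (T^[t * n + k] x)) ≠ name (nm (wd x) t) k).card := by
                exact_mod_cast not_lt.1 h2
              linarith
            refine h3.trans ?_
            rw [Finset.card_filter, Finset.sum_range]
            push_cast
            refine Finset.sum_le_sum fun k _ => ?_
            split_ifs with hk
            · have hlt : t * n + k < n * b ^ M := blkidx_lt ⟨t, ht'⟩ k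
              obtain ⟨e1, e2⟩ := tower_iter hstep hx _ hlt
              have e3 : P (T^[t * n + k] x) = name (nm (wd x) t) k := by
                rw [hP _ (by rw [e2]; exact hlt), e1, e2, add_comm, Nat.add_mul_div_right _ _ hn,
                  Nat.div_eq_of_lt k.2, zero_add, Nat.add_mul_mod_self_right,
                  Nat.mod_eq_of_lt k.2]
              rw [indicator_of_mem]
              refine subset_toMeasurable μ _ ?_
              show lab (ι (T^[t * n + k] x)) ≠ P (T^[t * n + k] x)
              rwa [e3]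
            · exact indicator_nonneg (fun _ _ => zero_le_one) _
          · rw [indicator_of_notMem (s := {x | Y (π x) t ≠ nm (π x).1 t}) h]
            exact Finset.sum_nonneg fun k _ => indicator_nonneg (fun _ _ => zero_le_one) _)
      simpa only [Finset.sum_singleton, one_mul] using this
    have h2 := rokhlin_le hT hpos hstep (Finset.range (b ^ M) ×ˢ Finset.range n)
      (fun z => z.1 * n + z.2)
      (fun z hz => blkidx_lt ⟨z.1, Finset.mem_range.1 (Finset.mem_product.1 hz).1⟩
        ⟨z.2, Finset.mem_range.1 (Finset.mem_product.1 hz).2⟩)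
      (fun z hz z' hz' h => by
        have a1 := Finset.mem_range.1 (Finset.mem_product.1 (Finset.mem_coe.1 hz)).2
        have a2 := Finset.mem_range.1 (Finset.mem_product.1 (Finset.mem_coe.1 hz')).2
        have a3 : (z.1 * n + z.2) / n = (z'.1 * n + z'.2) / n := congrArg (· / n) h
        rw [add_comm, Nat.add_mul_div_right _ _ hn, Nat.div_eq_of_lt a1, add_comm (z'.1 * n),
          Nat.add_mul_div_right _ _ hn, Nat.div_eq_of_lt a2, zero_add, zero_add] at a3
        have a4 : z.1 * n + z.2 = z'.1 * n + z'.2 := h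
        rw [a3] at a4
        exact Prod.ext a3 (by omega)) Err
    rw [Finset.sum_product] at h2
    have h3 : μ.real Err ≤ 1 / 200 := by
      rw [hErr, Measure.real, measure_toMeasurable]
      exact ENNReal.toReal_le_of_le_ofReal (by norm_num) herr
    have h4 := ((Finset.sum_le_sum h1).trans h2).trans h3
    rw [← Finset.mul_sum] at h4
    simp only [hconv]
    rw [← Finset.mul_sum, hH]
    have hbM : (0 : ℝ) < (b : ℝ) ^ M := by positivity
    nlinarith
  · -- many good scales
    have h1 : ((Finset.range M).filter fun i => ¬ β i ≤ (b : ℝ) ^ (M - i - 1) / 8).card *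
        ((b : ℝ) ^ M / 8) ≤ ∑ i ∈ Finset.range M, (b : ℝ) ^ (i + 1) * β i := by
      rw [← nsmul_eq_mul, ← Finset.sum_const]
      refine le_trans (Finset.sum_le_sum fun i hi => ?_) (Finset.sum_le_sum_of_subset_of_nonneg
        (Finset.filter_subset (fun i => ¬ β i ≤ (b : ℝ) ^ (M - i - 1) / 8) _)
        fun i _ _ => mul_nonneg (by positivity) (hβ0 i))
      obtain ⟨a1, a2⟩ := Finset.mem_filter.1 hi
      have a3 : (b : ℝ) ^ M = b ^ (i + 1) * b ^ (M - i - 1) := by
        rw [← pow_add]; congr 1; have := Finset.mem_range.1 a1; omega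
      rw [a3, mul_div_assoc]
      exact mul_le_mul_of_nonneg_left (not_le.1 a2).le (by positivity)
    have h2 := Finset.card_filter_add_card_filter_not (s := Finset.range M)
      (fun i => β i ≤ (b : ℝ) ^ (M - i - 1) / 8)
    rw [Finset.card_range] at h2
    have hbM : (0 : ℝ) < (b : ℝ) ^ M := by positivity
    have h3 : (2 * ((Finset.range M).filter fun i =>
        ¬ β i ≤ (b : ℝ) ^ (M - i - 1) / 8).card : ℝ) ≤ M := by
      have h4 := (mul_le_mul_of_nonneg_left h1 hθ.le).trans hβ
      have h5 := mul_le_mul_of_nonneg_left hM hbM.le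
      refine le_of_mul_le_mul_left ?_ (mul_pos hθ hbM)
      nlinarith
    have h4 : 2 * ((Finset.range M).filter fun i =>
        ¬ β i ≤ (b : ℝ) ^ (M - i - 1) / 8).card ≤ M := by exact_mod_cast h3
    omega
  · intro i hi
    obtain ⟨hiM, hiβ⟩ := Finset.mem_filter.1 hi
    have hiM' := Finset.mem_range.1 hiM
    refine ⟨Finset.mem_image_of_mem _ (hν0 i), fun B => ?_⟩
    set n' := n * b ^ (i + 1) with hn'
    have hn'pos : 0 < n' := by positivity
    have hsplit : b ^ M = b ^ (i + 1) * b ^ (M - i - 1) := by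
      rw [← pow_add]; congr 1; omega
    have hsplit' : n * b ^ M = n' * b ^ (M - i - 1) := by rw [hsplit, hn', mul_assoc]
    have hHs : H = (n * (b : ℝ) ^ (i + 1)) * b ^ (M - i - 1) := by
      rw [hH, mul_assoc, ← pow_add]; congr 2; omega
    set B' : Finset (Fin n' → Fin q) :=
      Finset.univ.filter fun y => decAll name n (b ^ (i + 1)) y ∈ B with hB'
    set A : Set (E dd) := {x : E dd | (∀ k < n', RegAt G D lab C (ρ i) (G^[k] x)) ∧
          HasRightInv (fun k : Fin n' => D (G^[k] x)) (σ i) ∧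
          (fun k : Fin n' => lab (G^[k] x)) ∈ B'} with hA
    set NR : Set X := {x | ¬ RegAt G D lab C (ρ i) (ι x)} with hNR
    have horb : ∀ᵐ x ∂μZ, ∀ j, ι (T (T^[j] x)) = G (ι (T^[j] x)) := by
      refine ae_restrict_of_ae (ae_all_iff.2 fun j => ?_)
      exact (hT.iterate j).quasiMeasurePreserving.ae hae
    have h1 : ∀ s ∈ Finset.range (b ^ (M - i - 1)),
        μZ.real {x | (fun t : Fin (b ^ (i + 1)) => Y (π x) (s * b ^ (i + 1) + t)) ∈ B} ≤
          μZ.real (bad i s) + ∑ k ∈ Finset.range n', μZ.real (T^[s * n' + k] ⁻¹' NR) +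
            μZ.real (T^[s * n'] ⁻¹' (ι ⁻¹' A)) := by
      intro s hs
      have hs' := Finset.mem_range.1 hs
      refine le_trans (b := μZ.real ((bad i s ∪
        ⋃ k ∈ Finset.range n', T^[s * n' + k] ⁻¹' NR) ∪ T^[s * n'] ⁻¹' (ι ⁻¹' A)))
        (ENNReal.toReal_mono (measure_ne_top _ _) (measure_mono_ae ?_)) ?_
      · filter_upwards [horb] with x hx hxB
        have hxB' : (fun t : Fin (b ^ (i + 1)) => Y (π x) (s * b ^ (i + 1) + t)) ∈ B := hxB
        have hit : ∀ k, G^[k] (ι (T^[s * n'] x)) = ι (T^[s * n' + k] x) := by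
          intro k
          induction k with
          | zero => rfl
          | succ k ih =>
            rw [Function.iterate_succ_apply', ih, ← add_assoc, Function.iterate_succ_apply', hx]
        by_cases a1 : x ∈ bad i s
        · exact Or.inl (Or.inl a1)
        by_cases a2 : x ∈ ⋃ k ∈ Finset.range n', T^[s * n' + k] ⁻¹' NR
        · exact Or.inl (Or.inr a2)
        refine Or.inr ⟨fun k hk => ?_, ?_, ?_⟩
        · rw [hit]
          by_contra a3
          exact a2 (mem_biUnion (Finset.mem_coe.2 (Finset.mem_range.2 hk)) a3)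
        · simp only [hit]
          exact h𝒢r i _ (not_not.1 a1)
        · simp only [hit, hB', Finset.mem_filter, Finset.mem_univ, true_and]
          convert hxB' using 1
          funext t
          have ht : s * b ^ (i + 1) + t < b ^ M := by
            rw [hsplit]; exact blkidx_lt ⟨s, hs'⟩ t
          rw [hY x _ ht]
          simp only [decAll, Yx]
          congr 1
          funext k
          congr 3
          rw [hn']; ring
      · refine (measureReal_union_le _ _).trans (add_le_add_left ?_ _)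
        exact (measureReal_union_le _ _).trans
          (add_le_add_right (measureReal_biUnion_finset_le _ _) _)
    have h2 := rokhlin_le hT hpos hstep (Finset.range (b ^ (M - i - 1)) ×ˢ Finset.range n')
      (fun z => z.1 * n' + z.2)
      (fun z hz => by
        rw [hsplit']
        exact blkidx_lt ⟨z.1, Finset.mem_range.1 (Finset.mem_product.1 hz).1⟩
          ⟨z.2, Finset.mem_range.1 (Finset.mem_product.1 hz).2⟩)
      (fun z hz z' hz' h => by
        have a1 := Finset.mem_range.1 (Finset.mem_product.1 (Finset.mem_coe.1 hz)).2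
        have a2 := Finset.mem_range.1 (Finset.mem_product.1 (Finset.mem_coe.1 hz')).2
        have a3 : (z.1 * n' + z.2) / n' = (z'.1 * n' + z'.2) / n' := congrArg (· / n') h
        rw [add_comm, Nat.add_mul_div_right _ _ hn'pos, Nat.div_eq_of_lt a1, add_comm (z'.1 * n'),
          Nat.add_mul_div_right _ _ hn'pos, Nat.div_eq_of_lt a2, zero_add, zero_add] at a3
        have a4 : z.1 * n' + z.2 = z'.1 * n' + z'.2 := h
        rw [a3] at a4
        exact Prod.ext a3 (by omega)) NR
    rw [Finset.sum_product] at h2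
    have h3 := rokhlin_le hT hpos hstep (Finset.range (b ^ (M - i - 1))) (fun s => s * n')
      (fun s hs => by
        rw [hsplit', mul_comm n']
        exact Nat.mul_lt_mul_of_pos_right (Finset.mem_range.1 hs) hn'pos)
      (fun s _ s' _ h => Nat.eq_of_mul_eq_mul_right hn'pos h) (ι ⁻¹' A)
    have h4 : μ.real NR ≤ C * √(ρ i) :=
      ENNReal.toReal_le_of_le_ofReal (by positivity) (hreg _ (hρ i).1 (hρ i).2.1)
    have hsum0 : 0 ≤ ∑ y ∈ B', ν0 i y := Finset.sum_nonneg fun y _ => h𝓕 i _ (hν0 i) y
    have h5 : μ.real (ι ⁻¹' A) ≤ C * (CT * ∑ y ∈ B', ν0 i y) := by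
      refine ENNReal.toReal_le_of_le_ofReal (by positivity) ?_
      calc μ (ι ⁻¹' A) ≤ μ (ι ⁻¹' toMeasurable volume A) :=
            measure_mono (preimage_mono (subset_toMeasurable _ _))
        _ ≤ ENNReal.ofReal C * volume (toMeasurable volume A) :=
            hdens _ (measurableSet_toMeasurable _ _)
        _ ≤ ENNReal.ofReal C * ENNReal.ofReal (CT * ∑ y ∈ B', ν0 i y) := by
            rw [measure_toMeasurable]
            gcongr
            exact hν0' i B'
        _ = _ := (ENNReal.ofReal_mul hC).symm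
    have h6 := Finset.sum_le_sum h1
    rw [Finset.sum_add_distrib, Finset.sum_add_distrib] at h6
    simp only [hconv]
    rw [← Finset.mul_sum, sum_pushW, ← hB']
    have h7 : H * ∑ s ∈ Finset.range (b ^ (M - i - 1)), μZ.real (bad i s) ≤
        (b : ℝ) ^ (M - i - 1) / 8 := by
      rw [Finset.mul_sum]; exact hiβ
    have h8 := mul_le_mul_of_nonneg_left h6 hHpos.le
    have h9 := mul_le_mul_of_nonneg_left (h2.trans h4) hHpos.le
    have h10 := mul_le_mul_of_nonneg_left (h3.trans h5) hHpos.le
    have h11 : H * (C * √(ρ i)) ≤ (b : ℝ) ^ (M - i - 1) / 8 := by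
      have := mul_le_mul_of_nonneg_left (hρ i).2.2 (by positivity : (0 : ℝ) ≤ b ^ (M - i - 1))
      rw [hHs]; linarith
    have h12 : H * (C * (CT * ∑ y ∈ B', ν0 i y)) =
        (b : ℝ) ^ (M - i - 1) * ((n * (b : ℝ) ^ (i + 1) * C * CT) * ∑ y ∈ B', ν0 i y) := by
      rw [hHs]; ring
    rw [mul_add, mul_add] at h8
    rw [mul_add]
    linarith

end Crest.Agent.R133
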