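import Crest.Agent.R133.TubeLocal

/-! Row 133: on the well conditioned set the law of the names is dominated by one of few laws. -/

set_option autoImplicit false

open MeasureTheory Set Metric Filter Crest.AnalysisR
open scoped ENNReal Topology

namespace Crest.Agent.R133

namespace TubeAux

theorem exists_grid (d κ : ℕ) {R ε : ℝ} (hε : 0 < ε) (hR : 0 ≤ R)
    (hκ : 2 * R * (d + 1) / ε < κ) :
    ∃ (idx : E d → (Fin d → Fin κ)) (pt : (Fin d → Fin κ) → E d), Measurable idx ∧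
      ∀ w, ‖w‖ ≤ R → ‖w - pt (idx w)‖ ≤ ε := by
  have hκ0 : 0 < κ := by
    have : (0 : ℝ) < κ := lt_of_le_of_lt (by positivity) hκ
    exact_mod_cast this
  set η := ε / (d + 1) with hη
  have hη0 : 0 < η := by positivity
  let cl : ℕ → Fin κ := fun j => ⟨min j (κ - 1), by omega⟩
  refine ⟨fun w i => cl ⌊(w i + R) / η⌋₊, fun j => WithLp.toLp 2 fun i => (j i : ℕ) * η - R,
    measurable_pi_lambda _ fun i => (measurable_from_nat (f := cl)).comp
      (Nat.measurable_floor.comp (by fun_prop)), fun w hw => ?_⟩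
  have h1 : ∀ i, |w i - ((cl ⌊(w i + R) / η⌋₊ : ℕ) * η - R)| ≤ η := by
    intro i
    have h2 := abs_le.1 ((PiLp.norm_apply_le w i).trans hw)
    have h3 : 0 ≤ (w i + R) / η := div_nonneg (by linarith [h2.1]) hη0.le
    have h4 : (w i + R) / η < κ := by
      refine lt_of_le_of_lt ?_ hκ
      rw [hη, div_div_eq_mul_div]
      exact div_le_div_of_nonneg_right
        (mul_le_mul_of_nonneg_right (by linarith [h2.2]) (by positivity)) hε.le
    have h5 : (cl ⌊(w i + R) / η⌋₊ : ℕ) = ⌊(w i + R) / η⌋₊ := by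
      have := (Nat.floor_lt h3).2 h4
      exact min_eq_left (by omega)
    have h6 := Nat.floor_le h3
    have h7 := Nat.lt_floor_add_one ((w i + R) / η)
    rw [le_div_iff₀ hη0] at h6
    rw [div_lt_iff₀ hη0] at h7
    rw [h5, abs_le]
    constructor <;> linarith
  rw [EuclideanSpace.norm_eq]
  refine Real.sqrt_le_iff.2 ⟨hε.le, ?_⟩
  calc _ ≤ ∑ _i : Fin d, η ^ 2 := Finset.sum_le_sum fun i _ =>
        pow_le_pow_left₀ (norm_nonneg _) (h1 i) 2
    _ = d * η ^ 2 := by simp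
    _ ≤ (d + 1) ^ 2 * η ^ 2 := mul_le_mul_of_nonneg_right
        (by have : (0 : ℝ) ≤ d := Nat.cast_nonneg d; nlinarith) (sq_nonneg _)
    _ = ε ^ 2 := by rw [hη]; field_simp

/-- pseudo-orbits of `g` starting in a ball -/
def PO {d : ℕ} (n : ℕ) (g : E d → E d) (R δ : ℝ) : Set (Fin (n + 1) → E d) :=
  {w | ‖w 0‖ ≤ R ∧ ∀ k : Fin n, ‖w k.succ - g (w k.castSucc)‖ ≤ δ}

theorem PO_eq {d : ℕ} (n : ℕ) (g : E d → E d) (R δ : ℝ) : PO n g R δ =
    (fun w : Fin (n + 1) → E d => (w 0, fun k : Fin n => w k.succ - g (w k.castSucc))) ⁻¹'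
      (closedBall 0 R ×ˢ Set.pi univ fun _ => closedBall 0 δ) := by
  ext w
  simp [PO]

theorem measurableSet_box {d : ℕ} (n : ℕ) (R δ : ℝ) : MeasurableSet
    (closedBall (0 : E d) R ×ˢ Set.pi univ fun _ : Fin n => closedBall (0 : E d) δ) :=
  measurableSet_closedBall.prod (MeasurableSet.univ_pi fun _ => measurableSet_closedBall)

theorem measurableSet_PO {d : ℕ} (n : ℕ) {g : E d → E d} (hg : Measurable g) (R δ : ℝ) :
    MeasurableSet (PO n g R δ) := by
  rw [PO_eq]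
  exact (measurePreserving_triangular (fun _ => g) fun _ => hg).measurable
    (measurableSet_box n R δ)

theorem volume_PO {d : ℕ} (n : ℕ) {g : E d → E d} (hg : Measurable g) (R δ : ℝ) :
    volume (PO n g R δ) = volume (closedBall (0 : E d) R) * volume (closedBall (0 : E d) δ) ^ n := by
  rw [PO_eq, (measurePreserving_triangular (fun _ => g) fun _ => hg).measure_preimage
    (measurableSet_box n R δ).nullMeasurableSet, Measure.prod_prod, volume_pi_pi]
  simp

theorem volume_pow_le (d n : ℕ) {δ δ' : ℝ} (hδ : 0 < δ)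
    (h : δ * (1 - 1 / (2 * ((d * n : ℕ) + 1))) ≤ δ') :
    volume (closedBall (0 : E d) δ) ^ n ≤ 2 * volume (closedBall (0 : E d) δ') ^ n := by
  have hm : (0 : ℝ) ≤ (d * n : ℕ) := Nat.cast_nonneg _
  have h1 : 1 / (2 * (((d * n : ℕ) : ℝ) + 1)) ≤ 1 / 2 :=
    one_div_le_one_div_of_le (by norm_num) (by linarith)
  have h2 : 0 ≤ 1 - 1 / (2 * (((d * n : ℕ) : ℝ) + 1)) := by linarith
  have hδ' : 0 ≤ δ' := (mul_nonneg hδ.le h2).trans h
  have h3 := one_add_mul_le_pow (a := -(1 / (2 * (((d * n : ℕ) : ℝ) + 1)))) (by linarith) (d * n)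
  have h4 : (1 : ℝ) / 2 ≤ 1 + (d * n : ℕ) * -(1 / (2 * (((d * n : ℕ) : ℝ) + 1))) := by
    have : ((d * n : ℕ) : ℝ) * (1 / (2 * (((d * n : ℕ) : ℝ) + 1))) ≤ 1 / 2 := by
      rw [mul_one_div, div_le_div_iff₀ (by positivity) (by norm_num)]
      linarith
    linarith
  have h5 : δ ^ (d * n) ≤ 2 * δ' ^ (d * n) := by
    have h6 := pow_le_pow_left₀ (mul_nonneg hδ.le h2) h (d * n)
    rw [mul_pow, sub_eq_add_neg] at h6
    have h7 := mul_le_mul_of_nonneg_left (h4.trans h3) (pow_pos hδ (d * n)).le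
    linarith
  rw [Measure.addHaar_closedBall _ _ hδ.le, Measure.addHaar_closedBall _ _ hδ', mul_pow, mul_pow,
    ← mul_assoc, finrank_euclideanSpace_fin, ← ENNReal.ofReal_pow (by positivity),
    ← ENNReal.ofReal_pow (by positivity), ← pow_mul, ← pow_mul]
  refine mul_le_mul_left ?_ _
  rw [← ENNReal.ofReal_ofNat 2, ← ENNReal.ofReal_mul (by norm_num)]
  exact ENNReal.ofReal_le_ofReal h5

/-- Vitali covering in the space of orbits -/
theorem vitali {X Y : Type*} [MeasurableSpace X] [PseudoMetricSpace Y] [MeasurableSpace Y]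
    [OpensMeasurableSpace Y] [TopologicalSpace.SeparableSpace Y] (μ : Measure X) (ν : Measure Y)
    (A : Set X) (orb : X → Y) {r : ℝ} (hr : 0 < r) {a b : ℝ≥0∞} {Z : Set Y} (hZ : MeasurableSet Z)
    (h : ∀ x ∈ A, μ {y | orb y ∈ closedBall (orb x) (5 * r)} * a ≤
      b * ν (closedBall (orb x) r ∩ Z)) : μ A * a ≤ b * ν Z := by
  obtain ⟨u, hu, hd, hc⟩ := Vitali.exists_disjoint_subfamily_covering_enlargement_closedBall A orb
    (fun _ => r) r (fun _ _ => le_rfl) 5 (by norm_num)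
  have hcount : u.Countable := hd.countable_of_nonempty_interior fun x _ =>
    ⟨orb x, ball_subset_interior_closedBall (mem_ball_self hr)⟩
  have h1 : A ⊆ ⋃ x ∈ u, {y | orb y ∈ closedBall (orb x) (5 * r)} := fun x hx => by
    obtain ⟨b, hb, h2⟩ := hc x hx
    exact mem_biUnion hb (h2 (mem_closedBall_self hr.le))
  calc μ A * a ≤ (∑' x : u, μ {y | orb y ∈ closedBall (orb x) (5 * r)}) * a :=
        mul_le_mul_left ((measure_mono h1).trans (measure_biUnion_le μ hcount _)) _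
    _ ≤ ∑' x : u, b * ν (closedBall (orb x) r ∩ Z) := by
        rw [← ENNReal.tsum_mul_right]
        exact ENNReal.tsum_le_tsum fun x => h x (hu x.2)
    _ = b * ν (⋃ x ∈ u, closedBall (orb x) r ∩ Z) := by
        rw [ENNReal.tsum_mul_left, measure_biUnion hcount
          (hd.mono fun x => inter_subset_left) fun x _ => measurableSet_closedBall.inter hZ]
    _ ≤ b * ν Z := mul_le_mul_right
        (measure_mono (iUnion₂_subset fun _ _ => inter_subset_right)) _

theorem lip_of_regAt {d q : ℕ} {G : E d → E d} {D : E d → E d →L[ℝ] E d} {lab : E d → Fin q}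
    {C ρ : ℝ} {x : E d} (hC : 1 ≤ C) (hρ1 : ρ ≤ 1) (hD : ‖D x‖ ≤ C) (h : RegAt G D lab C ρ x)
    {u v : E d} (hu : u ∈ ball x ρ) (hv : v ∈ ball x ρ) : ‖G u - G v‖ ≤ 2 * C * ‖u - v‖ := by
  have h1 := h.2.2.1 u hu v hv
  have h2 : ‖D x (u - v)‖ ≤ C * ‖u - v‖ :=
    ((D x).le_opNorm _).trans (mul_le_mul_of_nonneg_right hD (norm_nonneg _))
  have h3 := norm_add_le (G u - G v - D x (u - v)) (D x (u - v))
  rw [sub_add_cancel] at h3
  have h4 : C * ρ * ‖u - v‖ ≤ C * ‖u - v‖ :=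
    mul_le_mul_of_nonneg_right (mul_le_of_le_one_right (by linarith) hρ1) (norm_nonneg _)
  linarith

end TubeAux

open TubeAux in
theorem tube (d q : ℕ) (C : ℝ) (hC : 1 ≤ C) :
    ∃ CT : ℝ, 0 ≤ CT ∧ ∀ (n κ : ℕ) (ρ σ : ℝ), 0 < n → 0 < ρ → ρ ≤ 1 → 1 ≤ σ →
      σ * C * ρ * (d * (n + 1) + 1) ≤ 1 / 10 →
      10 ^ 4 * C ^ 2 * (d + 1) ^ 2 * (n + 1) * σ / ρ ≤ κ →
      ∃ 𝓕 : Finset ((Fin n → Fin q) → ℝ), 𝓕.card ≤ (q * κ ^ d) ^ (κ ^ d) ∧
        (∀ ν ∈ 𝓕, (∀ y, 0 ≤ ν y) ∧ ∑ y, ν y ≤ 1) ∧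
        ∀ (G : E d → E d) (D : E d → E d →L[ℝ] E d) (lab : E d → Fin q), (∀ x, ‖D x‖ ≤ C) →
          ∃ ν ∈ 𝓕, ∀ B : Finset (Fin n → Fin q),
            volume {x : E d | (∀ k < n, RegAt G D lab C ρ (G^[k] x)) ∧
              HasRightInv (fun k : Fin n => D (G^[k] x)) σ ∧
              (fun k : Fin n => lab (G^[k] x)) ∈ B} ≤
            ENNReal.ofReal (CT * ∑ y ∈ B, ν y) := by
  classical
  refine ⟨8 * 32 ^ d * volume.real (closedBall (0 : E d) (3 * C)), by positivity,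
    fun n κ ρ σ hn hρ hρ1 hσ hsmall hκ => ?_⟩
  have hC0 : 0 < C := by linarith
  have hσ0 : 0 < σ := by linarith
  obtain ⟨δ, hδ⟩ : ∃ δ, δ = ρ / (40 * σ) := ⟨_, rfl⟩
  obtain ⟨ε, hε⟩ : ∃ ε, ε = δ / (6 * C * ((d * n : ℕ) + 1)) := ⟨_, rfl⟩
  have hδ0 : 0 < δ := by rw [hδ]; positivity
  have hε0 : 0 < ε := by rw [hε]; positivity
  have hm : (0 : ℝ) ≤ (d * n : ℕ) := Nat.cast_nonneg _
  have hσδ : σ * δ = ρ / 40 := by rw [hδ]; field_simp
  have hδρ : δ ≤ ρ / 40 := by nlinarith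
  have hε1 : 3 * C * ε = δ / (2 * ((d * n : ℕ) + 1)) := by rw [hε]; field_simp; norm_num
  have hε2 : 3 * C * ε ≤ δ / 2 := by
    rw [hε1]; exact div_le_div_of_nonneg_left hδ0.le (by norm_num) (by linarith)
  have hε3 : ε ≤ C * ε := le_mul_of_one_le_left hε0.le hC
  obtain ⟨idx, pt, hidx, hpt⟩ := exists_grid d κ hε0 (R := 3 * C) (by positivity) (by
    refine lt_of_lt_of_le ?_ hκ
    have e1 : 2 * (3 * C) * (d + 1) / ε =
        1440 * (C ^ 2 * (d + 1) * σ / ρ) * ((d * n : ℕ) + 1) := by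
      rw [hε, hδ]; field_simp; norm_num
    have e2 : 10 ^ 4 * C ^ 2 * (d + 1) ^ 2 * (n + 1) * σ / ρ =
        10 ^ 4 * (C ^ 2 * (d + 1) * σ / ρ) * ((d + 1) * (n + 1)) := by ring
    have h1 : (((d * n : ℕ) : ℝ) + 1) ≤ (d + 1) * (n + 1) := by
      have : (0 : ℝ) ≤ d := Nat.cast_nonneg _
      have : (0 : ℝ) ≤ n := Nat.cast_nonneg _
      push_cast
      nlinarith
    have h2 : 0 < C ^ 2 * (d + 1) * σ / ρ := by positivity
    rw [e1, e2]
    nlinarith [mul_pos h2 (show 0 < ((d * n : ℕ) : ℝ) + 1 by positivity),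
      mul_le_mul_of_nonneg_left h1 h2.le])
  have hg : ∀ a : (Fin d → Fin κ) → (Fin d → Fin κ), Measurable fun w => pt (a (idx w)) :=
    fun a => (measurable_of_countable fun j => pt (a j)).comp hidx
  let nm : ((Fin d → Fin κ) → Fin q) → (Fin (n + 1) → E d) → Fin n → Fin q :=
    fun l w k => l (idx (w k.castSucc))
  have hnm : ∀ l, Measurable (nm l) := fun l => measurable_pi_lambda _ fun k =>
    (measurable_of_countable l).comp (hidx.comp (measurable_pi_apply _))
  let μ : ((Fin d → Fin κ) → (Fin d → Fin κ)) → Measure (Fin (n + 1) → E d) :=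
    fun a => volume.restrict (PO n (fun w => pt (a (idx w))) (3 * C) δ)
  set V₀ := volume (closedBall (0 : E d) (3 * C)) with hV₀
  set V₁ := volume (closedBall (0 : E d) δ) ^ n with hV₁
  have hV₀0 : V₀ ≠ 0 := (measure_closedBall_pos _ _ (by positivity)).ne'
  have hV₁0 : V₁ ≠ 0 := pow_ne_zero _ (measure_closedBall_pos _ _ hδ0).ne'
  have hV₀t : V₀ ≠ ⊤ := measure_closedBall_lt_top.ne
  have hV₁t : V₁ ≠ ⊤ := ENNReal.pow_ne_top measure_closedBall_lt_top.ne
  have hV₀p : 0 < V₀.toReal := ENNReal.toReal_pos hV₀0 hV₀t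
  have hV₁p : 0 < V₁.toReal := ENNReal.toReal_pos hV₁0 hV₁t
  have hμ : ∀ a, μ a univ = V₀ * V₁ := fun a => by
    rw [Measure.restrict_apply_univ, volume_PO n (hg a)]
  have hμt : ∀ a s, μ a s ≠ ⊤ := fun a s =>
    ne_top_of_le_ne_top (hμ a ▸ ENNReal.mul_ne_top hV₀t hV₁t) (measure_mono (subset_univ s))
  let ν : ((Fin d → Fin κ) → (Fin d → Fin κ)) × ((Fin d → Fin κ) → Fin q) →
      (Fin n → Fin q) → ℝ := fun p y => (μ p.1).real (nm p.2 ⁻¹' {y}) / (V₀.toReal * V₁.toReal)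
  have hν : ∀ p (B : Finset (Fin n → Fin q)),
      ∑ y ∈ B, ν p y = (μ p.1).real (nm p.2 ⁻¹' B) / (V₀.toReal * V₁.toReal) := fun p B => by
    rw [← Finset.sum_div, sum_measureReal_preimage_singleton B
      (fun y _ => hnm p.2 (measurableSet_singleton y)) fun y _ => hμt _ _]
  refine ⟨Finset.univ.image ν, Finset.card_image_le.trans_eq ?_, fun ν' hν' => ?_,
    fun G D lab hD => ⟨ν (fun j => idx (G (pt j)), fun j => lab (pt j)),
      Finset.mem_image_of_mem _ (Finset.mem_univ _), fun B => ?_⟩⟩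
  · simp [mul_pow, mul_comm]
  · obtain ⟨p, -, rfl⟩ := Finset.mem_image.1 hν'
    refine ⟨fun y => by positivity, ?_⟩
    rw [hν, div_le_one (by positivity), Finset.coe_univ, preimage_univ, Measure.real, hμ,
      ENNReal.toReal_mul]
  have hδ'0 : 0 < δ - (1 + 2 * C) * ε := by nlinarith
  have hZ : MeasurableSet (nm (fun j => lab (pt j)) ⁻¹' B ∩
      PO n (fun w => pt (idx (G (pt (idx w))))) (3 * C) δ) :=
    (hnm (fun j => lab (pt j)) B.measurableSet).inter
      (measurableSet_PO n (hg fun j => idx (G (pt j))) (3 * C) δ)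
  have key := vitali volume volume {x : E d | (∀ k < n, RegAt G D lab C ρ (G^[k] x)) ∧
      HasRightInv (fun k : Fin n => D (G^[k] x)) σ ∧ (fun k : Fin n => lab (G^[k] x)) ∈ B}
    (fun x (k : Fin (n + 1)) => G^[k] x) (r := ρ / 10) (by positivity)
    (a := volume (closedBall (0 : E d) (δ - (1 + 2 * C) * ε)) ^ n) (b := 4 * 32 ^ d) hZ (by
      rintro x ⟨hreg, hR, hB⟩
      refine le_trans (mul_le_mul_left (measure_mono fun y hy k hk => ?_) _)
        ((tube_local hC hρ hρ1 hσ hsmall hδ'0 (by nlinarith) G _ x (fun k => hD _)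
          (fun k => (hreg k k.2).2.2.1) hR).trans
        (mul_le_mul_right (measure_mono fun w hw => ?_) _))
      · have := (dist_le_pi_dist _ _ (⟨k, Nat.lt_succ_of_le hk⟩ : Fin (n + 1))).trans
          (mem_closedBall.1 hy)
        rw [dist_eq_norm] at this
        exact this.trans_eq (by ring)
      obtain ⟨hw1, hw2⟩ := hw
      have h1 : ∀ k : Fin n, ‖w k.castSucc - G^[k] x‖ ≤ ρ / 10 := fun k => hw1 k.castSucc
      have h2 : ∀ k : Fin n, ‖w k.castSucc‖ ≤ 3 * C := fun k => by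
        have := norm_add_le (w k.castSucc - G^[k] x) (G^[k] x)
        rw [sub_add_cancel] at this
        linarith [h1 k, (hreg k k.2).1]
      have h3 : ∀ k : Fin n, w k.castSucc ∈ ball (G^[k] x) ρ := fun k =>
        mem_ball_iff_norm.2 (by linarith [h1 k])
      have h4 : ∀ k : Fin n, pt (idx (w k.castSucc)) ∈ ball (G^[k] x) ρ := fun k => by
        have := norm_sub_le_norm_sub_add_norm_sub (pt (idx (w k.castSucc))) (w k.castSucc)
          (G^[k] x)
        rw [norm_sub_rev (pt _) (w _)] at this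
        exact mem_ball_iff_norm.2 (by linarith [h1 k, hpt _ (h2 k)])
      refine ⟨mem_closedBall.2 ((dist_pi_le_iff (by positivity)).2 fun k => ?_), ?_,
        h2 ⟨0, hn⟩, fun k => ?_⟩
      · rw [dist_eq_norm]; exact hw1 k
      · have : nm (fun j => lab (pt j)) w = fun k : Fin n => lab (G^[k] x) :=
          funext fun k => (hreg k k.2).2.2.2 _ (h4 k)
        rw [mem_preimage, this]
        exact hB
      · have h5 := lip_of_regAt hC hρ1 (hD _) (hreg k k.2) (h3 k) (h4 k)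
        have h6 := lip_of_regAt hC hρ1 (hD _) (hreg k k.2) (h4 k) (mem_ball_self hρ)
        have h7 : ‖G (pt (idx (w k.castSucc)))‖ ≤ 3 * C := by
          have := norm_add_le (G (pt (idx (w k.castSucc))) - G (G^[k] x)) (G (G^[k] x))
          rw [sub_add_cancel] at this
          have h8 := mul_le_mul_of_nonneg_left ((mem_ball_iff_norm.1 (h4 k)).le.trans hρ1)
            (show 0 ≤ 2 * C by positivity)
          linarith [(hreg k k.2).2.1]
        have h8 := mul_le_mul_of_nonneg_left (hpt _ (h2 k)) (show 0 ≤ 2 * C by positivity)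
        have t1 := norm_sub_le_norm_sub_add_norm_sub (w k.succ) (G (w k.castSucc))
          (pt (idx (G (pt (idx (w k.castSucc))))))
        have t2 := norm_sub_le_norm_sub_add_norm_sub (G (w k.castSucc))
          (G (pt (idx (w k.castSucc)))) (pt (idx (G (pt (idx (w k.castSucc))))))
        linarith [hw2 k, hpt _ h7])
  have h2 := volume_pow_le d n hδ0 (δ' := δ - (1 + 2 * C) * ε) (by
    rw [mul_sub, mul_one, mul_one_div, ← hε1]; linarith)
  rw [← Measure.restrict_apply (hnm (fun j => lab (pt j)) B.measurableSet)] at key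
  have h3 := (mul_le_mul_right h2 _).trans
    ((mul_left_comm _ _ _).trans_le (mul_le_mul_right key 2))
  rw [← ENNReal.le_div_iff_mul_le (Or.inl hV₁0) (Or.inl hV₁t)] at h3
  refine h3.trans_eq ?_
  rw [hν, ← ENNReal.ofReal_toReal (a := _ / V₁) (ENNReal.div_ne_top
    (ENNReal.mul_ne_top (by simp) (ENNReal.mul_ne_top (ENNReal.mul_ne_top (by simp) (by simp))
      (hμt (fun j => idx (G (pt j))) _))) hV₁0)]
  congr 1
  simp only [ENNReal.toReal_div, ENNReal.toReal_mul, ENNReal.toReal_pow, ENNReal.toReal_ofNat,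
    Measure.real, μ, ← hV₀]
  field_simp
  ring

end Crest.Agent.R133
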