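import Crest.Agent.R133.Gram
import Crest.Agent.R133.Tube
import Crest.Agent.R133.Outer
import Crest.Agent.R133.Inner
import Crest.Agent.R133.StageCore

/-! Row 133: one stage of the construction. -/

set_option autoImplicit false

open MeasureTheory Set Metric Filter Crest.AnalysisR
open scoped ENNReal Topology

namespace Crest.Agent.R133

theorem exists_sq_le_exp (a : ℝ) (ha : 0 ≤ a) :
    ∃ u0 : ℕ, ∀ u : ℝ, u0 ≤ u → a * u ^ 2 ≤ Real.exp u := by
  obtain ⟨u0, hu0⟩ := exists_nat_ge (6 * a)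
  refine ⟨u0, fun u hu => ?_⟩
  have h0 : 0 ≤ u := (Nat.cast_nonneg u0).trans hu
  have h1 := Real.pow_div_factorial_le_exp u h0 3
  have h2 : ((Nat.factorial 3 : ℕ) : ℝ) = 6 := by norm_num [Nat.factorial]
  rw [h2] at h1
  have h3 : a * u ^ 2 ≤ u / 6 * u ^ 2 := by gcongr; linarith
  calc a * u ^ 2 ≤ u / 6 * u ^ 2 := h3
    _ = u ^ 3 / 6 := by ring
    _ ≤ _ := h1

theorem exists_lin_le_two_pow (a : ℝ) (ha : 0 ≤ a) :
    ∃ g0 : ℕ, ∀ v : ℕ, g0 ≤ v → a * v ≤ 2 ^ v := by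
  obtain ⟨g0, hg0⟩ := exists_nat_ge (8 * a)
  refine ⟨g0, fun v hv => ?_⟩
  have hv' : 8 * a ≤ v := hg0.trans (by exact_mod_cast hv)
  have h0 : (0 : ℝ) ≤ v := Nat.cast_nonneg v
  have h1 : (2 : ℝ) ^ v = Real.exp (v * Real.log 2) := by
    rw [Real.exp_nat_mul, Real.exp_log (by norm_num)]
  have h2 : Real.exp (v / 2) ≤ Real.exp (v * Real.log 2) := by
    refine Real.exp_le_exp.2 ?_
    have := Real.log_two_gt_d9
    nlinarith
  have h3 := Real.quadratic_le_exp_of_nonneg (x := (v : ℝ) / 2) (by positivity)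
  rw [h1]
  nlinarith

theorem scale_params (dd n' : ℕ) (C u σ : ℝ) (hdd : 1 ≤ dd) (hn' : 0 < n') (hC : 1 ≤ C)
    (hu : 3 ≤ u) (ha : 10 ^ 5 * C ^ 2 * (dd + 1) ^ 2 * (n' : ℝ) ^ 2 ≤ Real.exp u)
    (hσ0 : 0 ≤ σ) (hσ : σ ≤ 2 * n' * Real.exp u) :
    n' * (C * √(Real.exp (-(4 * u)))) ≤ 1 / 8 ∧
    σ * C * Real.exp (-(4 * u)) * (dd * (n' + 1) + 1) ≤ 1 / 10 ∧
    ∃ κ : ℕ, 10 ^ 4 * C ^ 2 * (dd + 1) ^ 2 * (n' + 1) * σ / Real.exp (-(4 * u)) ≤ κ ∧
      (((2 ^ 8 * κ ^ dd) ^ (κ ^ dd) : ℕ) : ℝ) ≤ Real.exp (Real.exp (8 * dd * u)) := by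
  have hn1 : (1 : ℝ) ≤ n' := by exact_mod_cast hn'
  have hd1 : (1 : ℝ) ≤ dd := by exact_mod_cast hdd
  set e := Real.exp u with he
  have he0 : 0 < e := Real.exp_pos u
  have he4 : 4 ≤ e := by have := Real.add_one_le_exp u; linarith
  have hexp : ∀ k : ℕ, Real.exp (k * u) = e ^ k := fun k => Real.exp_nat_mul u k
  have h4 : Real.exp (-(4 * u)) = (e ^ 4)⁻¹ := by
    rw [Real.exp_neg, ← hexp 4]; norm_num
  have hX : 1 ≤ C * (dd + 1) * n' := by
    have : 1 ≤ C * (dd + 1) := by nlinarith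
    nlinarith
  have ha' : 10 ^ 5 * (C * (dd + 1) * n') ^ 2 ≤ e := by
    refine le_trans (le_of_eq ?_) ha; ring
  refine ⟨?_, ?_, ?_⟩
  · have : √(Real.exp (-(4 * u))) = (e ^ 2)⁻¹ := by
      rw [h4, show (e ^ 4)⁻¹ = ((e ^ 2)⁻¹) ^ 2 by field_simp, Real.sqrt_sq (by positivity)]
    rw [this, ← mul_assoc, ← div_eq_mul_inv, div_le_div_iff₀ (by positivity) (by norm_num)]
    have h1 : n' * C ≤ C * (dd + 1) * n' := by nlinarith
    nlinarith
  · have h1 : (dd * (n' + 1) + 1 : ℝ) ≤ 2 * ((dd + 1) * n') := by nlinarith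
    have h2 : σ * C * Real.exp (-(4 * u)) * (dd * (n' + 1) + 1) ≤
        (2 * n' * e) * C * (e ^ 4)⁻¹ * (2 * ((dd + 1) * n')) := by
      rw [h4]; gcongr
    refine h2.trans ?_
    have h3 : (2 * n' * e) * C * (e ^ 4)⁻¹ * (2 * ((dd + 1) * n')) =
        4 * n' * (C * (dd + 1) * n') / e ^ 3 := by field_simp; ring
    rw [h3, div_le_div_iff₀ (by positivity) (by norm_num)]
    have h5 : (n' : ℝ) ≤ C * (dd + 1) * n' := by
      have : 1 ≤ C * (dd + 1) := by nlinarith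
      nlinarith
    have h6 : e ≤ e ^ 3 := by
      have : 1 ≤ e ^ 2 := by nlinarith
      nlinarith
    nlinarith
  · refine ⟨⌈10 ^ 4 * C ^ 2 * (dd + 1) ^ 2 * (n' + 1) * σ / Real.exp (-(4 * u))⌉₊,
      Nat.le_ceil _, ?_⟩
    set κ := ⌈10 ^ 4 * C ^ 2 * (dd + 1) ^ 2 * (n' + 1) * σ / Real.exp (-(4 * u))⌉₊ with hκ
    have h1 : (κ : ℝ) ≤ e ^ 6 := by
      have h2 := (Nat.ceil_lt_add_one (a := 10 ^ 4 * C ^ 2 * (dd + 1) ^ 2 * (n' + 1) * σ /
        Real.exp (-(4 * u))) (by positivity)).le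
      rw [← hκ] at h2
      have h3 : 10 ^ 4 * C ^ 2 * (dd + 1) ^ 2 * (n' + 1) * σ / Real.exp (-(4 * u)) ≤
          10 ^ 4 * C ^ 2 * (dd + 1) ^ 2 * (2 * n') * (2 * n' * e) / (e ^ 4)⁻¹ := by
        rw [h4]; gcongr; linarith
      have h5 : 10 ^ 4 * C ^ 2 * (dd + 1) ^ 2 * (2 * n') * (2 * n' * e) / (e ^ 4)⁻¹ =
          2 / 5 * (10 ^ 5 * (C * (dd + 1) * n') ^ 2) * e ^ 5 := by field_simp; ring
      have h6 : 2 / 5 * (10 ^ 5 * (C * (dd + 1) * n') ^ 2) * e ^ 5 ≤ 2 / 5 * e * e ^ 5 := by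
        gcongr
      have h7 : 2 ≤ e ^ 6 := by
        have : e ≤ e ^ 6 := le_self_pow₀ (by linarith) (by norm_num)
        linarith
      have h8 : 2 / 5 * e * e ^ 5 = 2 / 5 * e ^ 6 := by ring
      linarith
    have h2 : ((κ ^ dd : ℕ) : ℝ) ≤ Real.exp (6 * (dd * u)) := by
      push_cast
      calc (κ : ℝ) ^ dd ≤ (e ^ 6) ^ dd := by gcongr
        _ = _ := by rw [← pow_mul, ← hexp]; push_cast; congr 1; ring
    have hx : 3 ≤ dd * u := by nlinarith
    set x := dd * u with hxdef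
    have h3 : ((2 ^ 8 * κ ^ dd : ℕ) : ℝ) ≤ Real.exp (6 + 6 * x) := by
      rw [Real.exp_add, Nat.cast_mul]
      refine mul_le_mul ?_ h2 (by positivity) (by positivity)
      have h5 : Real.exp 6 = Real.exp 1 ^ 6 := by rw [← Real.exp_nat_mul]; norm_num
      have h6 := Real.exp_one_gt_d9
      rw [h5]
      calc ((2 ^ 8 : ℕ) : ℝ) ≤ 2.7 ^ 6 := by norm_num
        _ ≤ _ := by gcongr; linarith
    have h5 : 6 + 6 * x ≤ Real.exp (2 * x) := by
      have := Real.quadratic_le_exp_of_nonneg (x := 2 * x) (by linarith)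
      nlinarith
    calc (((2 ^ 8 * κ ^ dd) ^ (κ ^ dd) : ℕ) : ℝ) = ((2 ^ 8 * κ ^ dd : ℕ) : ℝ) ^ (κ ^ dd) :=
          Nat.cast_pow _ _
      _ ≤ Real.exp (6 + 6 * x) ^ (κ ^ dd) := by gcongr
      _ = Real.exp ((κ ^ dd : ℕ) * (6 + 6 * x)) := (Real.exp_nat_mul _ _).symm
      _ ≤ Real.exp (Real.exp (6 * x) * Real.exp (2 * x)) := by
          refine Real.exp_le_exp.2 (mul_le_mul h2 h5 (by linarith) (by positivity))
      _ = _ := by rw [← Real.exp_add, hxdef]; congr 2; ring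

theorem stage (d C f n0 : ℕ) (hC : 1 ≤ C) (hn0 : 0 < n0) (name : Fin (2 ^ f) → ℕ → Fin (2 ^ 8))
    (hbal : ∀ k < n0, Balanced fun w => name w k) :
    ∃ (f' N : ℕ) (sub : Fin (2 ^ f') → ℕ → Fin (2 ^ f)), 2 ≤ N ∧ f' ≤ N ∧
      (∀ t < N, Balanced fun w => sub w t) ∧
      (∃ r, 2 * r ≤ N ∧ ∀ t, t + r < N → Balanced fun w => (sub w t, sub w (t + r))) ∧
      ∀ (X : Type) [MeasurableSpace X] (μ : Measure X) [IsProbabilityMeasure μ] (T : X → X)
        (P : X → Fin (2 ^ 8)) (wd : X → Fin (2 ^ f')) (pos : X → ℕ),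
        MeasurePreserving T μ μ → Measurable wd → Measurable pos →
        (∀ w, μ {x | wd x = w ∧ pos x = 0} = ((2 ^ f' * (N * n0) : ℕ) : ℝ≥0∞)⁻¹) →
        (∀ x, pos x + 1 < N * n0 → wd (T x) = wd x ∧ pos (T x) = pos x + 1) →
        (∀ x, P x = name (sub (wd x) (pos x / n0)) (pos x % n0)) →
        ¬ HasFlatModel μ T P (1 / 200) (d + 1) C := by
  classical
  have hCR : (1 : ℝ) ≤ C := by exact_mod_cast hC
  have hn0R : (1 : ℝ) ≤ n0 := by exact_mod_cast hn0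
  obtain ⟨CT, hCT, htube⟩ := tube (d + 1) (2 ^ 8) C hCR
  obtain ⟨dd, hdd⟩ : ∃ dd, dd = d + 1 := ⟨_, rfl⟩
  rw [← hdd] at htube ⊢
  have hdd1 : 1 ≤ dd := by omega
  have hddR : (1 : ℝ) ≤ dd := by exact_mod_cast hdd1
  obtain ⟨b, hbdef⟩ : ∃ b, b = 200 * (dd * n0 * C) := ⟨_, rfl⟩
  obtain ⟨M, hMdef⟩ : ∃ M, M = 16 * dd * b := ⟨_, rfl⟩
  have hprod : 1 ≤ dd * n0 * C := Nat.mul_pos (Nat.mul_pos hdd1 hn0) hC
  have hb : 8 ≤ b := by omega
  have hM : b ≤ M := by rw [hMdef]; exact Nat.le_mul_of_pos_left _ (by omega)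
  have hbR : (b : ℝ) = 200 * (dd * n0 * C) := by rw [hbdef]; push_cast; ring
  have hMR : (M : ℝ) = 16 * dd * b := by rw [hMdef]; push_cast; ring
  have hb1 : (1 : ℝ) ≤ b := by exact_mod_cast (by omega : 1 ≤ b)
  obtain ⟨θ, hθdef⟩ : ∃ θ : ℝ, θ = 1 / (100 * dd * n0) := ⟨_, rfl⟩
  have hθ : 0 < θ := by rw [hθdef]; positivity
  obtain ⟨g0, hg0⟩ := exists_lin_le_two_pow (48 * (4 * M * n0 * C * CT)) (by positivity)
  obtain ⟨u0, hu0⟩ := exists_sq_le_exp (10 ^ 5 * C ^ 2 * (dd + 1) ^ 2 * (100 * dd * n0) ^ 2)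
    (by positivity)
  obtain ⟨g, hgdef⟩ : ∃ g, g = g0 + u0 + f + 3 := ⟨_, rfl⟩
  have hg : 2 ≤ g := by omega
  have hm1 : g ≤ 4 * M * g := Nat.le_mul_of_pos_left _ (by omega)
  obtain ⟨ψ, hψ, hsep⟩ := outer_code (A := Fin (2 ^ f)) (Λ := Fin (2 ^ 8)) f n0 (4 * M * g)
    (Fintype.card_fin _) (by rw [Fintype.card_fin]; norm_num) hn0 (by omega) (by omega) name hbal
  set n := 4 * M * g * n0 with hn
  have hnpos : 0 < n := Nat.mul_pos (by omega) hn0
  have hnR : (n : ℝ) = 4 * M * g * n0 := by rw [hn]; push_cast; ring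
  have hnR1 : (1 : ℝ) ≤ n := by exact_mod_cast hnpos
  obtain ⟨𝒢, h𝒢c, h𝒢r, h𝒢s⟩ := gram dd n b M hnpos (by omega) C θ (by positivity) hθ
  let u : ℕ → ℝ := fun i => θ * ((n : ℝ) * b ^ (i + 1))
  let σ : ℕ → ℝ := fun i => 2 * ((n : ℝ) * b ^ (i + 1)) * (1 + C) ^ (n * b ^ i) *
    Real.exp (θ * ((n : ℝ) * b ^ (i + 1)) / 2)
  have hu : ∀ i, (n : ℝ) * b ^ (i + 1) = 100 * dd * n0 * u i := fun i => by
    simp only [u, hθdef]; field_simp
  have hug : ∀ i, (g : ℝ) ≤ u i := fun i => by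
    have h1 : (1 : ℝ) ≤ (b : ℝ) ^ (i + 1) := one_le_pow₀ hb1
    have h2 : (100 * dd * n0 * g : ℝ) ≤ n * b ^ (i + 1) := by
      have h3 : (100 * dd * n0 * g : ℝ) ≤ n := by
        rw [hnR, hMR]
        have h4 : (8 : ℝ) ≤ b := by exact_mod_cast hb
        have h5 : (0 : ℝ) ≤ dd * n0 * g := by positivity
        nlinarith
      nlinarith
    rw [hu i] at h2
    exact le_of_mul_le_mul_left h2 (by positivity)
  have hσ1 : ∀ i, 1 ≤ σ i := fun i => by
    have h1 : (1 : ℝ) ≤ (b : ℝ) ^ (i + 1) := one_le_pow₀ hb1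
    have h2 : (1 : ℝ) ≤ (1 + C) ^ (n * b ^ i) := one_le_pow₀ (by linarith)
    have h3 : 1 ≤ Real.exp (θ * ((n : ℝ) * b ^ (i + 1)) / 2) := Real.one_le_exp (by positivity)
    have h4 : (1 : ℝ) ≤ 2 * ((n : ℝ) * b ^ (i + 1)) := by nlinarith
    exact one_le_mul_of_one_le_of_one_le (one_le_mul_of_one_le_of_one_le h4 h2) h3
  have hσ2 : ∀ i, σ i ≤ 2 * ((n * b ^ (i + 1) : ℕ) : ℝ) * Real.exp (u i) := fun i => by
    have h1 : (1 + C : ℝ) ^ (n * b ^ i) ≤ Real.exp (u i / 2) := by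
      calc (1 + C : ℝ) ^ (n * b ^ i) ≤ Real.exp C ^ (n * b ^ i) := by
            gcongr; linarith [Real.add_one_le_exp (C : ℝ)]
        _ = Real.exp (u i / 2) := by
            rw [← Real.exp_nat_mul]
            congr 1
            simp only [u, hθdef]
            push_cast
            rw [pow_succ, mul_comm _ (b : ℝ)]
            generalize (b : ℝ) ^ i = z
            rw [hbR]
            field_simp
            ring
    have h2 : Real.exp (u i) = Real.exp (u i / 2) * Real.exp (u i / 2) := by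
      rw [← Real.exp_add]; congr 1; ring
    rw [h2, ← mul_assoc]
    push_cast
    simp only [σ]
    gcongr
  have hscale := fun i => scale_params dd (n * b ^ (i + 1)) C (u i) (σ i) hdd1
    (Nat.mul_pos hnpos (Nat.pow_pos (by omega))) hCR
    (le_trans (by exact_mod_cast (by omega : 3 ≤ g)) (hug i))
    (by
      have := hu0 (u i) (le_trans (by exact_mod_cast (by omega : u0 ≤ g)) (hug i))
      push_cast
      rw [hu i]
      refine le_trans (le_of_eq ?_) this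
      ring)
    (zero_le_one.trans (hσ1 i)) (hσ2 i)
  have hρ1 : ∀ i, Real.exp (-(4 * u i)) ≤ 1 := fun i => by
    refine Real.exp_le_one_iff.2 ?_
    have : (0 : ℝ) ≤ g := Nat.cast_nonneg g
    linarith [hug i]
  choose κ hκ hκ' using fun i => (hscale i).2.2
  choose 𝓕 h𝓕c h𝓕 h𝓕t using fun i => htube (n * b ^ (i + 1)) (κ i) (Real.exp (-(4 * u i))) (σ i)
    (Nat.mul_pos hnpos (Nat.pow_pos (by omega))) (Real.exp_pos _) (hρ1 i) (hσ1 i)
    (hscale i).2.1 (hκ i)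
  have : Inhabited (Fin (2 ^ (4 * M * g))) := ⟨⟨0, by positivity⟩⟩
  let name' : Fin (2 ^ (4 * M * g)) → ℕ → Fin (2 ^ 8) := fun w k => name (ψ w (k / n0)) (k % n0)
  obtain ⟨nm, hnm, hnmp, hkill⟩ := inner_code (W := Fin (2 ^ (4 * M * g))) M g b
    (Fintype.card_fin _) hb hM hg
    (fun i => (𝓕 i).image (pushW (decAll name' n (b ^ (i + 1)))))
    (fun i ν hν => by
      obtain ⟨ν0, hν0, rfl⟩ := Finset.mem_image.1 hν
      refine ⟨fun y => Finset.sum_nonneg fun x _ => (h𝓕 i ν0 hν0).1 x, ?_⟩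
      rw [sum_pushW]
      simpa using (h𝓕 i ν0 hν0).2)
    (fun i => by
      have h1 : (((𝓕 i).image (pushW (decAll name' n (b ^ (i + 1))))).card : ℝ) ≤
          (((2 ^ 8 * κ i ^ dd) ^ (κ i ^ dd) : ℕ) : ℝ) :=
        Nat.cast_le.2 (Finset.card_image_le.trans (h𝓕c i))
      refine (h1.trans (hκ' i)).trans (Real.exp_le_exp.2 (Real.exp_le_exp.2 ?_))
      have h2 := hu i
      rw [hnR] at h2
      have h3 : 4 * M * g * (b : ℝ) ^ (i + 1) = 100 * dd * u i := by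
        refine mul_left_cancel₀ (a := (n0 : ℝ)) (by positivity) ?_
        linarith
      have h4 : 0 ≤ dd * u i := mul_nonneg (by positivity) ((Nat.cast_nonneg g).trans (hug i))
      rw [h3]
      linarith)
  have hmpos : 0 < 4 * M * g := by omega
  have hWpos : 0 < Fintype.card (Fin (2 ^ (4 * M * g))) := by rw [Fintype.card_fin]; positivity
  have hbM : b ^ M = b * b ^ (M - 1) := by rw [← pow_succ']; congr 1; omega
  refine ⟨2 * g * M * b ^ M, b ^ M * (4 * M * g),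
    fun w t => ψ (nm w (t / (4 * M * g))) (t % (4 * M * g)), ?_, ?_, ?_, ?_, ?_⟩
  · have : 0 < b ^ M := Nat.pow_pos (by omega)
    calc 2 ≤ 1 * (4 * M * g) := by omega
      _ ≤ _ := Nat.mul_le_mul_right _ this
  · rw [mul_comm (b ^ M)]
    refine Nat.mul_le_mul_right _ ?_
    have : 4 * M * g = 2 * (2 * g * M) := by ring
    omega
  · intro t ht
    exact balanced_comp (g := fun a => ψ a (t % (4 * M * g))) (hψ _ (Nat.mod_lt _ hmpos))
      (hnm _ ((Nat.div_lt_iff_lt_mul hmpos).2 ht)) hWpos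
  · refine ⟨b ^ (M - 1) * (4 * M * g), ?_, fun t ht => ?_⟩
    · rw [← mul_assoc, hbM]
      exact Nat.mul_le_mul_right _ (Nat.mul_le_mul_right _ (by omega))
    · have h1 : t / (4 * M * g) + b ^ (M - 1) < b ^ M := by
        rw [← Nat.add_mul_div_right _ _ hmpos]
        exact (Nat.div_lt_iff_lt_mul hmpos).2 ht
      have h2 := hψ _ (Nat.mod_lt t hmpos)
      have := balanced_comp (balanced_prod_map h2 h2) (hnmp _ h1)
        (by rw [Fintype.card_prod]; positivity)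
      refine this.congr fun w => ?_
      simp only [Nat.add_mul_div_right _ _ hmpos, Nat.add_mul_mod_self_right]
  · intro X _ μ _ T P wd pos hT hwd hpos hlaw hstep hP hflat
    have hH : b ^ M * (4 * M * g) * n0 = n * b ^ M := by rw [hn]; ring
    rw [hH] at hlaw hstep
    obtain ⟨Ω, _, p, w, Y, Good, ν, h1, h2, h3, h4, h5, h6⟩ := stage_core (by positivity) hnpos
      (by omega) name' hsep nm (by positivity) hθ hCT (fun i => Real.exp (-(4 * u i))) σ 𝒢 h𝒢c h𝒢r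
      h𝒢s
      (by
        have e1 : Real.log (1 + (C : ℝ) ^ 2) ≤ 2 * C := by
          have e2 : (1 + (C : ℝ) ^ 2) ≤ (1 + C) ^ 2 := by nlinarith
          have e3 := Real.log_le_log (by positivity) e2
          rw [Real.log_pow] at e3
          have e4 := Real.log_le_sub_one_of_pos (x := 1 + (C : ℝ)) (by positivity)
          push_cast at e3
          linarith
        have e5 : θ * M = 16 * (dd * (2 * C)) := by
          rw [hθdef, hMR, hbR]; field_simp; ring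
        rw [e5]
        gcongr)
      (fun i => ⟨Real.exp_pos _, hρ1 i, by have := (hscale i).1; push_cast at this; exact this⟩)
      𝓕 (fun i ν hν => (h𝓕 i ν hν).1) h𝓕t μ T P wd pos hT hwd hpos hlaw hstep
      (fun x _ => by
        rw [hP x]
        simp only [name']
        rw [hn, Nat.div_div_eq_div_mul, mul_comm n0, Nat.mod_mul_left_div_self,
          Nat.mod_mul_left_mod])
      hflat
    refine hkill Ω p w Y Good ν (fun i => n * (b : ℝ) ^ (i + 1) * C * CT) h1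
      (fun a => by rw [h2 a]; push_cast; rfl) h3 h4 h5 fun i hi =>
      ⟨(h6 i hi).1, by positivity, ?_, (h6 i hi).2⟩
    have e1 := hg0 (g * b ^ (i + 1)) (le_trans (by omega)
      (Nat.le_mul_of_pos_right g (Nat.pow_pos (by omega))))
    refine le_trans (le_of_eq ?_) e1
    rw [hnR]
    push_cast
    ring

end Crest.Agent.R133
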