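import Crest.Agent.R133.Defs

/-! Row 133: abstract inverse limit of finite sets in digit coordinates. -/

set_option autoImplicit false
set_option linter.unusedSectionVars false

open MeasureTheory Set Filter ProbabilityTheory
open scoped ENNReal Topology

namespace Crest.Agent.R133.Adic

variable {Y D : ℕ → Type} (Θ : ∀ l, Y l × D l ≃ Y (l + 1))

/-- the level-`l` coordinate -/
def yy : ∀ l, Y 0 × (∀ l, D l) → Y l
  | 0, x => x.1
  | l + 1, x => Θ l (yy l x, x.2 l)

/-- change the level-`L` coordinate and keep the higher digits -/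
def put : ∀ L, Y L → Y 0 × (∀ l, D l) → Y 0 × (∀ l, D l)
  | 0, z, x => (z, x.2)
  | L + 1, z, x => put L ((Θ L).symm z).1 (x.1, Function.update x.2 L ((Θ L).symm z).2)

theorem yy_zero (x : Y 0 × (∀ l, D l)) : yy Θ 0 x = x.1 := rfl
theorem yy_succ (l : ℕ) (x : Y 0 × (∀ l, D l)) : yy Θ (l + 1) x = Θ l (yy Θ l x, x.2 l) := rfl
theorem put_succ (L : ℕ) (z : Y (L + 1)) (x : Y 0 × (∀ l, D l)) : put Θ (L + 1) z x =
    put Θ L ((Θ L).symm z).1 (x.1, Function.update x.2 L ((Θ L).symm z).2) := rfl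

theorem put_snd : ∀ (L : ℕ) (z : Y L) (x : Y 0 × (∀ l, D l)) (j : ℕ), L ≤ j →
    (put Θ L z x).2 j = x.2 j := by
  intro L
  induction L with
  | zero => intro z x j _; rfl
  | succ L ih =>
    intro z x j hj
    rw [put_succ, ih _ _ j (by omega)]
    exact Function.update_of_ne (by omega) _ _

theorem yy_put : ∀ (L : ℕ) (z : Y L) (x : Y 0 × (∀ l, D l)), yy Θ L (put Θ L z x) = z := by
  intro L
  induction L with
  | zero => intro z x; rfl
  | succ L ih =>
    intro z x
    rw [yy_succ, put_succ, ih, put_snd _ _ _ _ _ le_rfl]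
    simp

theorem yy_eq_iff (L : ℕ) (x x' : Y 0 × (∀ l, D l)) :
    yy Θ L x = yy Θ L x' ↔ x.1 = x'.1 ∧ ∀ j < L, x.2 j = x'.2 j := by
  induction L with
  | zero => simp [yy_zero]
  | succ L ih =>
    rw [yy_succ, yy_succ, (Θ L).apply_eq_iff_eq, Prod.mk.injEq, ih]
    constructor
    · rintro ⟨⟨h1, h2⟩, h3⟩
      refine ⟨h1, fun j hj => ?_⟩
      rcases Nat.lt_succ_iff_lt_or_eq.1 hj with h | rfl
      · exact h2 j h
      · exact h3
    · rintro ⟨h1, h2⟩
      exact ⟨⟨h1, fun j hj => h2 j (by omega)⟩, h2 L (by omega)⟩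

theorem ext_yy {L : ℕ} {x x' : Y 0 × (∀ l, D l)} (h : yy Θ L x = yy Θ L x')
    (h2 : ∀ j, L ≤ j → x.2 j = x'.2 j) : x = x' := by
  obtain ⟨h1, h3⟩ := (yy_eq_iff Θ L x x').1 h
  refine Prod.ext h1 (funext fun j => ?_)
  rcases lt_or_ge j L with hj | hj
  · exact h3 j hj
  · exact h2 j hj

/-- lift of a map of the level-`L` coordinate -/
def lift (L : ℕ) (f : Y L → Y L) (x : Y 0 × (∀ l, D l)) : Y 0 × (∀ l, D l) :=
  put Θ L (f (yy Θ L x)) x

theorem yy_lift (L : ℕ) (f : Y L → Y L) (x : Y 0 × (∀ l, D l)) :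
    yy Θ L (lift Θ L f x) = f (yy Θ L x) := yy_put Θ _ _ _

theorem lift_snd (L : ℕ) (f : Y L → Y L) (x : Y 0 × (∀ l, D l)) {j : ℕ} (hj : L ≤ j) :
    (lift Θ L f x).2 j = x.2 j := put_snd Θ _ _ _ _ hj

theorem lift_lift (L : ℕ) {f g : Y L → Y L} {x : Y 0 × (∀ l, D l)}
    (h : g (f (yy Θ L x)) = yy Θ L x) : lift Θ L g (lift Θ L f x) = x :=
  ext_yy Θ (L := L) (by rw [yy_lift, yy_lift, h]) fun j hj => by
    rw [lift_snd _ _ _ _ hj, lift_snd _ _ _ _ hj]

/-- compatible partial maps of the levels -/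
def Compat (s : ∀ L, Y L → Y L) (good : ∀ L, Set (Y L)) : Prop :=
  ∀ L, ∀ a ∈ good L, ∀ b, Θ L (a, b) ∈ good (L + 1) ∧ s (L + 1) (Θ L (a, b)) = Θ L (s L a, b)

open Classical in
/-- gluing of compatible partial maps -/
noncomputable def glue (s : ∀ L, Y L → Y L) (good : ∀ L, Set (Y L))
    (sp : Y 0 × (∀ l, D l) → Y 0 × (∀ l, D l)) (x : Y 0 × (∀ l, D l)) : Y 0 × (∀ l, D l) :=
  if h : ∃ L, yy Θ L x ∈ good L then lift Θ (Nat.find h) (s _) x else sp x

variable {Θ} {s : ∀ L, Y L → Y L} {good : ∀ L, Set (Y L)}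
  {sp : Y 0 × (∀ l, D l) → Y 0 × (∀ l, D l)}

theorem Compat.le (h : Compat Θ s good) {x : Y 0 × (∀ l, D l)} {L L' : ℕ} (hL : L ≤ L')
    (hx : yy Θ L x ∈ good L) : yy Θ L' x ∈ good L' ∧ lift Θ L' (s L') x = lift Θ L (s L) x := by
  induction L', hL using Nat.le_induction with
  | base => exact ⟨hx, rfl⟩
  | succ K hK ih =>
    refine ⟨(h K _ ih.1 _).1, Eq.trans ?_ ih.2⟩
    refine ext_yy Θ (L := K + 1) ?_ fun j hj => ?_
    · rw [yy_lift, yy_succ, yy_succ, yy_lift, lift_snd _ _ _ _ le_rfl, (h K _ ih.1 _).2]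
    · rw [lift_snd _ _ _ _ hj, lift_snd _ _ _ _ (by omega)]

theorem Compat.glue_eq (h : Compat Θ s good) {x : Y 0 × (∀ l, D l)} {L : ℕ}
    (hx : yy Θ L x ∈ good L) : glue Θ s good sp x = lift Θ L (s L) x := by
  classical
  have hex : ∃ L, yy Θ L x ∈ good L := ⟨L, hx⟩
  rw [glue, dif_pos hex]
  exact (h.le (Nat.find_min' hex hx) (Nat.find_spec hex)).2.symm

theorem glue_eq_sp {x : Y 0 × (∀ l, D l)} (hx : ∀ L, yy Θ L x ∉ good L) :
    glue Θ s good sp x = sp x := by
  rw [glue, dif_neg (not_exists.2 hx)]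

/-! ### measurability -/

variable [∀ l, Fintype (Y l)] [∀ l, Fintype (D l)] [∀ l, MeasurableSpace (Y l)]
  [∀ l, MeasurableSpace (D l)] [∀ l, DiscreteMeasurableSpace (Y l)]
  [∀ l, DiscreteMeasurableSpace (D l)]

variable (Θ)

theorem measurable_yy (l : ℕ) : Measurable (yy Θ l) := by
  induction l with
  | zero => exact measurable_fst
  | succ l ih =>
    exact (Measurable.of_discrete (f := Θ l)).comp
      (ih.prodMk ((measurable_pi_apply l).comp measurable_snd))

theorem measurable_put : ∀ (L : ℕ) (z : Y L), Measurable (put Θ L z) := by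
  intro L
  induction L with
  | zero => exact fun z => measurable_const.prodMk measurable_snd
  | succ L ih =>
    intro z
    exact (ih _).comp (measurable_fst.prodMk (measurable_update_left.comp measurable_snd))

theorem measurable_lift (L : ℕ) (f : Y L → Y L) : Measurable (lift Θ L f) := by
  have h : Measurable fun p : Y L × (Y 0 × (∀ l, D l)) => put Θ L (f p.1) p.2 :=
    measurable_from_prod_countable_right fun z => measurable_put Θ L (f z)
  exact h.comp ((measurable_yy Θ L).prodMk measurable_id)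

variable {Θ} in
theorem Compat.measurable_glue (h : Compat Θ s good) (hsp : Measurable sp) :
    Measurable (glue Θ s good sp) := by
  intro A hA
  have e : glue Θ s good sp ⁻¹' A = (⋃ L, yy Θ L ⁻¹' good L ∩ lift Θ L (s L) ⁻¹' A) ∪
      ((⋃ L, yy Θ L ⁻¹' good L)ᶜ ∩ sp ⁻¹' A) := by
    ext x
    simp only [mem_preimage, mem_union, mem_iUnion, mem_inter_iff, mem_compl_iff, not_exists]
    constructor
    · intro hx
      by_cases hg : ∃ L, yy Θ L x ∈ good L
      · obtain ⟨L, hL⟩ := hg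
        exact Or.inl ⟨L, hL, by rwa [h.glue_eq hL] at hx⟩
      · exact Or.inr ⟨not_exists.1 hg, by rwa [glue_eq_sp (not_exists.1 hg)] at hx⟩
    · rintro (⟨L, hL, hx⟩ | ⟨hg, hx⟩)
      · rwa [h.glue_eq hL]
      · rwa [glue_eq_sp hg]
  rw [e]
  refine (MeasurableSet.iUnion fun L => ?_).union ((MeasurableSet.iUnion fun L => ?_).compl.inter
    (hsp hA))
  · exact (measurable_yy Θ L MeasurableSet.of_discrete).inter (measurable_lift Θ L _ hA)
  · exact measurable_yy Θ L MeasurableSet.of_discrete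

/-- cylinder sets -/
def Cyl : Set (Set (Y 0 × (∀ l, D l))) := {S | ∃ l, ∃ B : Set (Y l), S = yy Θ l ⁻¹' B}

theorem exists_preimage_of_le {l L : ℕ} (h : l ≤ L) (B : Set (Y l)) :
    ∃ B' : Set (Y L), yy Θ l ⁻¹' B = yy Θ L ⁻¹' B' := by
  induction L, h using Nat.le_induction with
  | base => exact ⟨B, rfl⟩
  | succ K _ ih =>
    obtain ⟨B', hB'⟩ := ih
    refine ⟨{z | ((Θ K).symm z).1 ∈ B'}, ?_⟩
    rw [hB']
    ext x
    simp [yy_succ]

theorem isSetRing_Cyl : IsSetRing (Cyl Θ) := by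
  refine ⟨⟨0, ∅, rfl⟩, ?_, ?_⟩
  · rintro _ _ ⟨l, B, rfl⟩ ⟨l', B', rfl⟩
    obtain ⟨C, hC⟩ := exists_preimage_of_le Θ (le_max_left l l') B
    obtain ⟨C', hC'⟩ := exists_preimage_of_le Θ (le_max_right l l') B'
    exact ⟨max l l', C ∪ C', by rw [hC, hC', preimage_union]⟩
  · rintro _ _ ⟨l, B, rfl⟩ ⟨l', B', rfl⟩
    obtain ⟨C, hC⟩ := exists_preimage_of_le Θ (le_max_left l l') B
    obtain ⟨C', hC'⟩ := exists_preimage_of_le Θ (le_max_right l l') B'
    exact ⟨max l l', C \ C', by rw [hC, hC', preimage_sdiff]⟩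

theorem generateFrom_Cyl :
    (Prod.instMeasurableSpace : MeasurableSpace (Y 0 × (∀ l, D l))) =
      MeasurableSpace.generateFrom (Cyl Θ) := by
  apply le_antisymm
  · have hy : ∀ l, Measurable[MeasurableSpace.generateFrom (Cyl Θ)] (yy Θ l) := fun l B _ =>
      MeasurableSpace.measurableSet_generateFrom ⟨l, B, rfl⟩
    have h1 : Measurable[MeasurableSpace.generateFrom (Cyl Θ)]
        (fun x : Y 0 × (∀ l, D l) => x.1) := hy 0
    have h2 : Measurable[MeasurableSpace.generateFrom (Cyl Θ)]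
        (fun x : Y 0 × (∀ l, D l) => x.2) := by
      refine @measurable_pi_lambda _ _ _ (MeasurableSpace.generateFrom (Cyl Θ)) _ _ fun j => ?_
      have e : (fun x : Y 0 × (∀ l, D l) => x.2 j) =
          (fun z => ((Θ j).symm z).2) ∘ yy Θ (j + 1) := by
        funext x
        simp [yy_succ]
      rw [e]
      exact Measurable.of_discrete.comp (hy (j + 1))
    exact fun A hA => (h1.prodMk h2) hA
  · refine MeasurableSpace.generateFrom_le ?_
    rintro _ ⟨l, B, rfl⟩
    exact measurable_yy Θ l MeasurableSet.of_discrete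

/-! ### the measure -/

variable (Y D) in
/-- the product of the uniform laws -/
noncomputable def mu : Measure (Y 0 × (∀ l, D l)) :=
  (uniformOn univ).prod (Measure.infinitePi fun _ => uniformOn univ)

variable [Nonempty (Y 0)] [∀ l, Nonempty (D l)]

instance : IsProbabilityMeasure (mu Y D) := by
  unfold mu
  infer_instance

include Θ in
theorem card_eq (L : ℕ) :
    Fintype.card (Y L) = Fintype.card (Y 0) * ∏ j ∈ Finset.range L, Fintype.card (D j) := by
  induction L with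
  | zero => simp
  | succ L ih =>
    rw [← Fintype.card_congr (Θ L), Fintype.card_prod, ih, Finset.prod_range_succ, mul_assoc]

theorem mu_yy (L : ℕ) (z : Y L) : mu Y D (yy Θ L ⁻¹' {z}) = (Fintype.card (Y L) : ℝ≥0∞)⁻¹ := by
  obtain ⟨p, rfl⟩ : ∃ p, yy Θ L p = z :=
    ⟨put Θ L z (Classical.arbitrary _), yy_put Θ _ _ _⟩
  have e : yy Θ L ⁻¹' {yy Θ L p} =
      {p.1} ×ˢ Set.pi (Finset.range L : Set ℕ) fun j => {p.2 j} := by
    ext x
    simp [yy_eq_iff]
  rw [e, mu, Measure.prod_prod, Measure.infinitePi_pi _ fun _ _ => MeasurableSet.of_discrete,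
    card_eq Θ L]
  simp only [uniformOn_univ, Measure.count_singleton, one_div]
  rw [Nat.cast_mul, Nat.cast_prod, ENNReal.mul_inv (Or.inl (by simp)) (Or.inl (by simp)),
    ENNReal.prod_inv_distrib]
  intro i _ j _ _
  simp

theorem mu_perm (L : ℕ) (f : Y L ≃ Y L) (B : Set (Y L)) :
    mu Y D (yy Θ L ⁻¹' (f ⁻¹' B)) = mu Y D (yy Θ L ⁻¹' B) := by
  have hf : Measurable f := Measurable.of_discrete
  have h : (mu Y D).map (f ∘ yy Θ L) = (mu Y D).map (yy Θ L) := by
    refine Measure.ext_of_singleton fun z => ?_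
    rw [Measure.map_apply (hf.comp (measurable_yy Θ L)) MeasurableSet.of_discrete,
      Measure.map_apply (measurable_yy Θ L) MeasurableSet.of_discrete, preimage_comp,
      show f ⁻¹' {z} = {f.symm z} by ext; simp [Equiv.eq_symm_apply], mu_yy, mu_yy]
  rw [← preimage_comp, ← Measure.map_apply (hf.comp (measurable_yy Θ L)) MeasurableSet.of_discrete,
    h, Measure.map_apply (measurable_yy Θ L) MeasurableSet.of_discrete]

/-- a map which agrees with permutations of the levels off small sets preserves the measure -/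
theorem measurePreserving_of_perm {T : Y 0 × (∀ l, D l) → Y 0 × (∀ l, D l)} (hT : Measurable T)
    (f : ∀ L, Y L ≃ Y L) (good : ∀ L, Set (Y L))
    (hf : ∀ L x, yy Θ L x ∈ good L → yy Θ L (T x) = f L (yy Θ L x))
    (hg : Tendsto (fun L => mu Y D (yy Θ L ⁻¹' (good L)ᶜ)) atTop (𝓝 0)) :
    MeasurePreserving T (mu Y D) (mu Y D) := by
  have hle : ∀ l (B : Set (Y l)), mu Y D (T ⁻¹' (yy Θ l ⁻¹' B)) ≤ mu Y D (yy Θ l ⁻¹' B) := by
    intro l B
    have ht := hg.const_add (mu Y D (yy Θ l ⁻¹' B))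
    rw [add_zero] at ht
    refine ge_of_tendsto ht ?_
    filter_upwards [eventually_ge_atTop l] with L hL
    obtain ⟨B', hB'⟩ := exists_preimage_of_le Θ hL B
    rw [hB', ← mu_perm Θ L (f L) B']
    refine (measure_mono fun x hx => ?_).trans (measure_union_le _ _)
    by_cases hx' : yy Θ L x ∈ good L
    · left
      simpa only [mem_preimage, hf L x hx'] using hx
    · exact Or.inr hx'
  have : IsProbabilityMeasure ((mu Y D).map T) := Measure.isProbabilityMeasure_map hT.aemeasurable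
  refine ⟨hT, ext_of_generate_finite (Cyl Θ) (generateFrom_Cyl Θ)
    (isSetRing_Cyl Θ).isSetSemiring.isPiSystem ?_ (by simp)⟩
  rintro _ ⟨l, B, rfl⟩
  have hB : MeasurableSet (yy Θ l ⁻¹' B) := measurable_yy Θ l MeasurableSet.of_discrete
  rw [Measure.map_apply hT hB]
  refine le_antisymm (hle l B) ?_
  have h2 := hle l Bᶜ
  rw [preimage_compl, preimage_compl, prob_compl_eq_one_sub (hT hB), prob_compl_eq_one_sub hB] at h2
  exact (ENNReal.sub_le_sub_iff_left prob_le_one ENNReal.one_ne_top).1 h2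

theorem approx {A : Set (Y 0 × (∀ l, D l))} (hA : MeasurableSet A) {ε : ℝ≥0∞} (hε : 0 < ε) :
    ∀ᶠ l in atTop, ∃ B : Set (Y l), mu Y D (symmDiff A (yy Θ l ⁻¹' B)) ≤ ε := by
  obtain ⟨_, ⟨l, B, rfl⟩, h⟩ := exists_measure_symmDiff_lt_of_generateFrom_isSetRing (μ := mu Y D)
    (isSetRing_Cyl Θ) ⟨{univ}, countable_singleton _, by
      rintro _ rfl
      exact ⟨0, univ, rfl⟩, by simp⟩ (generateFrom_Cyl Θ) hA hε
  filter_upwards [eventually_ge_atTop l] with L hL
  obtain ⟨B', hB'⟩ := exists_preimage_of_le Θ hL B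
  exact ⟨B', by rw [← hB', symmDiff_comm]; exact h.le⟩

end Crest.Agent.R133.Adic
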