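import Crest.Agent.R133.Defs

/-! Row 133: Bowen balls versus tubes of pseudo-orbits. -/

set_option autoImplicit false

open MeasureTheory Set Metric Filter Crest.AnalysisR
open scoped ENNReal Topology

namespace Crest.Agent.R133

namespace TubeAux

theorem measurable_tri {d n : ℕ} (g : Fin n → E d → E d) (hg : ∀ k, Measurable (g k)) :
    Measurable
      (fun w : Fin (n + 1) → E d => (w 0, fun k : Fin n => w k.succ - g k (w k.castSucc))) :=
  (measurable_pi_apply 0).prodMk (measurable_pi_lambda _ fun k =>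
    (measurable_pi_apply _).sub ((hg k).comp (measurable_pi_apply _)))

end TubeAux

/-- The triangular map `w ↦ (w 0, (w (k+1) - g k (w k))_k)` preserves Lebesgue measure. -/
theorem measurePreserving_triangular {d n : ℕ} (g : Fin n → E d → E d)
    (hg : ∀ k, Measurable (g k)) :
    MeasurePreserving
      (fun w : Fin (n + 1) → E d => (w 0, fun k : Fin n => w k.succ - g k (w k.castSucc)))
      volume ((volume : Measure (E d)).prod (volume : Measure (Fin n → E d))) := by
  induction n with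
  | zero =>
    have h := volume_preserving_piFinSuccAbove (fun _ : Fin 1 => E d) 0
    have e : (fun w : Fin (0 + 1) → E d => (w 0, fun k : Fin 0 => w k.succ - g k (w k.castSucc))) =
        MeasurableEquiv.piFinSuccAbove (fun _ : Fin 1 => E d) 0 := by
      funext w
      refine Prod.ext rfl ?_
      funext k
      exact k.elim0
    rw [e]
    exact h
  | succ n ih =>
    have ih' := ih (fun k => g k.succ) fun k => hg _
    have h1 := volume_preserving_piFinSuccAbove (fun _ : Fin (n + 2) => E d) 0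
    have h2 := (volume_preserving_piFinSuccAbove (fun _ : Fin (n + 1) => E d) 0).symm
    set e := MeasurableEquiv.piFinSuccAbove (fun _ : Fin (n + 1) => E d) 0 with he
    set Φ := fun w : Fin (n + 1) → E d =>
      (w 0, fun k : Fin n => w k.succ - g k.succ (w k.castSucc)) with hΦ
    have h3 : MeasurePreserving
        (fun p : E d × (Fin (n + 1) → E d) =>
          (id p.1, e.symm ((Φ p.2).1 - g 0 p.1, (Φ p.2).2)))
        ((volume : Measure (E d)).prod (volume : Measure (Fin (n + 1) → E d)))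
        ((volume : Measure (E d)).prod (volume : Measure (Fin (n + 1) → E d))) := by
      refine MeasurePreserving.skew_product (MeasurePreserving.id _)
        (g := fun a z => e.symm ((Φ z).1 - g 0 a, (Φ z).2)) ?_ (Eventually.of_forall fun a => ?_)
      · exact e.symm.measurable.comp
          ((((ih'.measurable.comp measurable_snd).fst).sub ((hg 0).comp measurable_fst)).prodMk
            (ih'.measurable.comp measurable_snd).snd)
      · have h4 := (measurePreserving_sub_right (volume : Measure (E d)) (g 0 a)).prod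
          (MeasurePreserving.id (volume : Measure (Fin n → E d)))
        exact ((h2.comp h4).comp ih').map_eq
    have e' : (fun w : Fin (n + 1 + 1) → E d =>
        (w 0, fun k : Fin (n + 1) => w k.succ - g k (w k.castSucc))) =
        (fun p : E d × (Fin (n + 1) → E d) =>
          (id p.1, e.symm ((Φ p.2).1 - g 0 p.1, (Φ p.2).2))) ∘
          MeasurableEquiv.piFinSuccAbove (fun _ : Fin (n + 2) => E d) 0 := by
      funext w
      refine Prod.ext rfl ?_
      funext k
      refine Fin.cases ?_ (fun j => ?_) k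
      · simp [he, hΦ, MeasurableEquiv.piFinSuccAbove, Fin.tail]
      · simp [he, hΦ, MeasurableEquiv.piFinSuccAbove, Fin.tail, Fin.castSucc_succ]
    rw [e']
    exact h3.comp h1

namespace TubeAux

section Haar
variable {W : Type} [NormedAddCommGroup W] [NormedSpace ℝ W] [FiniteDimensional ℝ W]
  [MeasurableSpace W] [BorelSpace W] (μ : Measure W) [μ.IsAddHaarMeasure]

theorem haar_image_le {K : NNReal} {f : W → W} {s : Set W} (h : LipschitzOnWith K f s) :
    μ (f '' s) ≤ (K : ℝ≥0∞) ^ Module.finrank ℝ W * μ s := by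
  have h1 := h.hausdorffMeasure_image_le (d := Module.finrank ℝ W) (Nat.cast_nonneg _)
  rw [ENNReal.rpow_natCast] at h1
  rw [Measure.isAddLeftInvariant_eq_smul μ (Measure.hausdorffMeasure (Module.finrank ℝ W))]
  simp only [Measure.smul_apply, ENNReal.smul_def, smul_eq_mul]
  rw [mul_left_comm]
  exact mul_le_mul_right h1 _

theorem haar_image_le_two {K : ℝ} {f : W → W} {s : Set W} (hK0 : 0 ≤ K)
    (hK : K ^ Module.finrank ℝ W ≤ 2) (h : ∀ u ∈ s, ∀ v ∈ s, ‖f u - f v‖ ≤ K * ‖u - v‖) :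
    μ (f '' s) ≤ 2 * μ s := by
  lift K to NNReal using hK0
  have h1 : LipschitzOnWith K f s := LipschitzOnWith.of_dist_le_mul fun u hu v hv => by
    simpa only [dist_eq_norm] using h u hu v hv
  refine (haar_image_le μ h1).trans (mul_le_mul_left ?_ _)
  have h2 : K ^ Module.finrank ℝ W ≤ 2 := by exact_mod_cast hK
  exact_mod_cast h2

theorem inv_pow_le_two {κ : ℝ} {N : ℕ} (h1 : κ ≤ 1 / 2) (h2 : N * κ ≤ 1 / 2) :
    (1 - κ)⁻¹ ^ N ≤ 2 := by
  have h3 := one_add_mul_le_pow (a := -κ) (by linarith) N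
  rw [inv_pow, inv_le_comm₀ (pow_pos (by linarith) N) two_pos]
  rw [← sub_eq_add_neg] at h3
  linarith

theorem near_id_le {κ : ℝ} {Ψ : W → W} {s : Set W} (h0 : 0 ≤ κ) (h1 : κ ≤ 1 / 2)
    (h2 : Module.finrank ℝ W * κ ≤ 1 / 2)
    (h : ∀ u ∈ s, ∀ v ∈ s, ‖Ψ u - Ψ v - (u - v)‖ ≤ κ * ‖u - v‖) : μ (Ψ '' s) ≤ 2 * μ s := by
  refine haar_image_le_two μ (K := 1 + κ) (by linarith) ?_ fun u hu v hv => ?_
  · refine le_trans (pow_le_pow_left₀ (by linarith) ?_ _) (inv_pow_le_two h1 h2)
    rw [← one_div, le_div_iff₀ (by linarith)]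
    nlinarith
  · have h3 := h u hu v hv
    have h4 := norm_add_le (Ψ u - Ψ v - (u - v)) (u - v)
    rw [sub_add_cancel] at h4
    linarith

theorem le_near_id {κ : ℝ} {Ψ : W → W} {s : Set W} (h1 : κ ≤ 1 / 2)
    (h2 : Module.finrank ℝ W * κ ≤ 1 / 2)
    (h : ∀ u ∈ s, ∀ v ∈ s, ‖Ψ u - Ψ v - (u - v)‖ ≤ κ * ‖u - v‖) : μ s ≤ 2 * μ (Ψ '' s) := by
  have hk : 0 < 1 - κ := by linarith
  have h3 : ∀ u ∈ s, ∀ v ∈ s, ‖u - v‖ ≤ (1 - κ)⁻¹ * ‖Ψ u - Ψ v‖ := by
    intro u hu v hv
    have h4 := h u hu v hv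
    have h5 := norm_sub_le (Ψ u - Ψ v) (Ψ u - Ψ v - (u - v))
    rw [sub_sub_cancel] at h5
    rw [← div_eq_inv_mul, le_div_iff₀ hk]
    linarith
  have hinj : InjOn Ψ s := fun u hu v hv huv => by
    have := h3 u hu v hv
    rw [huv, sub_self, norm_zero, mul_zero] at this
    exact sub_eq_zero.1 (norm_le_zero_iff.1 this)
  have h6 := haar_image_le_two μ (K := (1 - κ)⁻¹) (f := Function.invFunOn Ψ s) (s := Ψ '' s)
    (inv_nonneg.2 hk.le) (inv_pow_le_two h1 h2) (by
      rintro _ ⟨u, hu, rfl⟩ _ ⟨v, hv, rfl⟩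
      rw [hinj.leftInvOn_invFunOn hu, hinj.leftInvOn_invFunOn hv]
      exact h3 u hu v hv)
  rwa [hinj.invFunOn_image subset_rfl] at h6

end Haar

theorem near_id_surj {W : Type} [NormedAddCommGroup W] [NormedSpace ℝ W] [CompleteSpace W]
    {κ r : ℝ} {Ψ : W → W} (h0 : 0 ≤ κ) (h1 : κ ≤ 1 / 2) (hr : 0 ≤ r) (hΨ : Ψ 0 = 0)
    (h : ∀ u ∈ closedBall (0 : W) r, ∀ v ∈ closedBall (0 : W) r,
      ‖Ψ u - Ψ v - (u - v)‖ ≤ κ * ‖u - v‖) {z : W} (hz : ‖z‖ ≤ r / 2) :
    ∃ u, ‖u‖ ≤ r ∧ Ψ u = z := by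
  lift κ to NNReal using h0
  have ha : ApproximatesLinearOn Ψ (ContinuousLinearMap.id ℝ W) (closedBall 0 r) κ := h
  have hs := ha.surjOn_closedBall_of_nonlinearRightInverse
    ⟨id, 1, fun y => by simp, fun y => rfl⟩ hr subset_rfl
  obtain ⟨u, hu, huz⟩ := hs (a := z) (by
    rw [hΨ, mem_closedBall_zero_iff]
    simp only [NNReal.coe_one, inv_one]
    nlinarith)
  exact ⟨u, mem_closedBall_zero_iff.1 hu, huz⟩

variable {d n : ℕ}

/-- The linearised defect of a sequence. -/
def Sop (D : Fin n → E d →L[ℝ] E d) (u : Fin (n + 1) → E d) : Fin n → E d :=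
  fun k => u k.succ - D k (u k.castSucc)

theorem exists_A (D : Fin n → E d →L[ℝ] E d) :
    ∃ A : E d →L[ℝ] (Fin (n + 1) → E d), ∀ u, Sop D u = 0 → u = A (u 0) := by
  refine ⟨ContinuousLinearMap.pi fun k => Fin.induction (motive := fun _ => E d →L[ℝ] E d)
    (ContinuousLinearMap.id ℝ _) (fun k prev => (D k).comp prev) k, fun u hu => ?_⟩
  funext k
  rw [ContinuousLinearMap.pi_apply]
  induction k using Fin.induction with
  | zero => simp
  | succ k ih =>
    have h1 : u k.succ - D k (u k.castSucc) = 0 := congrFun hu k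
    rw [Fin.induction_succ, ContinuousLinearMap.comp_apply, ← ih]
    exact sub_eq_zero.1 h1

theorem Sop_sub_R (D : Fin n → E d →L[ℝ] E d) (R : (Fin n → E d) →ₗ[ℝ] (Fin (n + 1) → E d))
    (hR : ∀ ξ (k : Fin n), R ξ k.succ - D k (R ξ k.castSucc) = ξ k) (u : Fin (n + 1) → E d)
    (ξ : Fin n → E d) : Sop D (u - R ξ) = Sop D u - ξ := by
  funext k
  simp only [Sop, Pi.sub_apply, map_sub]
  rw [← hR ξ k]
  abel

/-- Volume of the linear tubes. -/
theorem exists_V (D : Fin n → E d →L[ℝ] E d) (R : (Fin n → E d) →ₗ[ℝ] (Fin (n + 1) → E d))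
    (hR : ∀ ξ (k : Fin n), R ξ k.succ - D k (R ξ k.castSucc) = ξ k) :
    ∃ V : ℝ → ℝ≥0∞, (∀ t, V (32 * t) = 32 ^ d * V t) ∧ ∀ t δ, 0 ≤ δ →
      volume {u : Fin (n + 1) → E d | ‖u - R (Sop D u)‖ ≤ t ∧ ‖Sop D u‖ ≤ δ} =
        V t * volume (closedBall (0 : E d) δ) ^ n := by
  obtain ⟨A, hA⟩ := exists_A D
  have cR : Continuous R := R.continuous_of_finiteDimensional
  refine ⟨fun t => volume {v : E d | ‖A v‖ ≤ t}, fun t => ?_, fun t δ hδ => ?_⟩
  · have e : {v : E d | ‖A v‖ ≤ 32 * t} = (fun v : E d => (32 : ℝ)⁻¹ • v) ⁻¹' {v | ‖A v‖ ≤ t} := by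
      ext v
      simp only [mem_ofPred_eq, mem_preimage, map_smul, norm_smul, norm_inv, Real.norm_ofNat]
      rw [inv_mul_le_iff₀ (by norm_num)]
    show volume {v : E d | ‖A v‖ ≤ 32 * t} = _
    rw [e, Measure.addHaar_preimage_smul _ (by norm_num), finrank_euclideanSpace_fin, inv_pow,
      inv_inv, abs_of_pos (by positivity), ENNReal.ofReal_pow (by norm_num)]
    simp
  · have hmp := measurePreserving_triangular (fun k => D k) fun k => (D k).continuous.measurable
    set Q : Set (E d × (Fin n → E d)) := {p | ‖A (p.1 - R p.2 0)‖ ≤ t ∧ ‖p.2‖ ≤ δ} with hQ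
    have hQm : MeasurableSet Q := by
      have c1 : Continuous fun p : E d × (Fin n → E d) => ‖A (p.1 - R p.2 0)‖ := by fun_prop
      have c2 : Continuous fun p : E d × (Fin n → E d) => ‖p.2‖ := by fun_prop
      exact ((isClosed_le c1 continuous_const).inter
        (isClosed_le c2 continuous_const)).measurableSet
    have e : {u : Fin (n + 1) → E d | ‖u - R (Sop D u)‖ ≤ t ∧ ‖Sop D u‖ ≤ δ} =
        (fun w : Fin (n + 1) → E d =>
          (w 0, fun k : Fin n => w k.succ - D k (w k.castSucc))) ⁻¹' Q := by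
      ext u
      have h1 := hA (u - R (Sop D u)) (by rw [Sop_sub_R D R hR, sub_self])
      simp only [mem_ofPred_eq, mem_preimage, hQ]
      rw [h1]
      rfl
    rw [e, hmp.measure_preimage hQm.nullMeasurableSet, Measure.prod_apply_symm hQm]
    have e2 : ∀ ξ : Fin n → E d, volume ((fun y : E d => (y, ξ)) ⁻¹' Q) =
        (closedBall (0 : Fin n → E d) δ).indicator (fun _ => volume {v : E d | ‖A v‖ ≤ t}) ξ := by
      intro ξ
      by_cases hξ : ‖ξ‖ ≤ δ
      · rw [indicator_of_mem (mem_closedBall_zero_iff.2 hξ),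
          ← measure_preimage_add_right volume (-R ξ 0) {v : E d | ‖A v‖ ≤ t}]
        congr 1
        ext y
        simp [hQ, hξ, sub_eq_add_neg]
      · rw [indicator_of_notMem (mt mem_closedBall_zero_iff.1 hξ)]
        have : (fun y : E d => (y, ξ)) ⁻¹' Q = ∅ := by
          ext y
          simp [hQ, hξ]
        rw [this, measure_empty]
    simp only [e2]
    rw [lintegral_indicator_const measurableSet_closedBall, volume_pi_closedBall _ hδ]
    simp

/-- Orbits of a sequence of maps. -/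
def orb {X : Type} (g : ℕ → X → X) (y : X) (k : ℕ) : X := Nat.rec y (fun j z => g j z) k

theorem orb_zero {X : Type} (g : ℕ → X → X) (y : X) : orb g y 0 = y := rfl

theorem orb_succ {X : Type} (g : ℕ → X → X) (y : X) (k : ℕ) :
    orb g y (k + 1) = g k (orb g y k) := rfl

theorem measurable_orb {X : Type} [MeasurableSpace X] {g : ℕ → X → X} (hg : ∀ k, Measurable (g k))
    (k : ℕ) : Measurable fun y => orb g y k := by
  induction k with
  | zero => exact measurable_id
  | succ k ih => exact (hg k).comp ih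

/-- Pseudo-orbits with a very small defect shadow true orbits. -/
theorem upper {C ρ δ : ℝ} (hC : 1 ≤ C) (hρ : 0 < ρ) (hδ : 0 < δ)
    (hδ' : δ * (1 + 2 * C) ^ n ≤ ρ / 10) (G : E d → E d) (x : E d)
    (hL : ∀ k < n, ∀ u ∈ ball (G^[k] x) ρ, ∀ v ∈ ball (G^[k] x) ρ,
      ‖G u - G v‖ ≤ 2 * C * ‖u - v‖) :
    volume {y : E d | ∀ k ≤ n, ‖G^[k] y - G^[k] x‖ ≤ ρ / 2} *
        volume (closedBall (0 : E d) δ) ^ n ≤
      volume {w : Fin (n + 1) → E d | (∀ k, ‖w k - G^[k] x‖ ≤ 6 * (ρ / 10)) ∧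
        ∀ k : Fin n, ‖w k.succ - G (w k.castSucc)‖ ≤ δ} := by
  classical
  set g : ℕ → E d → E d := fun k => if k < n then (ball (G^[k] x) ρ).piecewise G 0 else 0 with hg
  have hgm : ∀ k, Measurable (g k) := by
    intro k
    by_cases hk : k < n
    · simp only [hg, hk, if_true]
      refine ContinuousOn.measurable_piecewise ?_ continuousOn_const measurableSet_ball
      have hK : (0 : ℝ) ≤ 2 * C := by linarith
      exact (LipschitzOnWith.of_dist_le_mul (K := ⟨2 * C, hK⟩) fun u hu v hv => by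
        rw [dist_eq_norm, dist_eq_norm]
        exact hL k hk u hu v hv).continuousOn
    · simp only [hg, hk, if_false]
      exact measurable_const
  have hgG : ∀ k < n, ∀ u, ‖u - G^[k] x‖ < ρ → g k u = G u := by
    intro k hk u hu
    simp only [hg, hk, if_true]
    exact piecewise_eq_of_mem _ _ _ (mem_ball_iff_norm.2 hu)
  set U : Set (E d) := {y | ∀ k ≤ n, ‖orb g y k - G^[k] x‖ ≤ ρ / 2} with hU
  have hUm : MeasurableSet U := by
    have : U = ⋂ k, ⋂ (_ : k ≤ n), {y | ‖orb g y k - G^[k] x‖ ≤ ρ / 2} := by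
      ext y
      simp [hU]
    rw [this]
    exact MeasurableSet.iInter fun k => MeasurableSet.iInter fun _ =>
      measurableSet_le ((measurable_orb hgm k).sub_const _).norm measurable_const
  have hsub : {y : E d | ∀ k ≤ n, ‖G^[k] y - G^[k] x‖ ≤ ρ / 2} ⊆ U := by
    intro y hy
    have h1 : ∀ k ≤ n, orb g y k = G^[k] y := by
      intro k hk
      induction k with
      | zero => rfl
      | succ k ih =>
        rw [orb_succ, ih (by omega), Function.iterate_succ_apply',
          hgG k (by omega) _ (lt_of_le_of_lt (hy k (by omega)) (by linarith))]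
    intro k hk
    rw [h1 k hk]
    exact hy k hk
  have hmp := measurePreserving_triangular (n := n) (fun k => g k) fun k => hgm k
  have hvol : volume (closedBall (0 : E d) δ) ^ n = volume (closedBall (0 : Fin n → E d) δ) := by
    rw [volume_pi_closedBall _ hδ.le]
    simp
  refine (mul_le_mul_left (measure_mono hsub) _).trans ?_
  rw [hvol, ← Measure.prod_prod,
    ← hmp.measure_preimage (hUm.prod measurableSet_closedBall).nullMeasurableSet]
  refine measure_mono fun w hw => ?_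
  obtain ⟨hw1, hw2⟩ := hw
  have hw3 : ∀ k : Fin n, ‖w k.succ - g k (w k.castSucc)‖ ≤ δ := fun k =>
    (norm_le_pi_norm _ k).trans (mem_closedBall_zero_iff.1 hw2)
  have hpow : ∀ k ≤ n, δ * (1 + 2 * C) ^ k ≤ ρ / 10 := fun k hk =>
    le_trans (mul_le_mul_of_nonneg_left (pow_le_pow_right₀ (by linarith) hk) hδ.le) hδ'
  have hclose : ∀ k : Fin (n + 1), ‖w k - orb g (w 0) k‖ ≤ δ * (1 + 2 * C) ^ (k : ℕ) →
      ‖w k - G^[k] x‖ ≤ 6 * (ρ / 10) := by
    intro k hk
    have h1 : ‖orb g (w 0) k - G^[k] x‖ ≤ ρ / 2 := hw1 k (by omega)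
    have h2 := norm_sub_le_norm_sub_add_norm_sub (w k) (orb g (w 0) k) (G^[k] x)
    have h3 := hpow k (by omega)
    linarith
  have hind : ∀ k : Fin (n + 1), ‖w k - orb g (w 0) k‖ ≤ δ * (1 + 2 * C) ^ (k : ℕ) := by
    intro k
    induction k using Fin.induction with
    | zero => simp [orb_zero, hδ.le]
    | succ k ih =>
      have h1 := hclose _ ih
      simp only [Fin.val_castSucc] at ih h1
      have h2 : ‖orb g (w 0) k - G^[k] x‖ ≤ ρ / 2 := hw1 k (by omega)
      have h3 := hw3 k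
      have h1' : ‖w k.castSucc - G^[k] x‖ < ρ := by linarith
      have h2' : ‖orb g (w 0) k - G^[k] x‖ < ρ := by linarith
      rw [hgG k k.2 _ h1'] at h3
      rw [Fin.val_succ, orb_succ, hgG k k.2 _ h2']
      have h4 := hL k k.2 _ (mem_ball_iff_norm.2 h1') _ (mem_ball_iff_norm.2 h2')
      have h5 := norm_sub_le_norm_sub_add_norm_sub (w k.succ) (G (w k.castSucc))
        (G (orb g (w 0) k))
      have h6 := mul_le_mul_of_nonneg_left ih (by linarith : (0 : ℝ) ≤ 2 * C)
      have h7 : δ ≤ δ * (1 + 2 * C) ^ (k : ℕ) :=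
        le_mul_of_one_le_right hδ.le (one_le_pow₀ (by linarith))
      rw [pow_succ]
      nlinarith
  refine ⟨fun k => hclose k (hind k), fun k => ?_⟩
  have h1 := hclose _ (hind k.castSucc)
  simp only [Fin.val_castSucc] at h1
  rw [← hgG k k.2 _ (by linarith)]
  exact hw3 k

end TubeAux

open TubeAux in
theorem tube_local {d n : ℕ} {C ρ σ δ : ℝ} (hC : 1 ≤ C) (hρ : 0 < ρ) (hρ1 : ρ ≤ 1)
    (hσ : 1 ≤ σ) (hsmall : σ * C * ρ * (d * (n + 1) + 1) ≤ 1 / 10)
    (hδ : 0 < δ) (hδ' : σ * δ ≤ ρ / 40)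
    (G : E d → E d) (D : Fin n → E d →L[ℝ] E d) (x : E d) (hD : ∀ k, ‖D k‖ ≤ C)
    (happ : ∀ k : Fin n, ∀ u ∈ ball (G^[k] x) ρ, ∀ v ∈ ball (G^[k] x) ρ,
      ‖G u - G v - D k (u - v)‖ ≤ C * ρ * ‖u - v‖)
    (hR : HasRightInv D σ) :
    volume {y : E d | ∀ k ≤ n, ‖G^[k] y - G^[k] x‖ ≤ ρ / 2} *
        volume (closedBall (0 : E d) δ) ^ n ≤
      4 * 32 ^ d * volume {w : Fin (n + 1) → E d | (∀ k, ‖w k - G^[k] x‖ ≤ ρ / 10) ∧
        ∀ k : Fin n, ‖w k.succ - G (w k.castSucc)‖ ≤ δ} := by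
  obtain ⟨R, hR1, hR2⟩ := hR
  obtain ⟨V, hV1, hV2⟩ := exists_V D R hR1
  set r := ρ / 10 with hr
  have hr0 : 0 < r := by positivity
  set κ := σ * C * ρ with hκ
  have hκ0 : 0 ≤ κ := by positivity
  have hN0 : (0 : ℝ) ≤ d * (n + 1) := by positivity
  have hκ1 : κ ≤ 1 / 10 := by nlinarith
  have hκ2 : (Module.finrank ℝ (Fin (n + 1) → E d) : ℝ) * κ ≤ 1 / 2 := by
    rw [Module.finrank_pi_fintype]
    simp only [finrank_euclideanSpace_fin, Finset.sum_const, Finset.card_univ, Fintype.card_fin,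
      smul_eq_mul]
    push_cast
    nlinarith
  set xs : Fin (n + 1) → E d := fun k => G^[k] x with hxs
  have hxs1 : ∀ k : Fin n, xs k.succ = G (xs k.castSucc) := fun k => by
    simp only [hxs, Fin.val_succ, Fin.val_castSucc, Function.iterate_succ_apply']
  set Err : (Fin (n + 1) → E d) → Fin n → E d := fun u k =>
    G (u k.castSucc + xs k.castSucc) - xs k.succ - D k (u k.castSucc) with hErr
  set Ψ : (Fin (n + 1) → E d) → Fin (n + 1) → E d := fun u => u - R (Err u) with hΨ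
  set T : ℝ → ℝ → Set (Fin (n + 1) → E d) := fun t η => {u | ‖u‖ ≤ t ∧ ‖Sop D (Ψ u)‖ ≤ η} with hT
  have hF : ∀ u k, Sop D (Ψ u) k = (u + xs) k.succ - G ((u + xs) k.castSucc) := by
    intro u k
    simp only [hΨ]
    rw [Sop_sub_R D R hR1]
    simp only [Sop, hErr, Pi.sub_apply, Pi.add_apply]
    abel
  have hTvol : ∀ t η, 0 ≤ t → 0 ≤ η → volume (T t η) =
      volume {w : Fin (n + 1) → E d | (∀ k, ‖w k - G^[k] x‖ ≤ t) ∧
        ∀ k : Fin n, ‖w k.succ - G (w k.castSucc)‖ ≤ η} := by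
    intro t η ht hη
    rw [← measure_preimage_add_right volume xs {w : Fin (n + 1) → E d | (∀ k, ‖w k - G^[k] x‖ ≤ t) ∧
        ∀ k : Fin n, ‖w k.succ - G (w k.castSucc)‖ ≤ η}]
    congr 1
    ext u
    simp only [hT, mem_ofPred_eq, mem_preimage, pi_norm_le_iff_of_nonneg ht,
      pi_norm_le_iff_of_nonneg hη, hF, Pi.add_apply, hxs, add_sub_cancel_right]
  have hΨ0 : Ψ 0 = 0 := by
    have : Err 0 = 0 := by
      funext k
      simp [hErr, hxs1]
    simp only [hΨ, this, map_zero, sub_zero]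
  have hnear : ∀ u ∈ closedBall (0 : Fin (n + 1) → E d) (6 * r),
      ∀ v ∈ closedBall (0 : Fin (n + 1) → E d) (6 * r),
        ‖Ψ u - Ψ v - (u - v)‖ ≤ κ * ‖u - v‖ := by
    intro u hu v hv
    have hb : ∀ z ∈ closedBall (0 : Fin (n + 1) → E d) (6 * r), ∀ k : Fin n,
        z k.castSucc + xs k.castSucc ∈ ball (G^[k] x) ρ := by
      intro z hz k
      have h1 := (norm_le_pi_norm z k.castSucc).trans (mem_closedBall_zero_iff.1 hz)
      rw [mem_ball_iff_norm]
      simp only [hxs, Fin.val_castSucc, add_sub_cancel_right]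
      linarith
    have h1 : ‖Err v - Err u‖ ≤ C * ρ * ‖u - v‖ := by
      refine (pi_norm_le_iff_of_nonneg (by positivity)).2 fun k => ?_
      have h2 := happ k _ (hb v hv k) _ (hb u hu k)
      rw [add_sub_add_right_eq_sub] at h2
      have h3 : (Err v - Err u) k = G (v k.castSucc + xs k.castSucc) -
          G (u k.castSucc + xs k.castSucc) - D k (v k.castSucc - u k.castSucc) := by
        simp only [hErr, Pi.sub_apply, map_sub]
        abel
      rw [h3]
      refine h2.trans (mul_le_mul_of_nonneg_left ?_ (by positivity))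
      rw [norm_sub_rev]
      exact norm_le_pi_norm (u - v) k.castSucc
    have h4 : Ψ u - Ψ v - (u - v) = R (Err v - Err u) := by
      simp only [hΨ, map_sub]
      abel
    rw [h4]
    refine (hR2 _).trans ((mul_le_mul_of_nonneg_left h1 (by linarith)).trans_eq ?_)
    rw [hκ]
    ring
  have hTsub : ∀ t η, t ≤ 6 * r → T t η ⊆ closedBall (0 : Fin (n + 1) → E d) (6 * r) :=
    fun t η ht u hu => mem_closedBall_zero_iff.2 (hu.1.trans ht)
  -- lower bound
  have hlow : V (r / 4) * volume (closedBall (0 : E d) δ) ^ n ≤ 2 * volume (T r δ) := by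
    rw [← hV2 _ _ hδ.le]
    refine le_trans (measure_mono fun z hz => ?_) (near_id_le volume hκ0 (by linarith) hκ2
      fun u hu v hv => hnear u (hTsub r δ (by linarith) hu) v (hTsub r δ (by linarith) hv))
    obtain ⟨hz1, hz2⟩ := hz
    have h1 : ‖z‖ ≤ r / 2 := by
      have h2 := norm_add_le (z - R (Sop D z)) (R (Sop D z))
      rw [sub_add_cancel] at h2
      have h3 := (hR2 (Sop D z)).trans (mul_le_mul_of_nonneg_left hz2 (by linarith))
      linarith
    have hsub : closedBall (0 : Fin (n + 1) → E d) r ⊆ closedBall 0 (6 * r) :=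
      closedBall_subset_closedBall (by linarith)
    obtain ⟨u, hu1, hu2⟩ := near_id_surj hκ0 (by linarith) hr0.le hΨ0
      (fun u hu v hv => hnear u (hsub hu) v (hsub hv)) h1
    exact ⟨u, ⟨hu1, by rw [hu2]; exact hz2⟩, hu2⟩
  -- upper bound
  obtain ⟨η, hη0, hη1, hη2⟩ : ∃ η : ℝ, 0 < η ∧ η * (1 + 2 * C) ^ n ≤ r ∧ σ * η ≤ r := by
    have h1 : (0 : ℝ) < (1 + 2 * C) ^ n := by positivity
    refine ⟨min (r / (1 + 2 * C) ^ n) (r / σ), by positivity, ?_, ?_⟩
    · exact (le_div_iff₀ h1).1 (min_le_left _ _)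
    · rw [mul_comm]
      exact (le_div_iff₀ (by linarith)).1 (min_le_right _ _)
  have hup1 := upper (n := n) hC hρ hη0 hη1 G x fun k hk u hu v hv => by
    have h1 := happ ⟨k, hk⟩ u hu v hv
    have h2 := (D ⟨k, hk⟩).le_of_opNorm_le (hD _) (u - v)
    have h3 := norm_add_le (G u - G v - D ⟨k, hk⟩ (u - v)) (D ⟨k, hk⟩ (u - v))
    rw [sub_add_cancel] at h3
    have h4 : C * ρ * ‖u - v‖ ≤ C * ‖u - v‖ :=
      mul_le_mul_of_nonneg_right (mul_le_of_le_one_right (by linarith) hρ1) (norm_nonneg _)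
    linarith
  rw [← hTvol _ _ (by positivity) hη0.le] at hup1
  have hup2 : volume (T (6 * r) η) ≤
      2 * (V (32 * (r / 4)) * volume (closedBall (0 : E d) η) ^ n) := by
    rw [← hV2 _ _ hη0.le]
    refine (le_near_id volume (Ψ := Ψ) (by linarith) hκ2
      fun u hu v hv => hnear u (hTsub _ η le_rfl hu) v (hTsub _ η le_rfl hv)).trans
      (mul_le_mul_right (measure_mono ?_) _)
    rintro _ ⟨u, ⟨hu1, hu2⟩, rfl⟩
    refine ⟨?_, hu2⟩
    have h1 := hnear u (mem_closedBall_zero_iff.2 hu1) 0 (mem_closedBall_self (by positivity))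
    rw [hΨ0, sub_zero, sub_zero] at h1
    have h2 := norm_add_le (Ψ u - u) u
    rw [sub_add_cancel] at h2
    have h3 := norm_sub_le (Ψ u) (R (Sop D (Ψ u)))
    have h4 := (hR2 (Sop D (Ψ u))).trans (mul_le_mul_of_nonneg_left hu2 (by linarith))
    have h5 : κ * ‖u‖ ≤ 1 / 10 * (6 * r) := mul_le_mul hκ1 hu1 (norm_nonneg _) (by norm_num)
    linarith
  have hup3 := hup1.trans hup2
  rw [← mul_assoc, ENNReal.mul_le_mul_iff_left
    (pow_ne_zero _ (measure_closedBall_pos volume _ hη0).ne')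
    (ENNReal.pow_ne_top measure_closedBall_lt_top.ne), hV1] at hup3
  rw [← hTvol _ _ hr0.le hδ.le]
  calc _ ≤ 2 * (32 ^ d * V (r / 4)) * volume (closedBall (0 : E d) δ) ^ n :=
        mul_le_mul_left hup3 _
    _ = 2 * 32 ^ d * (V (r / 4) * volume (closedBall (0 : E d) δ) ^ n) := by ring
    _ ≤ 2 * 32 ^ d * (2 * volume (T r δ)) := mul_le_mul_right hlow _
    _ = _ := by ring

end Crest.Agent.R133
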